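import Vale.Agent.P042.FS.Defs

/-! Helper lemmas for `ArithLevel.lean` (helper23). -/

namespace Vale.Agent.P042.FS

open Finset

variable {ι : Type} [Fintype ι] [DecidableEq ι] {N : ι → ℕ} [∀ i, NeZero (N i)]

lemma al_norm_std {n : ℕ} [NeZero n] (a : ZMod n) : ‖(ZMod.stdAddChar a : ℂ)‖ = 1 :=
  AddChar.norm_apply _ _

omit [DecidableEq ι] in
lemma al_norm_chi (ξ x : ∀ i, ZMod (N i)) : ‖chi ξ x‖ = 1 := by
  simp [chi, norm_prod]

lemma al_conj_std {n : ℕ} [NeZero n] (a : ZMod n) :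
    (starRingEnd ℂ) (ZMod.stdAddChar a : ℂ) = ZMod.stdAddChar (-a) := by
  rw [AddChar.map_neg_eq_conj]

lemma al_sum_std {n : ℕ} [NeZero n] (b : ZMod n) :
    ∑ z : ZMod n, (ZMod.stdAddChar (z * b) : ℂ) = if b = 0 then (n : ℂ) else 0 := by
  have h := AddChar.sum_mulShift (ψ := (ZMod.stdAddChar : AddChar (ZMod n) ℂ)) b
    (ZMod.isPrimitive_stdAddChar n)
  rw [h, ZMod.card]
  split_ifs <;> simp

/-- the fibre as a product of finite sets -/
lemma al_fiber_eq (S : Finset ι) (ξ' : ∀ i, ZMod (N i)) :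
    (univ.filter (fun ξ : ∀ i, ZMod (N i) => (∀ i ∈ S, ξ i ≠ 0) ∧ ∀ i, i ∉ S → ξ i = ξ' i)) =
      Fintype.piFinset (fun i => if i ∈ S then univ.filter (fun z : ZMod (N i) => z ≠ 0)
        else {ξ' i}) := by
  ext ξ
  simp only [mem_filter, mem_univ, true_and, Fintype.mem_piFinset]
  constructor
  · rintro ⟨h1, h2⟩ i
    by_cases h : i ∈ S
    · simp [h, h1 i h]
    · simp [h, h2 i h]
  · intro h
    refine ⟨fun i hi => ?_, fun i hi => ?_⟩
    · have := h i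
      simpa [hi] using this
    · have := h i
      simpa [hi] using this

lemma al_sum_std_ne {n : ℕ} [NeZero n] (b : ZMod n) :
    ∑ z ∈ univ.filter (fun z : ZMod n => z ≠ 0), (ZMod.stdAddChar (z * b) : ℂ) =
      (if b = 0 then (n : ℂ) else 0) - 1 := by
  rw [← al_sum_std b]
  rw [← Finset.sum_filter_add_sum_filter_not univ (fun z : ZMod n => z ≠ 0)]
  have : univ.filter (fun z : ZMod n => ¬ (z ≠ 0)) = {0} := by
    ext z; simp
  rw [this]
  simp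

lemma al_chiS_eq (S : Finset ι) (ξ x : ∀ i, ZMod (N i)) :
    chiS S ξ x = ∏ i, (if i ∈ S then (ZMod.stdAddChar (ξ i * x i) : ℂ) else 1) := by
  unfold chiS
  rw [Finset.prod_ite_mem]
  simp

lemma al_fiber_sum (S : Finset ι) (ξ' x y : ∀ i, ZMod (N i)) (h0 : ∀ i ∈ S, ξ' i = 0) :
    ∑ ξ ∈ univ.filter (fun ξ : ∀ i, ZMod (N i) => (∀ i ∈ S, ξ i ≠ 0) ∧
        ∀ i, i ∉ S → ξ i = ξ' i), (starRingEnd ℂ) (chi ξ y) * chiS S ξ x =
      (starRingEnd ℂ) (chi ξ' y) * ∏ i ∈ S, ((if y i = x i then (N i : ℂ) else 0) - 1) := by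
  rw [al_fiber_eq]
  have h1 : ∀ ξ : ∀ i, ZMod (N i), (starRingEnd ℂ) (chi ξ y) * chiS S ξ x =
      ∏ i, (if i ∈ S then (ZMod.stdAddChar (ξ i * (x i - y i)) : ℂ)
        else ZMod.stdAddChar (-(ξ i * y i))) := by
    intro ξ
    rw [al_chiS_eq, chi, map_prod, ← Finset.prod_mul_distrib]
    refine Finset.prod_congr rfl fun i _ => ?_
    rw [al_conj_std]
    by_cases h : i ∈ S
    · simp only [h, if_true]
      rw [← AddChar.map_add_eq_mul]
      congr 1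
      ring
    · simp [h]
  rw [Finset.sum_congr rfl fun ξ _ => h1 ξ]
  have h2 := Finset.prod_univ_sum
    (t := fun i => if i ∈ S then univ.filter (fun z : ZMod (N i) => z ≠ 0) else {ξ' i})
    (f := fun i (z : ZMod (N i)) => (if i ∈ S then (ZMod.stdAddChar (z * (x i - y i)) : ℂ)
        else ZMod.stdAddChar (-(z * y i))))
  rw [← h2]
  have h3 : (starRingEnd ℂ) (chi ξ' y) * ∏ i ∈ S, ((if y i = x i then (N i : ℂ) else 0) - 1) =
      ∏ i, (if i ∈ S then ((if y i = x i then (N i : ℂ) else 0) - 1) else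
        (ZMod.stdAddChar (-(ξ' i * y i)) : ℂ)) := by
    have h4 : ∏ i ∈ S, ((if y i = x i then (N i : ℂ) else 0) - 1) =
        ∏ i, (if i ∈ S then ((if y i = x i then (N i : ℂ) else 0) - 1) else 1) := by
      rw [Finset.prod_ite_mem]; simp
    rw [h4, chi, map_prod, ← Finset.prod_mul_distrib]
    refine Finset.prod_congr rfl fun i _ => ?_
    rw [al_conj_std]
    by_cases h : i ∈ S
    · simp [h, h0 i h]
    · simp [h]
  rw [h3]
  refine Finset.prod_congr rfl fun i _ => ?_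
  by_cases h : i ∈ S
  · simp only [h, if_true]
    rw [al_sum_std_ne]
    have : (x i - y i = 0) ↔ (y i = x i) := by rw [sub_eq_zero, eq_comm]
    simp only [this]
  · simp [h]

/-- sum over the group of a product function -/
lemma al_sum_prod (f : ∀ i, ZMod (N i) → ℂ) :
    ∑ x : ∀ i, ZMod (N i), ∏ i, f i (x i) = ∏ i, ∑ z, f i z := by
  have h2 := Finset.prod_univ_sum (t := fun i => (univ : Finset (ZMod (N i)))) (f := f)
  rw [h2, Fintype.piFinset_univ]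

lemma al_orth (S : Finset ι) (ξ η ξ' : ∀ i, ZMod (N i)) (hξ : ∀ i, i ∉ S → ξ i = ξ' i)
    (hη : ∀ i, i ∉ S → η i = ξ' i) :
    ∑ x : ∀ i, ZMod (N i), chiS S ξ x * (starRingEnd ℂ) (chiS S η x) =
      if ξ = η then (Fintype.card (∀ i, ZMod (N i)) : ℂ) else 0 := by
  have h1 : ∀ x : ∀ i, ZMod (N i), chiS S ξ x * (starRingEnd ℂ) (chiS S η x) =
      ∏ i, (if i ∈ S then (ZMod.stdAddChar (x i * (ξ i - η i)) : ℂ) else 1) := by
    intro x
    rw [al_chiS_eq, al_chiS_eq, map_prod, ← Finset.prod_mul_distrib]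
    refine Finset.prod_congr rfl fun i _ => ?_
    by_cases h : i ∈ S
    · simp only [h, if_true]
      rw [al_conj_std, ← AddChar.map_add_eq_mul]
      congr 1
      ring
    · simp [h]
  rw [Finset.sum_congr rfl fun x _ => h1 x]
  rw [al_sum_prod (fun i z => (if i ∈ S then (ZMod.stdAddChar (z * (ξ i - η i)) : ℂ) else 1))]
  have h2 : ∀ i, ∑ z : ZMod (N i), (if i ∈ S then (ZMod.stdAddChar (z * (ξ i - η i)) : ℂ) else 1)
      = if ξ i = η i then (N i : ℂ) else 0 := by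
    intro i
    by_cases h : i ∈ S
    · simp only [h, if_true]
      rw [al_sum_std]
      simp only [sub_eq_zero]
    · have : ξ i = η i := by rw [hξ i h, hη i h]
      simp [h, this, ZMod.card]
  rw [Finset.prod_congr rfl fun i _ => h2 i]
  by_cases h : ξ = η
  · subst h
    simp [Fintype.card_pi, ZMod.card]
  · rw [if_neg h]
    obtain ⟨i, hi⟩ : ∃ i, ξ i ≠ η i := by
      by_contra hcon
      push Not at hcon
      exact h (funext hcon)
    exact Finset.prod_eq_zero (Finset.mem_univ i) (by simp [hi])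

/-- Parseval on a fibre -/
lemma al_parseval (S : Finset ι) (ξ' : ∀ i, ZMod (N i)) (c : (∀ i, ZMod (N i)) → ℂ) :
    ∑ x : ∀ i, ZMod (N i), ‖∑ ξ ∈ univ.filter (fun ξ : ∀ i, ZMod (N i) =>
        (∀ i ∈ S, ξ i ≠ 0) ∧ ∀ i, i ∉ S → ξ i = ξ' i), c ξ * chiS S ξ x‖ ^ 2 =
      (Fintype.card (∀ i, ZMod (N i)) : ℝ) *
        ∑ ξ ∈ univ.filter (fun ξ : ∀ i, ZMod (N i) =>
        (∀ i ∈ S, ξ i ≠ 0) ∧ ∀ i, i ∉ S → ξ i = ξ' i), ‖c ξ‖ ^ 2 := by
  set T := univ.filter (fun ξ : ∀ i, ZMod (N i) =>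
        (∀ i ∈ S, ξ i ≠ 0) ∧ ∀ i, i ∉ S → ξ i = ξ' i) with hT
  have key : ((∑ x : ∀ i, ZMod (N i), ‖∑ ξ ∈ T, c ξ * chiS S ξ x‖ ^ 2 : ℝ) : ℂ) =
      (((Fintype.card (∀ i, ZMod (N i)) : ℝ) * ∑ ξ ∈ T, ‖c ξ‖ ^ 2 : ℝ) : ℂ) := by
    push_cast
    have h1 : ∀ x : ∀ i, ZMod (N i), ((‖∑ ξ ∈ T, c ξ * chiS S ξ x‖ : ℂ)) ^ 2 =
        ∑ ξ ∈ T, ∑ η ∈ T, c ξ * (starRingEnd ℂ) (c η) *
          (chiS S ξ x * (starRingEnd ℂ) (chiS S η x)) := by
      intro x
      rw [← Complex.mul_conj', map_sum, Finset.sum_mul_sum]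
      refine Finset.sum_congr rfl fun ξ _ => Finset.sum_congr rfl fun η _ => ?_
      rw [map_mul]; ring
    rw [Finset.sum_congr rfl fun x _ => h1 x, Finset.sum_comm, Finset.mul_sum]
    refine Finset.sum_congr rfl fun ξ hξ => ?_
    rw [Finset.sum_comm]
    have h2 : ∀ η ∈ T, ∑ x : ∀ i, ZMod (N i), c ξ * (starRingEnd ℂ) (c η) *
          (chiS S ξ x * (starRingEnd ℂ) (chiS S η x)) =
        if ξ = η then c ξ * (starRingEnd ℂ) (c η) * (Fintype.card (∀ i, ZMod (N i)) : ℂ)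
          else 0 := by
      intro η hη
      rw [← Finset.mul_sum]
      rw [al_orth S ξ η ξ' (by simpa [hT] using (mem_filter.mp hξ).2.2)
        (by simpa [hT] using (mem_filter.mp hη).2.2)]
      split_ifs <;> simp
    rw [Finset.sum_congr rfl h2, Finset.sum_ite_eq]
    simp only [hξ, if_true]
    rw [Complex.mul_conj']
    ring
  exact_mod_cast key

/-- Minkowski's inequality for weighted square sums -/
lemma al_minkowski {X T : Type} [Fintype X] (s : Finset T) (w : X → ℝ) (hw : ∀ ξ, 0 ≤ w ξ)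
    (b : T → X → ℂ) (C : T → ℝ) (hC : ∀ t ∈ s, 0 ≤ C t)
    (h : ∀ t ∈ s, ∑ ξ, w ξ * ‖b t ξ‖ ^ 2 ≤ (C t) ^ 2) :
    ∑ ξ, w ξ * ‖∑ t ∈ s, b t ξ‖ ^ 2 ≤ (∑ t ∈ s, C t) ^ 2 := by
  have hn : ∀ g : X → ℂ, ‖(WithLp.toLp 2 (fun ξ => ((Real.sqrt (w ξ) : ℝ) : ℂ) * g ξ) :
      EuclideanSpace ℂ X)‖ ^ 2 = ∑ ξ, w ξ * ‖g ξ‖ ^ 2 := by
    intro g
    rw [EuclideanSpace.norm_sq_eq]
    refine Finset.sum_congr rfl fun ξ _ => ?_
    simp only [norm_mul, Complex.norm_real, Real.norm_eq_abs, mul_pow, sq_abs]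
    rw [Real.sq_sqrt (hw ξ)]
  rw [← hn]
  have h1 : (WithLp.toLp 2 (fun ξ => ((Real.sqrt (w ξ) : ℝ) : ℂ) * ∑ t ∈ s, b t ξ) :
      EuclideanSpace ℂ X) = ∑ t ∈ s, (WithLp.toLp 2 (fun ξ => ((Real.sqrt (w ξ) : ℝ) : ℂ) * b t ξ) :
      EuclideanSpace ℂ X) := by
    ext ξ
    simp [Finset.mul_sum]
  rw [h1]
  refine pow_le_pow_left₀ (norm_nonneg _) ?_ 2
  refine (norm_sum_le _ _).trans (Finset.sum_le_sum fun t ht => ?_)
  refine le_of_sq_le_sq ?_ (hC t ht)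
  rw [hn]
  exact h t ht

/-- power mean inequality with weights -/
lemma al_power_mean {T : Type} (s : Finset T) (w x : T → ℝ) (hw : ∀ t ∈ s, 0 ≤ w t)
    (hx : ∀ t ∈ s, 0 ≤ x t) (p : ℕ) (hp : 1 ≤ p) :
    (∑ t ∈ s, w t * x t) ^ p ≤ (∑ t ∈ s, w t) ^ (p - 1) * ∑ t ∈ s, w t * x t ^ p := by
  rcases (Finset.sum_nonneg hw).eq_or_lt with h0 | h0
  · have hz : ∀ t ∈ s, w t = 0 := (Finset.sum_eq_zero_iff_of_nonneg hw).mp h0.symm
    have h1 : ∑ t ∈ s, w t * x t = 0 := Finset.sum_eq_zero fun t ht => by rw [hz t ht, zero_mul]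
    have h2 : ∑ t ∈ s, w t * x t ^ p = 0 :=
      Finset.sum_eq_zero fun t ht => by rw [hz t ht, zero_mul]
    rw [h1, h2, mul_zero, zero_pow (by omega)]
  · set W := ∑ t ∈ s, w t with hW
    have h := Real.pow_arith_mean_le_arith_mean_pow s (fun t => w t / W) x
      (fun t ht => div_nonneg (hw t ht) h0.le) (by rw [← Finset.sum_div, div_self h0.ne']) hx p
    have h1 : ∑ t ∈ s, w t / W * x t = (∑ t ∈ s, w t * x t) / W := by
      rw [Finset.sum_div]; exact Finset.sum_congr rfl fun t _ => by ring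
    have h2 : ∑ t ∈ s, w t / W * x t ^ p = (∑ t ∈ s, w t * x t ^ p) / W := by
      rw [Finset.sum_div]; exact Finset.sum_congr rfl fun t _ => by ring
    rw [h1, h2, div_pow, div_le_div_iff₀ (pow_pos h0 p) h0] at h
    have h3 : W ^ p = W ^ (p - 1) * W := by
      rw [← pow_succ]; congr 1; omega
    rw [h3] at h
    have h4 : (∑ t ∈ s, w t * x t) ^ p * W ≤ (W ^ (p - 1) * ∑ t ∈ s, w t * x t ^ p) * W := by
      linarith
    exact le_of_mul_le_mul_right h4 h0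

end Vale.Agent.P042.FS
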