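import Vale.Agent.P042.FS.HCOne
import Vale.Agent.P042.FS.ArithA

/-! Induction step for `hc_char` (helper23). -/

namespace Vale.Agent.P042.FS

open Finset

/-- complex version of `hc_one` -/
theorem hc_oneC {κ Ω : Type} [Fintype κ] [Fintype Ω] [Nonempty Ω] (m : ℕ) (hm : 1 ≤ m)
    (a : κ → ℂ) (X : Ω → κ → ℂ) (hX : ∀ j, ∑ t, X t j = 0) :
    (∑ t, (∑ j, ‖a j + ((1 / (48 * m) : ℝ) : ℂ) * X t j‖ ^ 2) ^ m) / Fintype.card Ω ≤
      (∑ j, ‖a j‖ ^ 2 + 1 / (256 * m) * ((∑ t, ∑ j, ‖X t j‖ ^ 2) / Fintype.card Ω)) ^ m +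
        (1 / 8) ^ (2 * m) * ((∑ t, (∑ j, ‖X t j‖ ^ 2) ^ m) / Fintype.card Ω) := by
  have h := hc_one (κ := κ ⊕ κ) (Ω := Ω) m hm (Sum.elim (fun j => (a j).re) (fun j => (a j).im))
    (fun t => Sum.elim (fun j => (X t j).re) (fun j => (X t j).im)) (by
      rintro (j | j)
      · have := congrArg Complex.re (hX j)
        simpa [Complex.re_sum] using this
      · have := congrArg Complex.im (hX j)
        simpa [Complex.im_sum] using this)
  have e : ∀ z : ℂ, ‖z‖ ^ 2 = z.re ^ 2 + z.im ^ 2 := by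
    intro z
    rw [Complex.sq_norm, Complex.normSq_apply]; ring
  simp only [Fintype.sum_sum_type, Sum.elim_inl, Sum.elim_inr] at h
  have e1 : ∀ t, ∑ j, ‖a j + ((1 / (48 * m) : ℝ) : ℂ) * X t j‖ ^ 2 =
      ∑ j, ((a j).re + 1 / (48 * m) * (X t j).re) ^ 2 +
        ∑ j, ((a j).im + 1 / (48 * m) * (X t j).im) ^ 2 := by
    intro t
    rw [← Finset.sum_add_distrib]
    refine Finset.sum_congr rfl fun j _ => ?_
    rw [e, Complex.add_re, Complex.add_im, Complex.re_ofReal_mul, Complex.im_ofReal_mul]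
  have e2 : ∑ j, ‖a j‖ ^ 2 = ∑ j, (a j).re ^ 2 + ∑ j, (a j).im ^ 2 := by
    rw [← Finset.sum_add_distrib]
    exact Finset.sum_congr rfl fun j _ => e _
  have e3 : ∀ t, ∑ j, ‖X t j‖ ^ 2 = ∑ j, (X t j).re ^ 2 + ∑ j, (X t j).im ^ 2 := by
    intro t
    rw [← Finset.sum_add_distrib]
    exact Finset.sum_congr rfl fun j _ => e _
  simp only [e1, e2, e3]
  exact h

/-- Parseval on `ZMod n` -/
lemma hc_pars {n : ℕ} [NeZero n] (g : ZMod n → ℂ) :
    ∑ t : ZMod n, ‖∑ s, (ZMod.stdAddChar (s * t) : ℂ) * g s‖ ^ 2 = n * ∑ s, ‖g s‖ ^ 2 := by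
  have key : ((∑ t : ZMod n, ‖∑ s, (ZMod.stdAddChar (s * t) : ℂ) * g s‖ ^ 2 : ℝ) : ℂ) =
      ((n * ∑ s, ‖g s‖ ^ 2 : ℝ) : ℂ) := by
    push_cast
    have h1 : ∀ t : ZMod n, ((‖∑ s, (ZMod.stdAddChar (s * t) : ℂ) * g s‖ : ℂ)) ^ 2 =
        ∑ s, ∑ s', g s * (starRingEnd ℂ) (g s') * (ZMod.stdAddChar (t * (s - s')) : ℂ) := by
      intro t
      rw [← Complex.mul_conj', map_sum, Finset.sum_mul_sum]
      refine Finset.sum_congr rfl fun s _ => Finset.sum_congr rfl fun s' _ => ?_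
      rw [map_mul (starRingEnd ℂ), al_conj_std]
      have : (ZMod.stdAddChar (t * (s - s')) : ℂ) =
          ZMod.stdAddChar (s * t) * ZMod.stdAddChar (-(s' * t)) := by
        rw [← AddChar.map_add_eq_mul]; congr 1; ring
      rw [this]; ring
    rw [Finset.sum_congr rfl fun t _ => h1 t, Finset.sum_comm, Finset.mul_sum]
    refine Finset.sum_congr rfl fun s _ => ?_
    rw [Finset.sum_comm]
    have h2 : ∀ s' : ZMod n, ∑ t : ZMod n, g s * (starRingEnd ℂ) (g s') *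
        (ZMod.stdAddChar (t * (s - s')) : ℂ) =
        if s = s' then g s * (starRingEnd ℂ) (g s') * (n : ℂ) else 0 := by
      intro s'
      rw [← Finset.mul_sum, al_sum_std]
      simp only [sub_eq_zero]
      split_ifs <;> simp
    rw [Finset.sum_congr rfl fun s' _ => h2 s', Finset.sum_ite_eq]
    simp only [Finset.mem_univ, if_true]
    rw [Complex.mul_conj']
    ring
  exact_mod_cast key

variable {ι : Type} [Fintype ι] [DecidableEq ι] {N : ι → ℕ} [∀ i, NeZero (N i)]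

/-- partial sum: `ξ` nonzero on `S`, equal to `ξ'` on `J \ S`, free off `J` -/
noncomputable def hcW (ρ : ℝ) (c : (∀ i, ZMod (N i)) → ℂ) (J S : Finset ι)
    (ξ' x : ∀ i, ZMod (N i)) : ℂ :=
  ∑ ξ ∈ univ.filter (fun ξ : ∀ i, ZMod (N i) => (∀ i ∈ S, ξ i ≠ 0) ∧ ∀ i ∈ J \ S, ξ i = ξ' i),
    ((ρ ^ (spt ξ \ J).card : ℝ) : ℂ) * c ξ * chi ξ x

lemma hc_chi_shift (ξ x : ∀ i, ZMod (N i)) (i : ι) (t : ZMod (N i)) :
    chi ξ (x + Pi.single i t) = chi ξ x * (ZMod.stdAddChar (ξ i * t) : ℂ) := by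
  unfold chi
  have h1 : ∀ j, (ZMod.stdAddChar (ξ j * (x + (Pi.single i t : ∀ i, ZMod (N i))) j) : ℂ) =
      ZMod.stdAddChar (ξ j * x j) *
        (ZMod.stdAddChar (ξ j * (Pi.single i t : ∀ i, ZMod (N i)) j) : ℂ) := by
    intro j
    rw [← AddChar.map_add_eq_mul, Pi.add_apply, mul_add]
  rw [Finset.prod_congr rfl fun j _ => h1 j, Finset.prod_mul_distrib]
  congr 1
  rw [Finset.prod_eq_single i]
  · rw [Pi.single_eq_same]
  · intro j _ hj
    rw [Pi.single_eq_of_ne hj]; simp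
  · intro h; exact absurd (Finset.mem_univ i) h

omit [∀ i, NeZero (N i)] in
lemma hc_card_insert (ξ : ∀ i, ZMod (N i)) (J : Finset ι) (i : ι) (hi : i ∉ J) :
    (spt ξ \ J).card = (spt ξ \ insert i J).card + (if ξ i = 0 then 0 else 1) := by
  by_cases h : ξ i = 0
  · rw [if_pos h, add_zero]
    congr 1
    ext j
    simp only [spt, mem_sdiff, mem_filter, mem_univ, true_and, mem_insert, not_or]
    constructor
    · rintro ⟨h1, h2⟩
      refine ⟨h1, ?_, h2⟩
      rintro rfl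
      exact h1 h
    · rintro ⟨h1, _, h2⟩
      exact ⟨h1, h2⟩
  · rw [if_neg h]
    have : spt ξ \ J = insert i (spt ξ \ insert i J) := by
      ext j
      simp only [spt, mem_sdiff, mem_filter, mem_univ, true_and, mem_insert, not_or]
      constructor
      · rintro ⟨h1, h2⟩
        by_cases hj : j = i
        · exact Or.inl hj
        · exact Or.inr ⟨h1, hj, h2⟩
      · rintro (rfl | ⟨h1, _, h2⟩)
        · exact ⟨h, hi⟩
        · exact ⟨h1, h2⟩
    rw [this, Finset.card_insert_of_notMem]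
    simp

lemma hcW_split (ρ : ℝ) (c : (∀ i, ZMod (N i)) → ℂ) (J S : Finset ι) (hSJ : S ⊆ J) (i : ι)
    (hi : i ∉ J) (ξ' x : ∀ i, ZMod (N i)) (t : ZMod (N i)) :
    hcW ρ c J S ξ' (x + Pi.single i t) =
      ∑ s : ZMod (N i), (((if s = 0 then 1 else ρ) : ℝ) : ℂ) * (ZMod.stdAddChar (s * t) : ℂ) *
        hcW ρ c (insert i J) S (Function.update ξ' i s) x := by
  have hiS : i ∉ S := fun h => hi (hSJ h)
  unfold hcW
  rw [← Finset.sum_fiberwise _ (fun ξ : ∀ i, ZMod (N i) => ξ i)]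
  refine Finset.sum_congr rfl fun s _ => ?_
  have hset : (univ.filter (fun ξ : ∀ i, ZMod (N i) => (∀ l ∈ S, ξ l ≠ 0) ∧
      ∀ l ∈ J \ S, ξ l = ξ' l)).filter (fun ξ => ξ i = s) =
      univ.filter (fun ξ : ∀ i, ZMod (N i) => (∀ l ∈ S, ξ l ≠ 0) ∧
        ∀ l ∈ insert i J \ S, ξ l = Function.update ξ' i s l) := by
    ext ξ
    simp only [mem_filter, mem_univ, true_and, mem_sdiff, mem_insert]
    constructor
    · rintro ⟨⟨h1, h2⟩, h3⟩
      refine ⟨h1, ?_⟩
      rintro l ⟨rfl | hl, hlS⟩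
      · rw [Function.update_self]; exact h3
      · have hne : l ≠ i := fun h => hi (h ▸ hl)
        rw [Function.update_of_ne hne]
        exact h2 l ⟨hl, hlS⟩
    · rintro ⟨h1, h2⟩
      refine ⟨⟨h1, ?_⟩, ?_⟩
      · rintro l ⟨hl, hlS⟩
        have hne : l ≠ i := fun h => hi (h ▸ hl)
        have := h2 l ⟨Or.inr hl, hlS⟩
        rwa [Function.update_of_ne hne] at this
      · have := h2 i ⟨Or.inl rfl, hiS⟩
        rwa [Function.update_self] at this
  rw [hset, Finset.mul_sum]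
  refine Finset.sum_congr rfl fun ξ hξ => ?_
  have hs : ξ i = s := by
    have := (mem_filter.mp hξ).2.2 i (by simp [hiS])
    rwa [Function.update_self] at this
  rw [hc_chi_shift, hc_card_insert ξ J i hi, hs]
  by_cases h : s = 0
  · simp only [h, if_true, add_zero]
    push_cast
    ring
  · simp only [h, if_false, pow_succ]
    push_cast
    ring

lemma hcW_top (ρ : ℝ) (c : (∀ i, ZMod (N i)) → ℂ) (J S : Finset ι) (hSJ : S ⊆ J) (i : ι)
    (hi : i ∉ J) (ξ' x : ∀ i, ZMod (N i)) (t : ZMod (N i)) :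
    hcW ρ c (insert i J) (insert i S) ξ' (x + Pi.single i t) =
      ∑ s : ZMod (N i), (ZMod.stdAddChar (s * t) : ℂ) *
        (if s = 0 then 0 else hcW ρ c (insert i J) S (Function.update ξ' i s) x) := by
  have hiS : i ∉ S := fun h => hi (hSJ h)
  unfold hcW
  rw [← Finset.sum_fiberwise _ (fun ξ : ∀ i, ZMod (N i) => ξ i)]
  refine Finset.sum_congr rfl fun s _ => ?_
  by_cases h : s = 0
  · rw [if_pos h, mul_zero]
    refine Finset.sum_eq_zero fun ξ hξ => ?_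
    exfalso
    simp only [mem_filter, mem_univ, true_and] at hξ
    exact hξ.1.1 i (mem_insert_self _ _) (hξ.2.trans h)
  rw [if_neg h]
  have hset : (univ.filter (fun ξ : ∀ i, ZMod (N i) => (∀ l ∈ insert i S, ξ l ≠ 0) ∧
      ∀ l ∈ insert i J \ insert i S, ξ l = ξ' l)).filter (fun ξ => ξ i = s) =
      univ.filter (fun ξ : ∀ i, ZMod (N i) => (∀ l ∈ S, ξ l ≠ 0) ∧
        ∀ l ∈ insert i J \ S, ξ l = Function.update ξ' i s l) := by
    ext ξ
    simp only [mem_filter, mem_univ, true_and, mem_sdiff, mem_insert]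
    constructor
    · rintro ⟨⟨h1, h2⟩, h3⟩
      refine ⟨fun l hl => h1 l (Or.inr hl), ?_⟩
      rintro l ⟨hl, hlS⟩
      by_cases hli : l = i
      · subst hli
        rw [Function.update_self]; exact h3
      · rw [Function.update_of_ne hli]
        exact h2 l ⟨hl, by rintro (h4 | h4); exacts [hli h4, hlS h4]⟩
    · rintro ⟨h1, h2⟩
      have h3 : ξ i = s := by
        have := h2 i ⟨Or.inl rfl, hiS⟩
        rwa [Function.update_self] at this
      refine ⟨⟨?_, ?_⟩, h3⟩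
      · rintro l (rfl | hl)
        · rw [h3]; exact h
        · exact h1 l hl
      · rintro l ⟨hl, hlS⟩
        have hli : l ≠ i := fun h4 => hlS (Or.inl h4)
        have := h2 l ⟨hl, fun h4 => hlS (Or.inr h4)⟩
        rwa [Function.update_of_ne hli] at this
  rw [hset, Finset.mul_sum]
  refine Finset.sum_congr rfl fun ξ hξ => ?_
  have hs : ξ i = s := by
    have := (mem_filter.mp hξ).2.2 i (by simp [hiS])
    rwa [Function.update_self] at this
  rw [hc_chi_shift, hs]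
  ring

/-- frequencies supported in `J \ S` -/
def hcZ (N : ι → ℕ) [∀ i, NeZero (N i)] (J S : Finset ι) : Finset (∀ i, ZMod (N i)) :=
  univ.filter (fun ξ' : ∀ i, ZMod (N i) => ∀ l, l ∉ J \ S → ξ' l = 0)

omit [∀ i, NeZero (N i)] in
lemma hc_spt_update (ξ' : ∀ i, ZMod (N i)) (i : ι) (h0 : ξ' i = 0) (s : ZMod (N i)) :
    (spt (Function.update ξ' i s)).card = (spt ξ').card + (if s = 0 then 0 else 1) := by
  by_cases h : s = 0
  · rw [if_pos h, add_zero]
    congr 2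
    rw [h, ← h0, Function.update_eq_self]
  · rw [if_neg h]
    have : spt (Function.update ξ' i s) = insert i (spt ξ') := by
      ext j
      simp only [spt, mem_filter, mem_univ, true_and, mem_insert]
      by_cases hj : j = i
      · subst hj; simp [h]
      · rw [Function.update_of_ne hj]; simp [hj]
    rw [this, Finset.card_insert_of_notMem]
    simp [spt, h0]

lemma hc_sum_Z (J S : Finset ι) (hSJ : S ⊆ J) (i : ι) (hi : i ∉ J)
    (F : (∀ i, ZMod (N i)) → ℝ) (k : ℝ) :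
    ∑ ξ'' ∈ hcZ N (insert i J) S, k ^ (spt ξ'').card * F ξ'' =
      ∑ ξ' ∈ hcZ N J S, ∑ s : ZMod (N i), k ^ ((spt ξ').card + (if s = 0 then 0 else 1)) *
        F (Function.update ξ' i s) := by
  have hiS : i ∉ S := fun h => hi (hSJ h)
  rw [← Finset.sum_product']
  symm
  refine Finset.sum_nbij' (fun p => Function.update p.1 i p.2)
    (fun ξ'' => (Function.update ξ'' i 0, ξ'' i)) ?_ ?_ ?_ ?_ ?_
  · rintro ⟨ξ', s⟩ hp
    simp only [hcZ, mem_product, mem_filter, mem_univ, true_and, and_true, mem_sdiff] at hp ⊢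
    intro l hl
    have hli : l ≠ i := by
      rintro rfl
      exact hl ⟨mem_insert_self _ _, hiS⟩
    rw [Function.update_of_ne hli]
    exact hp l (fun h => hl ⟨mem_insert_of_mem h.1, h.2⟩)
  · intro ξ'' h
    simp only [hcZ, mem_product, mem_filter, mem_univ, true_and, and_true, mem_sdiff] at h ⊢
    intro l hl
    by_cases hli : l = i
    · subst hli; simp
    · rw [Function.update_of_ne hli]
      refine h l (fun h' => hl ⟨?_, h'.2⟩)
      rcases mem_insert.mp h'.1 with h4 | h4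
      · exact absurd h4 hli
      · exact h4
  · rintro ⟨ξ', s⟩ hp
    simp only [hcZ, mem_product, mem_filter, mem_univ, true_and, and_true, mem_sdiff] at hp
    have h0 : ξ' i = 0 := hp i (fun h => hi h.1)
    simp only [Function.update_idem, Function.update_self, Prod.mk.injEq, and_true]
    rw [← h0, Function.update_eq_self]
  · intro ξ'' _
    simp
  · rintro ⟨ξ', s⟩ hp
    simp only [hcZ, mem_product, mem_filter, mem_univ, true_and, and_true, mem_sdiff] at hp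
    have h0 : ξ' i = 0 := hp i (fun h => hi h.1)
    simp only
    rw [hc_spt_update ξ' i h0 s]

lemma hc_avg (F : (∀ i, ZMod (N i)) → ℝ) (i : ι) :
    ∑ x : ∀ i, ZMod (N i), F x =
      ∑ x : ∀ i, ZMod (N i), (∑ t : ZMod (N i), F (x + Pi.single i t)) / (N i : ℝ) := by
  rw [← Finset.sum_div, Finset.sum_comm]
  have h1 : ∀ t : ZMod (N i), ∑ x : ∀ i, ZMod (N i), F (x + Pi.single i t) = ∑ x, F x :=
    fun t => Equiv.sum_comp (Equiv.addRight (Pi.single i t : ∀ i, ZMod (N i))) F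
  rw [Finset.sum_congr rfl fun t _ => h1 t, Finset.sum_const, Finset.card_univ, ZMod.card,
    nsmul_eq_mul]
  have : (N i : ℝ) ≠ 0 := Nat.cast_ne_zero.mpr (NeZero.ne _)
  field_simp

/-- the sum attached to `(J, S)` -/
noncomputable def hcG (m : ℕ) (c : (∀ i, ZMod (N i)) → ℂ) (J S : Finset ι) : ℝ :=
  ∑ x : ∀ i, ZMod (N i), (∑ ξ' ∈ hcZ N J S, (1 / (256 * m : ℝ)) ^ (spt ξ').card *
    ‖hcW (1 / (48 * m : ℝ)) c J S ξ' x‖ ^ 2) ^ m

lemma hc_step (m : ℕ) (hm : 1 ≤ m) (c : (∀ i, ZMod (N i)) → ℂ) (J S : Finset ι) (hSJ : S ⊆ J)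
    (i : ι) (hi : i ∉ J) :
    hcG m c J S ≤ hcG m c (insert i J) S +
      (1 / 8 : ℝ) ^ (2 * m) * hcG m c (insert i J) (insert i S) := by
  have hiS : i ∉ S := fun h => hi (hSJ h)
  have hNi : (N i : ℝ) ≠ 0 := Nat.cast_ne_zero.mpr (NeZero.ne _)
  set k : ℝ := 1 / (256 * m : ℝ) with hk
  have hk0 : 0 ≤ k := by positivity
  set ρ : ℝ := 1 / (48 * m : ℝ) with hρ
  set Z := hcZ N J S with hZ
  have hZZ : hcZ N (insert i J) (insert i S) = Z := by
    rw [hZ]
    unfold hcZ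
    congr 1
    funext ξ'
    have : insert i J \ insert i S = J \ S := by
      ext l
      simp only [mem_sdiff, mem_insert, not_or]
      constructor
      · rintro ⟨h1 | h1, h2, h3⟩
        · exact absurd h1 h2
        · exact ⟨h1, h3⟩
      · rintro ⟨h1, h2⟩
        exact ⟨Or.inr h1, fun h => hi (h ▸ h1), h2⟩
    rw [this]
  unfold hcG
  rw [hZZ, ← hk, ← hρ]
  rw [hc_avg (fun x => (∑ ξ' ∈ Z, k ^ (spt ξ').card * ‖hcW ρ c J S ξ' x‖ ^ 2) ^ m) i]
  rw [hc_avg (fun x => (∑ ξ' ∈ Z, k ^ (spt ξ').card *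
    ‖hcW ρ c (insert i J) (insert i S) ξ' x‖ ^ 2) ^ m) i]
  rw [Finset.mul_sum, ← Finset.sum_add_distrib]
  refine Finset.sum_le_sum fun x _ => ?_
  -- the vectors
  set w : (∀ i, ZMod (N i)) → ℝ := fun ξ' => if ξ' ∈ Z then Real.sqrt (k ^ (spt ξ').card) else 0
    with hw
  have hw2 : ∀ (ξ' : ∀ i, ZMod (N i)) (z : ℂ), ‖(w ξ' : ℂ) * z‖ ^ 2 =
      if ξ' ∈ Z then k ^ (spt ξ').card * ‖z‖ ^ 2 else 0 := by
    intro ξ' z
    rw [norm_mul, Complex.norm_real, mul_pow, Real.norm_eq_abs, sq_abs]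
    simp only [hw]
    split_ifs
    · rw [Real.sq_sqrt (by positivity)]
    · simp
  have hsumZ : ∀ g : (∀ i, ZMod (N i)) → ℂ, ∑ ξ', ‖(w ξ' : ℂ) * g ξ'‖ ^ 2 =
      ∑ ξ' ∈ Z, k ^ (spt ξ').card * ‖g ξ'‖ ^ 2 := by
    intro g
    rw [Finset.sum_congr rfl fun ξ' _ => hw2 ξ' (g ξ'), Finset.sum_ite_mem, Finset.univ_inter]
  set B : (∀ i, ZMod (N i)) → ZMod (N i) → ℂ := fun ξ' s =>
    hcW ρ c (insert i J) S (Function.update ξ' i s) x with hB
  set A : (∀ i, ZMod (N i)) → ℂ := fun ξ' => (w ξ' : ℂ) * B ξ' 0 with hA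
  set X : ZMod (N i) → (∀ i, ZMod (N i)) → ℂ := fun t ξ' => (w ξ' : ℂ) *
    hcW ρ c (insert i J) (insert i S) ξ' (x + Pi.single i t) with hX
  have htop : ∀ ξ' t, hcW ρ c (insert i J) (insert i S) ξ' (x + Pi.single i t) =
      ∑ s, (ZMod.stdAddChar (s * t) : ℂ) * (if s = 0 then 0 else B ξ' s) :=
    fun ξ' t => hcW_top ρ c J S hSJ i hi ξ' x t
  have hX0 : ∀ ξ', ∑ t, X t ξ' = 0 := by
    intro ξ'
    simp only [hX]
    rw [← Finset.mul_sum, Finset.sum_congr rfl fun t _ => htop ξ' t, Finset.sum_comm]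
    refine mul_eq_zero_of_right _ (Finset.sum_eq_zero fun s _ => ?_)
    rw [← Finset.sum_mul]
    by_cases h : s = 0
    · simp [h]
    · have : ∑ t : ZMod (N i), (ZMod.stdAddChar (s * t) : ℂ) = 0 := by
        have := al_sum_std s
        rw [if_neg h] at this
        rw [← this]
        exact Finset.sum_congr rfl fun t _ => by rw [mul_comm]
      rw [this, zero_mul]
  have hone := hc_oneC (κ := ∀ i, ZMod (N i)) (Ω := ZMod (N i)) m hm A X hX0
  rw [ZMod.card, ← hρ, ← hk] at hone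
  -- left side
  have hL : ∀ t, ∑ ξ', ‖A ξ' + (ρ : ℂ) * X t ξ'‖ ^ 2 =
      ∑ ξ' ∈ Z, k ^ (spt ξ').card * ‖hcW ρ c J S ξ' (x + Pi.single i t)‖ ^ 2 := by
    intro t
    rw [← hsumZ]
    refine Finset.sum_congr rfl fun ξ' _ => ?_
    congr 2
    simp only [hA, hX]
    rw [htop, hcW_split ρ c J S hSJ i hi ξ' x t]
    have h1 : ∑ s, (((if s = 0 then 1 else ρ) : ℝ) : ℂ) * (ZMod.stdAddChar (s * t) : ℂ) * B ξ' s =
        B ξ' 0 + ρ * ∑ s, (ZMod.stdAddChar (s * t) : ℂ) * (if s = 0 then 0 else B ξ' s) := by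
      rw [Finset.mul_sum]
      have h2 : B ξ' 0 = ∑ s : ZMod (N i), if s = 0 then B ξ' s else 0 := by
        rw [Finset.sum_ite_eq']; simp
      conv_rhs => rw [h2]
      rw [← Finset.sum_add_distrib]
      refine Finset.sum_congr rfl fun s _ => ?_
      by_cases h : s = 0
      · simp [h]
      · simp only [h, if_false]; ring
    rw [h1]; ring
  have hR2 : ∀ t, ∑ ξ', ‖X t ξ'‖ ^ 2 = ∑ ξ' ∈ Z, k ^ (spt ξ').card *
      ‖hcW ρ c (insert i J) (insert i S) ξ' (x + Pi.single i t)‖ ^ 2 := by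
    intro t
    simp only [hX]
    rw [hsumZ]
  have hA2 : ∑ ξ', ‖A ξ'‖ ^ 2 = ∑ ξ' ∈ Z, k ^ (spt ξ').card * ‖B ξ' 0‖ ^ 2 := by
    simp only [hA]
    rw [hsumZ]
  have hpars : (∑ t, ∑ ξ', ‖X t ξ'‖ ^ 2) / (N i : ℝ) =
      ∑ ξ' ∈ Z, k ^ (spt ξ').card * ∑ s, ‖(if s = 0 then 0 else B ξ' s)‖ ^ 2 := by
    rw [Finset.sum_congr rfl fun t _ => hR2 t, Finset.sum_comm, Finset.sum_div]
    refine Finset.sum_congr rfl fun ξ' _ => ?_
    rw [← Finset.mul_sum, Finset.sum_congr rfl fun t _ => by rw [htop ξ' t], hc_pars]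
    field_simp
  have hmid : ∑ ξ', ‖A ξ'‖ ^ 2 + k * ((∑ t, ∑ ξ', ‖X t ξ'‖ ^ 2) / (N i : ℝ)) =
      ∑ ξ'' ∈ hcZ N (insert i J) S, k ^ (spt ξ'').card *
        ‖hcW ρ c (insert i J) S ξ'' x‖ ^ 2 := by
    rw [hc_sum_Z J S hSJ i hi (fun ξ'' => ‖hcW ρ c (insert i J) S ξ'' x‖ ^ 2) k, hA2, hpars,
      Finset.mul_sum, ← Finset.sum_add_distrib]
    refine Finset.sum_congr rfl fun ξ' _ => ?_
    have h2 : ‖B ξ' 0‖ ^ 2 = ∑ s : ZMod (N i), if s = 0 then ‖B ξ' s‖ ^ 2 else 0 := by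
      rw [Finset.sum_ite_eq']; simp
    rw [h2, Finset.mul_sum, Finset.mul_sum, Finset.mul_sum, ← Finset.sum_add_distrib]
    refine Finset.sum_congr rfl fun s _ => ?_
    by_cases h : s = 0
    · simp [h, hB]
    · simp only [h, if_false, mul_zero, zero_add, hB, pow_succ]
      ring
  rw [hmid] at hone
  simp only [hL, hR2] at hone
  exact hone

end Vale.Agent.P042.FS
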