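import Vale.Agent.P042.FS.HCOne
import Vale.Agent.P042.FS.HCStep

namespace Vale.Agent.P042.FS

open Finset

variable {ι : Type} [Fintype ι] [DecidableEq ι] {N : ι → ℕ} [∀ i, NeZero (N i)]

lemma hc_phase (S : Finset ι) (ξ ξ' x : ∀ i, ZMod (N i)) (h : ∀ i, i ∉ S → ξ i = ξ' i) :
    chi ξ x = chiS S ξ x * ∏ i, (if i ∈ S then 1 else (ZMod.stdAddChar (ξ' i * x i) : ℂ)) := by
  rw [al_chiS_eq, chi, ← Finset.prod_mul_distrib]
  refine Finset.prod_congr rfl fun i _ => ?_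
  by_cases hi : i ∈ S
  · simp [hi]
  · simp [hi, h i hi]

lemma hc_phase_norm (S : Finset ι) (ξ' x : ∀ i, ZMod (N i)) :
    ‖∏ i, (if i ∈ S then 1 else (ZMod.stdAddChar (ξ' i * x i) : ℂ))‖ = 1 := by
  rw [norm_prod]
  refine Finset.prod_eq_one fun i _ => ?_
  split_ifs
  · simp
  · exact al_norm_std _

/-- hypercontractive inequality on the product group -/
theorem hc_char (m : ℕ) (hm : 1 ≤ m) (c : (∀ i, ZMod (N i)) → ℂ) :
    ∑ x : ∀ i, ZMod (N i), ‖∑ ξ, ((1 / (48 * m : ℝ)) ^ (spt ξ).card : ℝ) * c ξ * chi ξ x‖ ^ (2 * m)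
      ≤ ∑ S : Finset ι, (1 / 8 : ℝ) ^ (2 * m * S.card) * ∑ x : ∀ i, ZMod (N i),
        (∑ ξ' ∈ univ.filter (fun ξ' : ∀ i, ZMod (N i) => ∀ i ∈ S, ξ' i = 0),
          (1 / (256 * m : ℝ)) ^ (spt ξ').card *
            ‖∑ ξ ∈ univ.filter (fun ξ : ∀ i, ZMod (N i) => (∀ i ∈ S, ξ i ≠ 0) ∧
              ∀ i, i ∉ S → ξ i = ξ' i), c ξ * chiS S ξ x‖ ^ 2) ^ m := by
  -- induction over the coordinates
  have key : ∀ J : Finset ι, hcG m c ∅ ∅ ≤
      ∑ S ∈ J.powerset, (1 / 8 : ℝ) ^ (2 * m * S.card) * hcG m c J S := by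
    intro J
    induction J using Finset.induction_on with
    | empty => simp
    | insert i J hi ih =>
      rw [Finset.sum_powerset_insert hi, ← Finset.sum_add_distrib]
      refine ih.trans (Finset.sum_le_sum fun S hS => ?_)
      rw [mem_powerset] at hS
      have hiS : i ∉ S := fun h => hi (hS h)
      rw [Finset.card_insert_of_notMem hiS]
      have h1 := mul_le_mul_of_nonneg_left (hc_step m hm c J S hS i hi)
        (show (0 : ℝ) ≤ (1 / 8 : ℝ) ^ (2 * m * S.card) by positivity)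
      refine h1.trans (le_of_eq ?_)
      rw [mul_add, mul_add (2 * m), mul_one, pow_add]
      ring
  have h0 := key univ
  have hleft : hcG m c ∅ ∅ = ∑ x : ∀ i, ZMod (N i),
      ‖∑ ξ, ((1 / (48 * m : ℝ)) ^ (spt ξ).card : ℝ) * c ξ * chi ξ x‖ ^ (2 * m) := by
    unfold hcG
    refine Finset.sum_congr rfl fun x _ => ?_
    have hZ : hcZ N (∅ : Finset ι) ∅ = {0} := by
      ext ξ'
      simp [hcZ, funext_iff]
    rw [hZ, Finset.sum_singleton]
    have hs : spt (0 : ∀ i, ZMod (N i)) = ∅ := by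
      ext i; simp [spt]
    rw [hs, Finset.card_empty, pow_zero, one_mul, ← pow_mul]
    congr 2
    unfold hcW
    simp
  rw [hleft] at h0
  refine h0.trans (le_of_eq ?_)
  rw [Finset.powerset_univ]
  refine Finset.sum_congr rfl fun S _ => ?_
  congr 1
  unfold hcG
  refine Finset.sum_congr rfl fun x _ => ?_
  congr 1
  have hZ : hcZ N (univ : Finset ι) S =
      univ.filter (fun ξ' : ∀ i, ZMod (N i) => ∀ i ∈ S, ξ' i = 0) := by
    unfold hcZ
    congr 1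
    funext ξ'
    simp
  rw [hZ]
  refine Finset.sum_congr rfl fun ξ' _ => ?_
  congr 2
  unfold hcW
  have hset : univ.filter (fun ξ : ∀ i, ZMod (N i) => (∀ i ∈ S, ξ i ≠ 0) ∧
      ∀ i ∈ (univ : Finset ι) \ S, ξ i = ξ' i) =
      univ.filter (fun ξ : ∀ i, ZMod (N i) => (∀ i ∈ S, ξ i ≠ 0) ∧
        ∀ i, i ∉ S → ξ i = ξ' i) := by
    congr 1
    funext ξ
    simp
  rw [hset]
  have h1 : ∑ ξ ∈ univ.filter (fun ξ : ∀ i, ZMod (N i) => (∀ i ∈ S, ξ i ≠ 0) ∧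
        ∀ i, i ∉ S → ξ i = ξ' i),
        (((1 / (48 * m : ℝ)) ^ (spt ξ \ (univ : Finset ι)).card : ℝ) : ℂ) * c ξ * chi ξ x =
      (∑ ξ ∈ univ.filter (fun ξ : ∀ i, ZMod (N i) => (∀ i ∈ S, ξ i ≠ 0) ∧
        ∀ i, i ∉ S → ξ i = ξ' i), c ξ * chiS S ξ x) *
        ∏ i, (if i ∈ S then 1 else (ZMod.stdAddChar (ξ' i * x i) : ℂ)) := by
    rw [Finset.sum_mul]
    refine Finset.sum_congr rfl fun ξ hξ => ?_
    rw [hc_phase S ξ ξ' x (mem_filter.mp hξ).2.2]
    have : spt ξ \ (univ : Finset ι) = ∅ := by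
      ext i; simp
    rw [this, Finset.card_empty, pow_zero, Complex.ofReal_one, one_mul]
    ring
  rw [h1, norm_mul, hc_phase_norm, mul_one]

end Vale.Agent.P042.FS
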