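import Vale.Agent.P042.FS.Defs

namespace Vale.Agent.P042.FS

open Finset

variable {ι : Type} [Fintype ι] [DecidableEq ι] {N : ι → ℕ} [∀ i, NeZero (N i)]

/-! ### characters -/

theorem mo_chi_add_left (ξ η x : ∀ i, ZMod (N i)) : chi (ξ + η) x = chi ξ x * chi η x := by
  unfold chi
  rw [← prod_mul_distrib]
  apply prod_congr rfl
  intro i _
  rw [Pi.add_apply, add_mul, AddChar.map_add_eq_mul]

theorem mo_chi_add_right (ξ x y : ∀ i, ZMod (N i)) : chi ξ (x + y) = chi ξ x * chi ξ y := by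
  unfold chi
  rw [← prod_mul_distrib]
  apply prod_congr rfl
  intro i _
  rw [Pi.add_apply, mul_add, AddChar.map_add_eq_mul]

theorem mo_chi_zero_left (x : ∀ i, ZMod (N i)) : chi (0 : ∀ i, ZMod (N i)) x = 1 := by
  unfold chi
  apply prod_eq_one
  intro i _
  rw [Pi.zero_apply, zero_mul, AddChar.map_zero_eq_one]

theorem mo_chi_zero_right (ξ : ∀ i, ZMod (N i)) : chi ξ (0 : ∀ i, ZMod (N i)) = 1 := by
  unfold chi
  apply prod_eq_one
  intro i _
  rw [Pi.zero_apply, mul_zero, AddChar.map_zero_eq_one]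

theorem mo_chi_norm (ξ x : ∀ i, ZMod (N i)) : ‖chi ξ x‖ = 1 := by
  unfold chi
  rw [norm_prod]
  apply prod_eq_one
  intro i _
  rw [ZMod.stdAddChar_apply]
  exact Circle.norm_coe _

theorem mo_chi_ne_zero (ξ x : ∀ i, ZMod (N i)) : chi ξ x ≠ 0 := by
  intro h
  have := mo_chi_norm ξ x
  rw [h, norm_zero] at this
  exact zero_ne_one this

theorem mo_chi_conj (ξ x : ∀ i, ZMod (N i)) : (starRingEnd ℂ) (chi ξ x) = chi (-ξ) x := by
  have h1 : chi ξ x * chi (-ξ) x = 1 := by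
    rw [← mo_chi_add_left, add_neg_cancel, mo_chi_zero_left]
  have h2 : chi ξ x * (starRingEnd ℂ) (chi ξ x) = 1 := by
    rw [Complex.mul_conj, Complex.normSq_eq_norm_sq, mo_chi_norm]
    norm_num
  exact mul_left_cancel₀ (mo_chi_ne_zero ξ x) (h2.trans h1.symm)

theorem mo_toX_add (a b : ℤ) : toX N (a + b) = toX N a + toX N b := by
  funext i
  simp [toX]

theorem mo_toX_mul (a b : ℤ) : toX N (a * b) = toX N a * toX N b := by
  funext i
  simp [toX]

/-- value of `chi` at a multiple -/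
theorem mo_chi_nat_mul (ξ : ∀ i, ZMod (N i)) (a : ℤ) (j : ℕ) :
    chi ξ (toX N (a * j)) = chi ξ (toX N a) ^ j := by
  induction j with
  | zero =>
    have : toX N (a * ((0 : ℕ) : ℤ)) = 0 := by
      funext i
      simp [toX]
    rw [this, mo_chi_zero_right, pow_zero]
  | succ j ih =>
    have : a * ((j + 1 : ℕ) : ℤ) = a * j + a := by push_cast; ring
    rw [this, mo_toX_add, mo_chi_add_right, ih, pow_succ]

/-- orthogonality -/
theorem mo_chi_sum (ξ : ∀ i, ZMod (N i)) (hξ : ξ ≠ 0) :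
    ∑ x : ∀ i, ZMod (N i), chi ξ x = 0 := by
  obtain ⟨i, hi⟩ := Function.ne_iff.1 hξ
  have h1 : ∃ y : ∀ i, ZMod (N i), chi ξ y ≠ 1 := by
    refine ⟨Pi.single i 1, ?_⟩
    have h2 : chi ξ (Pi.single i 1) = (ZMod.stdAddChar (ξ i) : ℂ) := by
      unfold chi
      rw [prod_eq_single i]
      · rw [Pi.single_eq_same, mul_one]
      · intro j _ hj
        rw [Pi.single_eq_of_ne hj, mul_zero, AddChar.map_zero_eq_one]
      · intro h
        exact absurd (mem_univ i) h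
    rw [h2]
    intro h3
    apply hi
    apply ZMod.injective_stdAddChar
    rw [h3, Pi.zero_apply, AddChar.map_zero_eq_one]
  obtain ⟨y, hy⟩ := h1
  have h2 : ∑ x : ∀ i, ZMod (N i), chi ξ x = chi ξ y * ∑ x : ∀ i, ZMod (N i), chi ξ x := by
    rw [mul_sum]
    rw [← Equiv.sum_comp (Equiv.addLeft y)]
    apply sum_congr rfl
    intro x _
    rw [Equiv.coe_addLeft, mo_chi_add_right]
  have h3 : (chi ξ y - 1) * ∑ x : ∀ i, ZMod (N i), chi ξ x = 0 := by
    rw [sub_mul, one_mul, ← h2, sub_self]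
  rcases mul_eq_zero.1 h3 with h | h
  · exact absurd (sub_eq_zero.1 h) hy
  · exact h

/-! ### supports -/

theorem mo_spt_zero : spt (0 : ∀ i, ZMod (N i)) = ∅ := by
  unfold spt
  rw [filter_eq_empty_iff]
  intro i _
  simp

theorem mo_spt_eq_empty (ξ : ∀ i, ZMod (N i)) (h : spt ξ = ∅) : ξ = 0 := by
  funext i
  unfold spt at h
  rw [filter_eq_empty_iff] at h
  have := h (mem_univ i)
  push Not at this
  exact this

theorem mo_spt_add (ξ η : ∀ i, ZMod (N i)) : spt (ξ + η) ⊆ spt ξ ∪ spt η := by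
  intro i hi
  unfold spt at hi ⊢
  rw [mem_union, mem_filter, mem_filter]
  rw [mem_filter, Pi.add_apply] at hi
  by_contra hcon
  push Not at hcon
  have h1 := hcon.1 (mem_univ i)
  have h2 := hcon.2 (mem_univ i)
  apply hi.2
  rw [h1, h2, add_zero]

theorem mo_spt_sub (ξ η : ∀ i, ZMod (N i)) : spt (ξ - η) ⊆ spt ξ ∪ spt η := by
  intro i hi
  unfold spt at hi ⊢
  rw [mem_union, mem_filter, mem_filter]
  rw [mem_filter, Pi.sub_apply] at hi
  by_contra hcon
  push Not at hcon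
  have h1 := hcon.1 (mem_univ i)
  have h2 := hcon.2 (mem_univ i)
  apply hi.2
  rw [h1, h2, sub_zero]

/-- number of frequencies with small support -/
theorem mo_count (Q : ℕ) (hQ : 2 ≤ Q) (hNQ : ∀ i, N i ≤ Q) (hcard : Fintype.card ι ≤ Q) (D : ℕ) :
    (univ.filter (fun ξ : ∀ i, ZMod (N i) => (spt ξ).card ≤ D)).card ≤ Q ^ (3 * D) := by
  induction D with
  | zero =>
    have h1 : (univ.filter (fun ξ : ∀ i, ZMod (N i) => (spt ξ).card ≤ 0)) ⊆ {0} := by
      intro ξ hξ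
      rw [mem_filter] at hξ
      rw [mem_singleton]
      apply mo_spt_eq_empty
      rw [← card_eq_zero]
      omega
    have := card_le_card h1
    rw [card_singleton] at this
    simpa using this
  | succ D ih =>
    set A := univ.filter (fun ξ : ∀ i, ZMod (N i) => (spt ξ).card ≤ D) with hA
    have h1 : (univ.filter (fun ξ : ∀ i, ZMod (N i) => (spt ξ).card ≤ D + 1)) ⊆
        A ∪ (A ×ˢ (univ : Finset (Σ i, ZMod (N i)))).image
          (fun p => Function.update p.1 p.2.1 p.2.2) := by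
      intro ξ hξ
      rw [mem_filter] at hξ
      rw [mem_union]
      by_cases hc : (spt ξ).card ≤ D
      · left
        rw [hA, mem_filter]
        exact ⟨mem_univ _, hc⟩
      · right
        have hne : (spt ξ).Nonempty := by
          rw [← card_pos]
          omega
        obtain ⟨i, hi⟩ := hne
        rw [mem_image]
        refine ⟨(Function.update ξ i 0, ⟨i, ξ i⟩), ?_, ?_⟩
        · rw [mem_product]
          refine ⟨?_, mem_univ _⟩
          rw [hA, mem_filter]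
          refine ⟨mem_univ _, ?_⟩
          have h2 : spt (Function.update ξ i 0) ⊆ (spt ξ).erase i := by
            intro j hj
            unfold spt at hj ⊢
            rw [mem_filter] at hj
            rw [mem_erase, mem_filter]
            by_cases hji : j = i
            · subst hji
              rw [Function.update_self] at hj
              exact absurd rfl hj.2
            · rw [Function.update_of_ne hji] at hj
              exact ⟨hji, hj⟩
          have h3 := card_le_card h2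
          rw [card_erase_of_mem hi] at h3
          show (spt (Function.update ξ i 0)).card ≤ D
          omega
        · simp
    have h2 : Fintype.card (Σ i, ZMod (N i)) ≤ Q * Q := by
      rw [Fintype.card_sigma]
      calc ∑ i, Fintype.card (ZMod (N i)) ≤ ∑ _i : ι, Q := by
            apply sum_le_sum
            intro i _
            rw [ZMod.card]
            exact hNQ i
        _ = Fintype.card ι * Q := by rw [sum_const, smul_eq_mul, card_univ]
        _ ≤ Q * Q := Nat.mul_le_mul_right _ hcard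
    have h3 := card_le_card h1
    have h4 := card_union_le A ((A ×ˢ (univ : Finset (Σ i, ZMod (N i)))).image
          (fun p => Function.update p.1 p.2.1 p.2.2))
    have h5 : ((A ×ˢ (univ : Finset (Σ i, ZMod (N i)))).image
          (fun p => Function.update p.1 p.2.1 p.2.2)).card ≤ A.card * (Q * Q) := by
      refine card_image_le.trans ?_
      rw [card_product, card_univ]
      exact Nat.mul_le_mul_left _ h2
    have h6 : 1 + Q * Q ≤ Q ^ 3 := by
      have : Q * Q * 2 ≤ Q * Q * Q := Nat.mul_le_mul_left _ hQ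
      have h7 : 4 ≤ Q * Q := Nat.mul_le_mul hQ hQ
      calc 1 + Q * Q ≤ Q * Q * 2 := by omega
        _ ≤ Q * Q * Q := this
        _ = Q ^ 3 := by ring
    calc (univ.filter (fun ξ : ∀ i, ZMod (N i) => (spt ξ).card ≤ D + 1)).card
        ≤ A.card + A.card * (Q * Q) := by omega
      _ = A.card * (1 + Q * Q) := by ring
      _ ≤ Q ^ (3 * D) * Q ^ 3 := Nat.mul_le_mul ih h6
      _ = Q ^ (3 * (D + 1)) := by ring

/-! ### powers -/

/-- the `m`-th power of a trigonometric polynomial -/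
theorem mo_pow (c : (∀ i, ZMod (N i)) → ℂ) (K : Finset ι) (D : ℕ)
    (hc0 : ∀ ξ, c ξ ≠ 0 → spt ξ ⊆ K ∧ (spt ξ).card ≤ D) (m : ℕ) :
    ∃ b : (∀ i, ZMod (N i)) → ℂ, (∀ x, (∑ ξ, c ξ * chi ξ x) ^ m = ∑ ζ, b ζ * chi ζ x) ∧
      ∑ ζ, ‖b ζ‖ ≤ (∑ ξ, ‖c ξ‖) ^ m ∧
      ∀ ζ, b ζ ≠ 0 → spt ζ ⊆ K ∧ (spt ζ).card ≤ m * D := by
  induction m with
  | zero =>
    refine ⟨fun ζ => if ζ = 0 then 1 else 0, ?_, ?_, ?_⟩
    · intro x
      simp [mo_chi_zero_left]
    · rw [pow_zero, sum_eq_single 0]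
      · simp
      · intro ζ _ hζ
        simp [hζ]
      · intro h
        exact absurd (mem_univ _) h
    · intro ζ hζ
      have : ζ = 0 := by
        by_contra h
        simp [h] at hζ
      rw [this, mo_spt_zero]
      simp
  | succ m ih =>
    obtain ⟨b, hb1, hb2, hb3⟩ := ih
    refine ⟨fun ζ => ∑ ξ, c ξ * b (ζ - ξ), ?_, ?_, ?_⟩
    · intro x
      rw [pow_succ, hb1 x, mul_comm, sum_mul]
      have h1 : ∀ ζ, (∑ ξ, c ξ * b (ζ - ξ)) * chi ζ x = ∑ ξ, c ξ * b (ζ - ξ) * chi ζ x := by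
        intro ζ
        rw [sum_mul]
      rw [sum_congr rfl (fun ζ _ => h1 ζ), sum_comm]
      apply sum_congr rfl
      intro ξ _
      rw [mul_sum, ← Equiv.sum_comp (Equiv.subRight ξ)]
      apply sum_congr rfl
      intro ζ _
      rw [Equiv.subRight_apply]
      have h2 : chi ζ x = chi ξ x * chi (ζ - ξ) x := by
        rw [← mo_chi_add_left, add_sub_cancel]
      rw [h2]
      ring
    · calc ∑ ζ, ‖∑ ξ, c ξ * b (ζ - ξ)‖ ≤ ∑ ζ, ∑ ξ, ‖c ξ‖ * ‖b (ζ - ξ)‖ := by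
            apply sum_le_sum
            intro ζ _
            refine (norm_sum_le _ _).trans ?_
            apply sum_le_sum
            intro ξ _
            rw [norm_mul]
        _ = ∑ ξ, ‖c ξ‖ * ∑ ζ, ‖b ζ‖ := by
            rw [sum_comm]
            apply sum_congr rfl
            intro ξ _
            rw [← mul_sum, ← Equiv.sum_comp (Equiv.subRight ξ) (fun ζ => ‖b ζ‖)]
            rfl
        _ = (∑ ξ, ‖c ξ‖) * ∑ ζ, ‖b ζ‖ := by rw [sum_mul]
        _ ≤ (∑ ξ, ‖c ξ‖) * (∑ ξ, ‖c ξ‖) ^ m :=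
            mul_le_mul_of_nonneg_left hb2 (sum_nonneg fun _ _ => norm_nonneg _)
        _ = _ := by rw [pow_succ, mul_comm]
    · intro ζ hζ
      obtain ⟨ξ, _, hξ⟩ := exists_ne_zero_of_sum_ne_zero hζ
      have h1 := hc0 ξ (left_ne_zero_of_mul hξ)
      have h2 := hb3 (ζ - ξ) (right_ne_zero_of_mul hξ)
      have h3 : spt ζ ⊆ spt ξ ∪ spt (ζ - ξ) := by
        have := mo_spt_add ξ (ζ - ξ)
        rwa [add_sub_cancel] at this
      refine ⟨h3.trans (union_subset h1.1 h2.1), ?_⟩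
      have h4 := (card_le_card h3).trans (card_union_le _ _)
      rw [add_mul, one_mul]
      omega

/-- square of the norm of a trigonometric polynomial -/
theorem mo_sq (b : (∀ i, ZMod (N i)) → ℂ) (x : ∀ i, ZMod (N i)) :
    ((‖∑ ζ, b ζ * chi ζ x‖ ^ 2 : ℝ) : ℂ) =
      ∑ ζ, ∑ η, b ζ * (starRingEnd ℂ) (b η) * chi (ζ - η) x := by
  rw [← Complex.normSq_eq_norm_sq, ← Complex.mul_conj, map_sum, sum_mul_sum]
  apply sum_congr rfl
  intro ζ _
  apply sum_congr rfl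
  intro η _
  rw [map_mul, mo_chi_conj, sub_eq_add_neg, mo_chi_add_left]
  ring

/-- Parseval on the product group -/
theorem mo_parseval (b : (∀ i, ZMod (N i)) → ℂ) :
    ∑ x : ∀ i, ZMod (N i), ‖∑ ζ, b ζ * chi ζ x‖ ^ 2 =
      Fintype.card (∀ i, ZMod (N i)) * ∑ ζ, ‖b ζ‖ ^ 2 := by
  have h : ((∑ x : ∀ i, ZMod (N i), ‖∑ ζ, b ζ * chi ζ x‖ ^ 2 : ℝ) : ℂ) =
      ((Fintype.card (∀ i, ZMod (N i)) * ∑ ζ, ‖b ζ‖ ^ 2 : ℝ) : ℂ) := by
    rw [Complex.ofReal_sum]
    rw [sum_congr rfl (fun x _ => mo_sq b x), sum_comm]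
    push_cast
    rw [mul_sum]
    apply sum_congr rfl
    intro ζ _
    rw [sum_comm, sum_eq_single ζ]
    · rw [← mul_sum]
      have h1 : ∑ x : ∀ i, ZMod (N i), chi (ζ - ζ) x = Fintype.card (∀ i, ZMod (N i)) := by
        rw [sub_self, sum_congr rfl (fun x _ => mo_chi_zero_left x), sum_const, card_univ,
          nsmul_eq_mul, mul_one]
      rw [h1, Complex.mul_conj, Complex.normSq_eq_norm_sq]
      push_cast
      ring
    · intro η _ hη
      rw [← mul_sum, mo_chi_sum _ (sub_ne_zero.2 (Ne.symm hη)), mul_zero]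
    · intro h
      exact absurd (mem_univ ζ) h
  exact_mod_cast h

/-! ### geometric sums -/

/-- sums of a character of `ℤ` of finite order over an interval -/
theorem mo_geom (w : ℂ) (hw : ‖w‖ = 1) (hw1 : w ≠ 1) (M : ℕ) (hM : 1 ≤ M) (hwM : w ^ M = 1)
    (n : ℕ) : ∀ j₀ : ℤ, ‖∑ i ∈ range n, w ^ (j₀ + i)‖ ≤ M := by
  have hw0 : w ≠ 0 := by
    intro h
    rw [h, norm_zero] at hw
    exact zero_ne_one hw
  have hz : ∑ i ∈ range M, w ^ i = 0 := by
    have := geom_sum_eq hw1 M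
    rw [this, hwM, sub_self, zero_div]
  induction n using Nat.strong_induction_on with
  | _ n ih =>
    intro j₀
    by_cases hn : n ≤ M
    · calc ‖∑ i ∈ range n, w ^ (j₀ + i)‖ ≤ ∑ i ∈ range n, ‖w ^ (j₀ + i)‖ := norm_sum_le _ _
        _ = ∑ i ∈ range n, (1 : ℝ) := by
            apply sum_congr rfl
            intro i _
            rw [norm_zpow, hw, one_zpow]
        _ = n := by rw [sum_const, card_range, nsmul_eq_mul, mul_one]
        _ ≤ M := by exact_mod_cast hn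
    · push Not at hn
      obtain ⟨r, rfl⟩ := Nat.exists_eq_add_of_lt hn
      have h1 : M + r + 1 = M + (r + 1) := by ring
      rw [h1, sum_range_add]
      have h2 : ∑ i ∈ range M, w ^ (j₀ + i) = 0 := by
        have : ∀ i ∈ range M, w ^ (j₀ + (i : ℤ)) = w ^ j₀ * w ^ i := by
          intro i _
          rw [zpow_add₀ hw0, zpow_natCast]
        rw [sum_congr rfl this, ← mul_sum, hz, mul_zero]
      rw [h2, zero_add]
      have h3 := ih (r + 1) (by omega) (j₀ + M)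
      have h4 : ∑ i ∈ range (r + 1), w ^ (j₀ + ((M + i : ℕ) : ℤ)) =
          ∑ i ∈ range (r + 1), w ^ (j₀ + M + (i : ℤ)) := by
        apply sum_congr rfl
        intro i _
        congr 1
        push_cast
        ring
      rw [h4]
      exact h3

/-- parametrisation of a progression in an interval -/
theorem mo_prog (R : ℕ) (hR : 1 ≤ R) (x₀ u v : ℤ) : ∃ (j₀ : ℤ) (n : ℕ),
    (Ico u v).filter (fun n => n ≡ x₀ [ZMOD R]) =
      (range n).image (fun i : ℕ => x₀ + R * (j₀ + i)) ∧ (R * n : ℤ) ≤ max (v - u) 0 + R := by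
  have hR0 : (0 : ℤ) < R := by exact_mod_cast hR
  set j₀ : ℤ := -((x₀ - u) / R) with hj₀
  set j₁ : ℤ := -((x₀ - v) / R) with hj₁
  have hge : ∀ (t j : ℤ), t ≤ x₀ + R * j ↔ -((x₀ - t) / R) ≤ j := by
    intro t j
    have h := Int.le_ediv_iff_mul_le (a := -j) (b := x₀ - t) hR0
    constructor
    · intro h1
      have : -j ≤ (x₀ - t) / R := h.2 (by linarith [mul_comm (j : ℤ) R])
      omega
    · intro h1
      have : -j ≤ (x₀ - t) / R := by omega
      have := h.1 this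
      linarith [mul_comm (j : ℤ) R]
  refine ⟨j₀, (j₁ - j₀).toNat, ?_, ?_⟩
  · ext n
    rw [mem_filter, mem_Ico, mem_image]
    constructor
    · rintro ⟨⟨h1, h2⟩, h3⟩
      obtain ⟨j, hj⟩ := h3.symm.dvd
      have hn : n = x₀ + R * j := by linarith
      have h4 : j₀ ≤ j := (hge u j).1 (hn ▸ h1)
      have h5 : ¬ j₁ ≤ j := by
        intro h6
        have := (hge v j).2 h6
        omega
      refine ⟨(j - j₀).toNat, ?_, ?_⟩
      · rw [mem_range]
        omega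
      · have : ((j - j₀).toNat : ℤ) = j - j₀ := Int.toNat_of_nonneg (by omega)
        rw [this, hn]
        ring
    · rintro ⟨i, hi, rfl⟩
      rw [mem_range] at hi
      refine ⟨⟨(hge u _).2 (by omega), ?_⟩, ?_⟩
      · by_contra hcon
        push Not at hcon
        have := (hge v _).1 hcon
        omega
      · show (x₀ + R * (j₀ + i)) % R = x₀ % R
        rw [Int.add_mul_emod_self_left]
  · have h1 : (x₀ - u) / R * R ≤ x₀ - u := Int.ediv_mul_le _ hR0.ne'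
    have h2 : x₀ - v < ((x₀ - v) / R + 1) * R := Int.lt_ediv_add_one_mul_self _ hR0
    rcases le_total j₁ j₀ with h | h
    · have h3 : (j₁ - j₀).toNat = 0 := by omega
      rw [h3]
      have : (0 : ℤ) ≤ max (v - u) 0 := le_max_right _ _
      push_cast
      omega
    · have h3 : ((j₁ - j₀).toNat : ℤ) = j₁ - j₀ := Int.toNat_of_nonneg (by omega)
      rw [h3, hj₁, hj₀]
      have h4 : v - u ≤ max (v - u) 0 := le_max_left _ _
      nlinarith

/-- value of `chi` at an integer multiple -/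
theorem mo_chi_int_mul (ξ : ∀ i, ZMod (N i)) (a j : ℤ) :
    chi ξ (toX N (a * j)) = chi ξ (toX N a) ^ j := by
  have h0 := mo_chi_ne_zero ξ (toX N a)
  rcases Int.le_total 0 j with h | h
  · obtain ⟨n, rfl⟩ := Int.eq_ofNat_of_zero_le h
    rw [zpow_natCast]
    exact mo_chi_nat_mul ξ a n
  · obtain ⟨n, hn⟩ := Int.eq_ofNat_of_zero_le (show 0 ≤ -j by omega)
    have hj : j = -(n : ℤ) := by omega
    subst hj
    rw [zpow_neg, zpow_natCast]
    have h1 : chi ξ (toX N (a * -(n : ℤ))) * chi ξ (toX N (a * n)) = 1 := by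
      rw [← mo_chi_add_right, ← mo_toX_add]
      have : a * -(n : ℤ) + a * n = 0 := by ring
      rw [this]
      have h2 : toX N 0 = 0 := by
        funext i
        simp [toX]
      rw [h2, mo_chi_zero_right]
    rw [mo_chi_nat_mul] at h1
    exact eq_inv_of_mul_eq_one_left h1

theorem mo_chi_one (ξ : ∀ i, ZMod (N i)) (n : ℤ) (h : ∀ i, ξ i ≠ 0 → (N i : ℤ) ∣ n) :
    chi ξ (toX N n) = 1 := by
  unfold chi
  apply prod_eq_one
  intro i _
  by_cases hi : ξ i = 0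
  · rw [hi, zero_mul, AddChar.map_zero_eq_one]
  · have h1 : toX N n i = 0 := by
      unfold toX
      exact (ZMod.intCast_zmod_eq_zero_iff_dvd n (N i)).2 (h i hi)
    rw [h1, mul_zero, AddChar.map_zero_eq_one]

/-- bound of a nontrivial character sum over a progression in an interval -/
theorem mo_char_sum (hcop : ∀ i j, i ≠ j → Nat.Coprime (N i) (N j)) (Q : ℕ) (hQ : 2 ≤ Q)
    (hNQ : ∀ i, N i ≤ Q) (D : ℕ) (K : Finset ι)
    (R : ℕ) (hR : 1 ≤ R) (hRc : ∀ i ∈ K, Nat.Coprime R (N i)) (x₀ u v : ℤ)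
    (ζ : ∀ i, ZMod (N i)) (hζ : ζ ≠ 0) (hK : spt ζ ⊆ K) (hD : (spt ζ).card ≤ D) :
    ‖∑ n ∈ (Ico u v).filter (fun n => n ≡ x₀ [ZMOD R]), chi ζ (toX N n)‖ ≤ (Q : ℝ) ^ D := by
  obtain ⟨j₀, n, hset, _⟩ := mo_prog R hR x₀ u v
  have hR0 : (R : ℤ) ≠ 0 := by
    have : (0 : ℤ) < R := by exact_mod_cast hR
    omega
  rw [hset, sum_image (by
    intro i _ j _ hij
    simp only at hij
    have h1 : (R : ℤ) * (j₀ + i) = R * (j₀ + j) := by linarith
    have h2 := mul_left_cancel₀ hR0 h1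
    omega)]
  set w := chi ζ (toX N R) with hw
  have hwn : ‖w‖ = 1 := mo_chi_norm _ _
  have hterm : ∀ i ∈ range n, chi ζ (toX N (x₀ + R * (j₀ + (i : ℤ)))) =
      chi ζ (toX N x₀) * w ^ (j₀ + (i : ℤ)) := by
    intro i _
    rw [mo_toX_add, mo_chi_add_right, mo_chi_int_mul]
  rw [sum_congr rfl hterm, ← mul_sum, norm_mul, mo_chi_norm, one_mul]
  -- the order
  set M := ∏ i ∈ spt ζ, N i with hM
  have hNpos : ∀ i, 1 ≤ N i := fun i => Nat.one_le_iff_ne_zero.2 (NeZero.ne (N i))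
  have hM1 : 1 ≤ M := Nat.one_le_iff_ne_zero.2 (prod_ne_zero_iff.2 fun i _ => NeZero.ne (N i))
  have hMQ : M ≤ Q ^ D := by
    calc M ≤ ∏ _i ∈ spt ζ, Q := prod_le_prod' fun i _ => hNQ i
      _ = Q ^ (spt ζ).card := by rw [prod_const]
      _ ≤ Q ^ D := Nat.pow_le_pow_right (by omega) hD
  have hwM : w ^ M = 1 := by
    rw [hw, ← mo_chi_nat_mul]
    apply mo_chi_one
    intro i hi
    apply Dvd.dvd.mul_left
    have : N i ∣ M := dvd_prod_of_mem N (by
      unfold spt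
      exact mem_filter.2 ⟨mem_univ i, hi⟩)
    exact_mod_cast this
  have hw1 : w ≠ 1 := by
    obtain ⟨i, hi⟩ := Function.ne_iff.1 hζ
    have hi' : ζ i ≠ 0 := hi
    have his : i ∈ spt ζ := by
      unfold spt
      exact mem_filter.2 ⟨mem_univ i, hi'⟩
    set P := ∏ j ∈ (spt ζ).erase i, N j with hP
    intro hcon
    have h1 : chi ζ (toX N ((R : ℤ) * (P : ℕ))) = 1 := by
      rw [mo_chi_nat_mul, ← hw, hcon, one_pow]
    have h2 : chi ζ (toX N ((R : ℤ) * (P : ℕ))) =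
        (ZMod.stdAddChar (ζ i * ((R * P : ℕ) : ZMod (N i))) : ℂ) := by
      unfold chi
      rw [prod_eq_single i]
      · unfold toX
        push_cast
        rfl
      · intro j _ hj
        by_cases hj0 : ζ j = 0
        · rw [hj0, zero_mul, AddChar.map_zero_eq_one]
        · have h3 : toX N ((R : ℤ) * (P : ℕ)) j = 0 := by
            unfold toX
            rw [ZMod.intCast_zmod_eq_zero_iff_dvd]
            apply Dvd.dvd.mul_left
            have : N j ∣ P := dvd_prod_of_mem N (by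
              rw [mem_erase]
              refine ⟨hj, ?_⟩
              unfold spt
              exact mem_filter.2 ⟨mem_univ j, hj0⟩)
            exact_mod_cast this
          rw [h3, mul_zero, AddChar.map_zero_eq_one]
      · intro h
        exact absurd (mem_univ i) h
    rw [h2] at h1
    have h3 : ζ i * ((R * P : ℕ) : ZMod (N i)) = 0 := by
      apply ZMod.injective_stdAddChar
      rw [h1, AddChar.map_zero_eq_one]
    have hcopP : Nat.Coprime (R * P) (N i) := by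
      apply Nat.Coprime.mul_left (hRc i (hK his))
      apply Nat.Coprime.prod_left
      intro j hj
      exact hcop j i (ne_of_mem_erase hj)
    have hu : IsUnit ((R * P : ℕ) : ZMod (N i)) := (ZMod.isUnit_iff_coprime _ _).2 hcopP
    exact hi' ((IsUnit.mul_left_eq_zero hu).1 h3)
  refine (mo_geom w hwn hw1 M hM1 hwM n j₀).trans ?_
  exact_mod_cast hMQ

/-- second moment over a progression -/
theorem mo_second (hcop : ∀ i j, i ≠ j → Nat.Coprime (N i) (N j)) (Q : ℕ) (hQ : 2 ≤ Q)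
    (hNQ : ∀ i, N i ≤ Q) (D : ℕ) (K : Finset ι)
    (R : ℕ) (hR : 1 ≤ R) (hRc : ∀ i ∈ K, Nat.Coprime R (N i)) (x₀ u v : ℤ)
    (b : (∀ i, ZMod (N i)) → ℂ) (hb : ∀ ζ, b ζ ≠ 0 → spt ζ ⊆ K ∧ (spt ζ).card ≤ D) :
    ∑ n ∈ (Ico u v).filter (fun n => n ≡ x₀ [ZMOD R]), ‖∑ ζ, b ζ * chi ζ (toX N n)‖ ^ 2 ≤
      ((Ico u v).filter (fun n => n ≡ x₀ [ZMOD R])).card * ∑ ζ, ‖b ζ‖ ^ 2 +
        (Q : ℝ) ^ (2 * D) * (∑ ζ, ‖b ζ‖) ^ 2 := by
  set I := (Ico u v).filter (fun n => n ≡ x₀ [ZMOD R]) with hI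
  have h1 : ((∑ n ∈ I, ‖∑ ζ, b ζ * chi ζ (toX N n)‖ ^ 2 : ℝ) : ℂ) =
      ∑ ζ, ∑ η, b ζ * (starRingEnd ℂ) (b η) * ∑ n ∈ I, chi (ζ - η) (toX N n) := by
    rw [Complex.ofReal_sum, sum_congr rfl (fun n _ => mo_sq b (toX N n)), sum_comm]
    apply sum_congr rfl
    intro ζ _
    rw [sum_comm]
    apply sum_congr rfl
    intro η _
    rw [mul_sum]
  have h2 : ∀ ζ η, ‖b ζ * (starRingEnd ℂ) (b η) * ∑ n ∈ I, chi (ζ - η) (toX N n)‖ ≤
      (if ζ = η then (I.card : ℝ) * ‖b ζ‖ ^ 2 else 0) + (Q : ℝ) ^ (2 * D) * (‖b ζ‖ * ‖b η‖) := by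
    intro ζ η
    rw [norm_mul, norm_mul, RCLike.norm_conj]
    by_cases h : ζ = η
    · subst h
      rw [if_pos rfl, sub_self, sum_congr rfl (fun n _ => mo_chi_zero_left _), sum_const,
        nsmul_eq_mul, mul_one]
      rw [Complex.norm_natCast]
      have : 0 ≤ (Q : ℝ) ^ (2 * D) * (‖b ζ‖ * ‖b ζ‖) := by positivity
      nlinarith
    · rw [if_neg h, zero_add]
      by_cases hζ : b ζ = 0
      · rw [hζ]
        simp
      by_cases hη : b η = 0
      · rw [hη]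
        simp
      have h3 := hb ζ hζ
      have h4 := hb η hη
      have h5 := mo_spt_sub ζ η
      have h6 := (card_le_card h5).trans (card_union_le _ _)
      have h7 := mo_char_sum hcop Q hQ hNQ (2 * D) K R hR hRc x₀ u v (ζ - η) (sub_ne_zero.2 h)
        (h5.trans (union_subset h3.1 h4.1)) (by omega)
      rw [← hI] at h7
      calc ‖b ζ‖ * ‖b η‖ * ‖∑ n ∈ I, chi (ζ - η) (toX N n)‖
          ≤ ‖b ζ‖ * ‖b η‖ * (Q : ℝ) ^ (2 * D) := by gcongr
        _ = _ := by ring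
  have h3 : (0 : ℝ) ≤ ∑ n ∈ I, ‖∑ ζ, b ζ * chi ζ (toX N n)‖ ^ 2 :=
    sum_nonneg fun _ _ => by positivity
  have h4 : ∑ n ∈ I, ‖∑ ζ, b ζ * chi ζ (toX N n)‖ ^ 2 =
      ‖((∑ n ∈ I, ‖∑ ζ, b ζ * chi ζ (toX N n)‖ ^ 2 : ℝ) : ℂ)‖ := by
    rw [Complex.norm_real, Real.norm_of_nonneg h3]
  rw [h4, h1]
  calc ‖∑ ζ, ∑ η, b ζ * (starRingEnd ℂ) (b η) * ∑ n ∈ I, chi (ζ - η) (toX N n)‖
      ≤ ∑ ζ, ∑ η, ‖b ζ * (starRingEnd ℂ) (b η) * ∑ n ∈ I, chi (ζ - η) (toX N n)‖ := by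
        refine (norm_sum_le _ _).trans ?_
        exact sum_le_sum fun ζ _ => norm_sum_le _ _
    _ ≤ ∑ ζ, ∑ η, ((if ζ = η then (I.card : ℝ) * ‖b ζ‖ ^ 2 else 0) +
          (Q : ℝ) ^ (2 * D) * (‖b ζ‖ * ‖b η‖)) :=
        sum_le_sum fun ζ _ => sum_le_sum fun η _ => h2 ζ η
    _ = _ := by
        rw [sum_congr rfl (fun ζ _ => sum_add_distrib), sum_add_distrib]
        congr 1
        · rw [mul_sum]
          apply sum_congr rfl
          intro ζ _
          rw [sum_ite_eq univ ζ, if_pos (mem_univ ζ)]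
        · rw [sq, sum_mul_sum, mul_sum]
          apply sum_congr rfl
          intro ζ _
          rw [mul_sum]

/-- comparison of the `2m`-th moment over a progression in an interval with the one over the
product group -/
theorem moment_compare (hcop : ∀ i j, i ≠ j → Nat.Coprime (N i) (N j)) (Q : ℕ) (hQ : 2 ≤ Q)
    (hNQ : ∀ i, N i ≤ Q) (hN2 : ∀ i, 2 ≤ N i) (hcard : Fintype.card ι ≤ Q) (m D : ℕ)
    (hm : 1 ≤ m) (K : Finset ι)
    (R : ℕ) (hR : 1 ≤ R) (hRc : ∀ i ∈ K, Nat.Coprime R (N i)) (x₀ u v : ℤ) (ν a : ℝ)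
    (huv : ((v - u : ℤ) : ℝ) ≤ ν + 1) (hν : (R : ℝ) * (Q : ℝ) ^ (8 * m * D + 1) ≤ ν)
    (ha : 0 < a) (c : (∀ i, ZMod (N i)) → ℂ) (hca : ∀ ξ, ‖c ξ‖ ≤ a)
    (hc0 : ∀ ξ, c ξ ≠ 0 → spt ξ ⊆ K ∧ (spt ξ).card ≤ D) :
    (R / ν) * ∑ n ∈ (Ico u v).filter (fun n => n ≡ x₀ [ZMOD R]),
        ‖∑ ξ, c ξ * chi ξ (toX N n)‖ ^ (2 * m) ≤
      2 * ((∑ x : ∀ i, ZMod (N i), ‖∑ ξ, c ξ * chi ξ x‖ ^ (2 * m)) /
        Fintype.card (∀ i, ZMod (N i))) + a ^ (2 * m) := by
  have _ := hN2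
  have _ := hm
  have hR0 : (0 : ℝ) < R := by exact_mod_cast hR
  have hR1 : (1 : ℝ) ≤ R := by exact_mod_cast hR
  have hQ2 : (2 : ℝ) ≤ Q := by exact_mod_cast hQ
  have hQ1 : (1 : ℝ) ≤ Q := by linarith
  have hQp : (2 : ℝ) ≤ (Q : ℝ) ^ (8 * m * D + 1) := by
    calc (2 : ℝ) ≤ Q := hQ2
      _ = (Q : ℝ) ^ 1 := (pow_one _).symm
      _ ≤ _ := pow_le_pow_right₀ hQ1 (by omega)
  have hν2 : 2 * (R : ℝ) ≤ ν := by nlinarith
  have hν0 : 0 < ν := by linarith
  obtain ⟨b, hb1, hb2, hb3⟩ := mo_pow c K D hc0 m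
  -- the sum of the coefficients
  have hcsum : ∑ ξ, ‖c ξ‖ ≤ (Q : ℝ) ^ (3 * D) * a := by
    have h1 : ∑ ξ, ‖c ξ‖ = ∑ ξ ∈ univ.filter (fun ξ : ∀ i, ZMod (N i) => (spt ξ).card ≤ D),
        ‖c ξ‖ := by
      symm
      apply sum_subset (subset_univ _)
      intro ξ _ hξ
      rw [mem_filter] at hξ
      by_contra hne
      apply hξ
      refine ⟨mem_univ _, (hc0 ξ ?_).2⟩
      intro h
      apply hne
      rw [h, norm_zero]
    rw [h1]
    calc _ ≤ ∑ ξ ∈ univ.filter (fun ξ : ∀ i, ZMod (N i) => (spt ξ).card ≤ D), a :=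
          sum_le_sum fun ξ _ => hca ξ
      _ = ((univ.filter (fun ξ : ∀ i, ZMod (N i) => (spt ξ).card ≤ D)).card : ℝ) * a := by
          rw [sum_const, nsmul_eq_mul]
      _ ≤ (Q : ℝ) ^ (3 * D) * a := by
          apply mul_le_mul_of_nonneg_right _ ha.le
          exact_mod_cast mo_count Q hQ hNQ hcard D
  have hc0' : 0 ≤ ∑ ξ, ‖c ξ‖ := sum_nonneg fun _ _ => norm_nonneg _
  have hbsum : ∑ ζ, ‖b ζ‖ ≤ (Q : ℝ) ^ (3 * D * m) * a ^ m := by
    refine hb2.trans ?_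
    calc (∑ ξ, ‖c ξ‖) ^ m ≤ ((Q : ℝ) ^ (3 * D) * a) ^ m := pow_le_pow_left₀ hc0' hcsum m
      _ = _ := by rw [mul_pow, ← pow_mul]
  have hb0 : 0 ≤ ∑ ζ, ‖b ζ‖ := sum_nonneg fun _ _ => norm_nonneg _
  -- powers
  have hpow : ∀ x, ‖∑ ξ, c ξ * chi ξ x‖ ^ (2 * m) = ‖∑ ζ, b ζ * chi ζ x‖ ^ 2 := by
    intro x
    rw [← hb1 x, norm_pow, ← pow_mul, mul_comm 2 m]
  rw [sum_congr rfl (fun n _ => hpow (toX N n)), sum_congr rfl (fun x _ => hpow x), mo_parseval]
  have hG0 : ((Fintype.card (∀ i, ZMod (N i)) : ℕ) : ℝ) ≠ 0 := by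
    exact_mod_cast Fintype.card_ne_zero
  rw [mul_div_cancel_left₀ _ hG0]
  have hsec := mo_second hcop Q hQ hNQ (m * D) K R hR hRc x₀ u v b hb3
  set I := (Ico u v).filter (fun n => n ≡ x₀ [ZMOD R]) with hI
  have hB0 : 0 ≤ ∑ ζ, ‖b ζ‖ ^ 2 := sum_nonneg fun _ _ => by positivity
  have hcount : (R : ℝ) / ν * I.card ≤ 2 := by
    obtain ⟨j₀, n, hset, hn⟩ := mo_prog R hR x₀ u v
    have h1 : I.card ≤ n := by
      rw [hI, hset]
      refine card_image_le.trans ?_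
      rw [card_range]
    have h2 : (R : ℝ) * n ≤ max ((v - u : ℤ) : ℝ) 0 + R := by exact_mod_cast hn
    have h3 : max ((v - u : ℤ) : ℝ) 0 ≤ ν + 1 := max_le huv (by linarith)
    have h4 : (R : ℝ) * I.card ≤ R * n := by
      apply mul_le_mul_of_nonneg_left _ hR0.le
      exact_mod_cast h1
    rw [div_mul_eq_mul_div, div_le_iff₀ hν0]
    linarith
  have hmain : (R : ℝ) / ν * ((Q : ℝ) ^ (2 * (m * D)) * (∑ ζ, ‖b ζ‖) ^ 2) ≤ a ^ (2 * m) := by
    have h1 : (∑ ζ, ‖b ζ‖) ^ 2 ≤ ((Q : ℝ) ^ (3 * D * m) * a ^ m) ^ 2 :=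
      pow_le_pow_left₀ hb0 hbsum 2
    have h2 : (R : ℝ) * (Q : ℝ) ^ (8 * m * D) ≤ ν := by
      refine le_trans ?_ hν
      apply mul_le_mul_of_nonneg_left _ hR0.le
      exact pow_le_pow_right₀ hQ1 (by omega)
    rw [div_mul_eq_mul_div, div_le_iff₀ hν0]
    calc (R : ℝ) * ((Q : ℝ) ^ (2 * (m * D)) * (∑ ζ, ‖b ζ‖) ^ 2)
        ≤ (R : ℝ) * ((Q : ℝ) ^ (2 * (m * D)) * ((Q : ℝ) ^ (3 * D * m) * a ^ m) ^ 2) := by
          gcongr
      _ = ((R : ℝ) * (Q : ℝ) ^ (8 * m * D)) * a ^ (2 * m) := by ring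
      _ ≤ ν * a ^ (2 * m) := by
          apply mul_le_mul_of_nonneg_right h2
          positivity
      _ = a ^ (2 * m) * ν := mul_comm _ _
  have hRν : 0 ≤ (R : ℝ) / ν := by positivity
  calc (R : ℝ) / ν * ∑ n ∈ I, ‖∑ ζ, b ζ * chi ζ (toX N n)‖ ^ 2
      ≤ (R : ℝ) / ν * (I.card * ∑ ζ, ‖b ζ‖ ^ 2 +
        (Q : ℝ) ^ (2 * (m * D)) * (∑ ζ, ‖b ζ‖) ^ 2) := mul_le_mul_of_nonneg_left hsec hRν
    _ = (R : ℝ) / ν * I.card * ∑ ζ, ‖b ζ‖ ^ 2 +
        (R : ℝ) / ν * ((Q : ℝ) ^ (2 * (m * D)) * (∑ ζ, ‖b ζ‖) ^ 2) := by ring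
    _ ≤ 2 * ∑ ζ, ‖b ζ‖ ^ 2 + a ^ (2 * m) :=
        add_le_add (mul_le_mul_of_nonneg_right hcount hB0) hmain

end Vale.Agent.P042.FS
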