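import Vale.Agent.P042.FS.ArithA
import Vale.Agent.P042.FS.HC
import Vale.Agent.P042.FS.Moment

/-! Helper lemmas for `ArithLevel.lean` (helper23). -/

namespace Vale.Agent.P042.FS

open Finset

variable {ι : Type} [Fintype ι] [DecidableEq ι] {N : ι → ℕ} [∀ i, NeZero (N i)]

/-- restriction of `φ` to a residue class -/
noncomputable def resφ (S : Finset ι) (x : ∀ i, ZMod (N i)) (φ : ℤ → ℝ) (n : ℤ) : ℝ :=
  if ∀ i ∈ S, (n : ZMod (N i)) = x i then φ n else 0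

lemma al_expand (S : Finset ι) (ξ' x : ∀ i, ZMod (N i)) (h0 : ∀ i ∈ S, ξ' i = 0) (R : ℕ) (ν : ℝ)
    (u v : ℤ) (φ : ℤ → ℝ) :
    ∑ ξ ∈ univ.filter (fun ξ : ∀ i, ZMod (N i) => (∀ i ∈ S, ξ i ≠ 0) ∧
        ∀ i, i ∉ S → ξ i = ξ' i), fco R ν u v φ ξ * chiS S ξ x =
      ∑ S' ∈ S.powerset, (-1) ^ (S \ S').card *
        fco (R * ∏ i ∈ S', N i) ν u v (resφ S' x φ) ξ' := by
  have h1 : ∀ ξ : ∀ i, ZMod (N i), fco R ν u v φ ξ * chiS S ξ x =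
      ∑ n ∈ Ico u v, ((R / ν : ℝ) : ℂ) * (φ n : ℂ) *
        ((starRingEnd ℂ) (chi ξ (toX N n)) * chiS S ξ x) := by
    intro ξ
    rw [fco, Finset.mul_sum, Finset.sum_mul]
    exact Finset.sum_congr rfl fun n _ => by ring
  rw [Finset.sum_congr rfl fun ξ _ => h1 ξ, Finset.sum_comm]
  have h2 : ∀ n : ℤ, ∑ ξ ∈ univ.filter (fun ξ : ∀ i, ZMod (N i) => (∀ i ∈ S, ξ i ≠ 0) ∧
        ∀ i, i ∉ S → ξ i = ξ' i), ((R / ν : ℝ) : ℂ) * (φ n : ℂ) *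
        ((starRingEnd ℂ) (chi ξ (toX N n)) * chiS S ξ x) =
      ∑ S' ∈ S.powerset, (-1) ^ (S \ S').card * (((((R * ∏ i ∈ S', N i : ℕ) : ℝ) / ν : ℝ) : ℂ) *
        ((resφ S' x φ n : ℂ) * (starRingEnd ℂ) (chi ξ' (toX N n)))) := by
    intro n
    rw [← Finset.mul_sum, al_fiber_sum S ξ' x (toX N n) h0]
    have h3 : ∏ i ∈ S, ((if toX N n i = x i then (N i : ℂ) else 0) - 1) =
        ∑ S' ∈ S.powerset, (if ∀ i ∈ S', (n : ZMod (N i)) = x i then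
          ∏ i ∈ S', (N i : ℂ) else 0) * (-1) ^ (S \ S').card := by
      simp only [sub_eq_add_neg]
      rw [Finset.prod_add]
      refine Finset.sum_congr rfl fun S' _ => ?_
      rw [Finset.prod_ite_zero, Finset.prod_const]
      congr 1
      by_cases h : ∀ i ∈ S', (n : ZMod (N i)) = x i
      · rw [if_pos h, if_pos (show ∀ i ∈ S', toX N n i = x i from h)]
      · rw [if_neg h, if_neg (show ¬ ∀ i ∈ S', toX N n i = x i from h)]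
    rw [h3, Finset.mul_sum, Finset.mul_sum]
    refine Finset.sum_congr rfl fun S' _ => ?_
    unfold resφ
    split_ifs with h
    · push_cast
      ring
    · push_cast
      ring
  rw [Finset.sum_congr rfl fun n _ => h2 n, Finset.sum_comm]
  refine Finset.sum_congr rfl fun S' _ => ?_
  rw [fco, Finset.mul_sum, Finset.mul_sum]

omit [DecidableEq ι] in
lemma al_fco_norm (R : ℕ) (ν : ℝ) (hν : 0 < ν) (u v : ℤ) (φ : ℤ → ℝ) (hφ : ∀ n, 0 ≤ φ n)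
    (ξ : ∀ i, ZMod (N i)) :
    ‖fco R ν u v φ ξ‖ ≤ R / ν * ∑ n ∈ Ico u v, φ n := by
  have hR : (0 : ℝ) ≤ R / ν := by positivity
  rw [fco, norm_mul, Complex.norm_real, Real.norm_eq_abs, abs_of_nonneg hR]
  refine mul_le_mul_of_nonneg_left ?_ hR
  refine (norm_sum_le _ _).trans (Finset.sum_le_sum fun n _ => ?_)
  rw [norm_mul, RCLike.norm_conj, al_norm_chi, mul_one, Complex.norm_real, Real.norm_eq_abs,
    abs_of_nonneg (hφ n)]

lemma al_phi_identity (R : ℕ) (ν : ℝ) (u v : ℤ) (φ : ℤ → ℝ) (c : (∀ i, ZMod (N i)) → ℂ)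
    (hc : ∀ ξ, c ξ = 0 ∨ c ξ = fco R ν u v φ ξ) (ρ : ℝ) :
    ((∑ ξ, ρ ^ (spt ξ).card * ‖c ξ‖ ^ 2 : ℝ) : ℂ) =
      ∑ n ∈ Ico u v, (((R / ν) * φ n : ℝ) : ℂ) *
        ∑ ξ, ((ρ ^ (spt ξ).card : ℝ) : ℂ) * c ξ * chi ξ (toX N n) := by
  push_cast
  simp only [Finset.mul_sum]
  rw [Finset.sum_comm]
  refine Finset.sum_congr rfl fun ξ _ => ?_
  rcases hc ξ with h | h
  · simp [h]
  · have h1 : ((‖c ξ‖ : ℂ)) ^ 2 = c ξ * (starRingEnd ℂ) (c ξ) := (Complex.mul_conj' _).symm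
    rw [h1]
    have h2 : (starRingEnd ℂ) (c ξ) = ∑ n ∈ Ico u v, ((R / ν : ℝ) : ℂ) * ((φ n : ℂ) *
        chi ξ (toX N n)) := by
      rw [h, fco, map_mul, map_sum, Complex.conj_ofReal, Finset.mul_sum]
      refine Finset.sum_congr rfl fun n _ => ?_
      rw [map_mul, Complex.conj_ofReal, Complex.conj_conj]
    rw [h2, Finset.mul_sum, Finset.mul_sum]
    refine Finset.sum_congr rfl fun n _ => ?_
    push_cast
    ring

/-- Hölder step -/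
lemma al_holder (R : ℕ) (ν : ℝ) (hν : 0 < ν) (x₀ u v : ℤ) (φ : ℤ → ℝ) (hφ : ∀ n, 0 ≤ φ n)
    (hφ1 : ∀ n, φ n ≤ 1) (hsup : ∀ n, φ n ≠ 0 → n ≡ x₀ [ZMOD R])
    (c : (∀ i, ZMod (N i)) → ℂ) (hc : ∀ ξ, c ξ = 0 ∨ c ξ = fco R ν u v φ ξ) (ρ : ℝ) (hρ : 0 ≤ ρ)
    (a : ℝ) (hsum : R / ν * ∑ n ∈ Ico u v, φ n ≤ a) (p : ℕ) (hp : 1 ≤ p) :
    (∑ ξ, ρ ^ (spt ξ).card * ‖c ξ‖ ^ 2) ^ p ≤ a ^ (p - 1) *
      ((R / ν) * ∑ n ∈ (Ico u v).filter (fun n => n ≡ x₀ [ZMOD R]),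
        ‖∑ ξ, ((ρ ^ (spt ξ).card : ℝ) : ℂ) * c ξ * chi ξ (toX N n)‖ ^ p) := by
  have hR : (0 : ℝ) ≤ R / ν := by positivity
  have hΦ0 : 0 ≤ ∑ ξ : ∀ i, ZMod (N i), ρ ^ (spt ξ).card * ‖c ξ‖ ^ 2 :=
    Finset.sum_nonneg fun ξ _ => by positivity
  set g : ℤ → ℂ := fun n => ∑ ξ, ((ρ ^ (spt ξ).card : ℝ) : ℂ) * c ξ * chi ξ (toX N n) with hg
  have h1 : ∑ ξ : ∀ i, ZMod (N i), ρ ^ (spt ξ).card * ‖c ξ‖ ^ 2 ≤
      ∑ n ∈ Ico u v, ((R / ν) * φ n) * ‖g n‖ := by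
    have h := congrArg norm (al_phi_identity (N := N) R ν u v φ c hc ρ)
    rw [Complex.norm_real, Real.norm_eq_abs, abs_of_nonneg hΦ0] at h
    rw [h]
    refine (norm_sum_le _ _).trans (le_of_eq (Finset.sum_congr rfl fun n _ => ?_))
    rw [norm_mul, Complex.norm_real, Real.norm_eq_abs, abs_of_nonneg (mul_nonneg hR (hφ n))]
  have h2 := al_power_mean (Ico u v) (fun n => (R / ν) * φ n) (fun n => ‖g n‖)
    (fun n _ => mul_nonneg hR (hφ n)) (fun n _ => norm_nonneg _) p hp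
  have h3 : ∑ n ∈ Ico u v, (R / ν) * φ n ≤ a := by rwa [← Finset.mul_sum]
  have h30 : 0 ≤ ∑ n ∈ Ico u v, (R / ν) * φ n :=
    Finset.sum_nonneg fun n _ => mul_nonneg hR (hφ n)
  have h4 : ∑ n ∈ Ico u v, ((R / ν) * φ n) * ‖g n‖ ^ p ≤
      (R / ν) * ∑ n ∈ (Ico u v).filter (fun n => n ≡ x₀ [ZMOD R]), ‖g n‖ ^ p := by
    rw [Finset.mul_sum, Finset.sum_filter]
    refine Finset.sum_le_sum fun n _ => ?_
    by_cases hn : φ n = 0
    · rw [hn]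
      simp only [mul_zero, zero_mul]
      split_ifs <;> positivity
    · rw [if_pos (hsup n hn)]
      calc (R / ν) * φ n * ‖g n‖ ^ p ≤ (R / ν) * 1 * ‖g n‖ ^ p := by
            refine mul_le_mul_of_nonneg_right ?_ (by positivity)
            exact mul_le_mul_of_nonneg_left (hφ1 n) hR
        _ = (R / ν) * ‖g n‖ ^ p := by ring
  calc (∑ ξ : ∀ i, ZMod (N i), ρ ^ (spt ξ).card * ‖c ξ‖ ^ 2) ^ p
      ≤ (∑ n ∈ Ico u v, ((R / ν) * φ n) * ‖g n‖) ^ p := pow_le_pow_left₀ hΦ0 h1 p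
    _ ≤ (∑ n ∈ Ico u v, (R / ν) * φ n) ^ (p - 1) * ∑ n ∈ Ico u v, ((R / ν) * φ n) * ‖g n‖ ^ p := h2
    _ ≤ a ^ (p - 1) * ((R / ν) * ∑ n ∈ (Ico u v).filter (fun n => n ≡ x₀ [ZMOD R]),
          ‖g n‖ ^ p) := by
        refine mul_le_mul (pow_le_pow_left₀ h30 h3 _) h4 ?_ (pow_nonneg (h30.trans h3) _)
        exact Finset.sum_nonneg fun n _ =>
          mul_nonneg (mul_nonneg hR (hφ n)) (pow_nonneg (norm_nonneg _) _)

/-- `ξ` with the coordinates in `S` set to zero -/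
def zr (S : Finset ι) (ξ : ∀ i, ZMod (N i)) : ∀ i, ZMod (N i) := fun i => if i ∈ S then 0 else ξ i

omit [∀ i, NeZero (N i)] in
lemma spt_zr (S : Finset ι) (ξ : ∀ i, ZMod (N i)) : spt (zr S ξ) = spt ξ \ S := by
  ext i
  simp only [spt, zr, mem_filter, mem_univ, true_and, mem_sdiff]
  by_cases h : i ∈ S <;> simp [h]

lemma al_sum_inner (S : Finset ι) (t : ℝ) (c : (∀ i, ZMod (N i)) → ℂ) :
    ∑ x : ∀ i, ZMod (N i), ∑ ξ' ∈ univ.filter (fun ξ' : ∀ i, ZMod (N i) => ∀ i ∈ S, ξ' i = 0),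
      t ^ (spt ξ').card * ‖∑ ξ ∈ univ.filter (fun ξ : ∀ i, ZMod (N i) =>
        (∀ i ∈ S, ξ i ≠ 0) ∧ ∀ i, i ∉ S → ξ i = ξ' i), c ξ * chiS S ξ x‖ ^ 2 =
    (Fintype.card (∀ i, ZMod (N i)) : ℝ) * ∑ ξ ∈ univ.filter (fun ξ : ∀ i, ZMod (N i) =>
      S ⊆ spt ξ), t ^ ((spt ξ).card - S.card) * ‖c ξ‖ ^ 2 := by
  rw [Finset.sum_comm]
  simp_rw [← Finset.mul_sum]
  rw [Finset.sum_congr rfl fun ξ' _ => by rw [al_parseval]]
  rw [Finset.mul_sum]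
  have h1 : ∀ ξ' : ∀ i, ZMod (N i), t ^ (spt ξ').card *
      ((Fintype.card (∀ i, ZMod (N i)) : ℝ) * ∑ ξ ∈ univ.filter (fun ξ : ∀ i, ZMod (N i) =>
        (∀ i ∈ S, ξ i ≠ 0) ∧ ∀ i, i ∉ S → ξ i = ξ' i), ‖c ξ‖ ^ 2) =
      ∑ ξ ∈ univ.filter (fun ξ : ∀ i, ZMod (N i) =>
        (∀ i ∈ S, ξ i ≠ 0) ∧ ∀ i, i ∉ S → ξ i = ξ' i),
        (Fintype.card (∀ i, ZMod (N i)) : ℝ) * (t ^ (spt ξ').card * ‖c ξ‖ ^ 2) := by
    intro ξ'
    rw [Finset.mul_sum, Finset.mul_sum]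
    exact Finset.sum_congr rfl fun ξ _ => by ring
  rw [Finset.sum_congr rfl fun ξ' _ => h1 ξ']
  rw [Finset.sum_comm' (t' := univ.filter (fun ξ : ∀ i, ZMod (N i) => S ⊆ spt ξ))
    (s' := fun ξ => {zr S ξ})]
  · refine Finset.sum_congr rfl fun ξ hξ => ?_
    rw [Finset.sum_singleton, spt_zr, Finset.card_sdiff_of_subset (mem_filter.mp hξ).2]
  · intro ξ' ξ
    simp only [mem_filter, mem_univ, true_and, mem_singleton]
    constructor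
    · rintro ⟨h1, h2, h3⟩
      refine ⟨funext fun i => ?_, fun i hi => ?_⟩
      · by_cases h : i ∈ S
        · simp [zr, h, h1 i h]
        · simp [zr, h, h3 i h]
      · simp [spt, h2 i hi]
    · rintro ⟨h1, h2⟩
      subst h1
      refine ⟨fun i hi => by simp [zr, hi], fun i hi => ?_, fun i hi => by simp [zr, hi]⟩
      have := h2 hi
      simpa [spt] using this

lemma al_num (m : ℕ) (hm : 1 ≤ m) :
    (9 : ℝ) ^ (m - 1) / 64 ^ m + 1 / (256 * m) ≤ 1 / (48 * m) := by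
  have h : (9 : ℝ) ^ (m - 1) / 64 ^ m ≤ 13 / (768 * m) := by
    induction m, hm using Nat.le_induction with
    | base => norm_num
    | succ k hk ih =>
      have hk0 : (1 : ℝ) ≤ k := by exact_mod_cast hk
      have h1 : (9 : ℝ) ^ (k + 1 - 1) / 64 ^ (k + 1) = (9 / 64) * (9 ^ (k - 1) / 64 ^ k) := by
        obtain ⟨j, rfl⟩ : ∃ j, k = j + 1 := ⟨k - 1, by omega⟩
        simp only [Nat.add_sub_cancel]
        field_simp
        ring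
      rw [h1]
      calc (9 / 64 : ℝ) * (9 ^ (k - 1) / 64 ^ k) ≤ (9 / 64) * (13 / (768 * k)) := by
            exact mul_le_mul_of_nonneg_left ih (by norm_num)
        _ ≤ 13 / (768 * ((k + 1 : ℕ) : ℝ)) := by
            push_cast
            rw [show (9 / 64 : ℝ) * (13 / (768 * k)) = 117 / (49152 * k) by
              field_simp; norm_num]
            rw [div_le_div_iff₀ (by positivity) (by positivity)]
            nlinarith
  have hm0 : (1 : ℝ) ≤ m := by exact_mod_cast hm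
  have h2 : (13 : ℝ) / (768 * m) + 1 / (256 * m) = 1 / (48 * m) := by
    field_simp
    norm_num
  linarith

/-- energy bound from a pointwise bound of the inner sums -/
lemma al_energy (m : ℕ) (hm : 1 ≤ m) (c : (∀ i, ZMod (N i)) → ℂ) (B : ℝ) (hB : 0 ≤ B)
    (hin : ∀ (S : Finset ι) (x : ∀ i, ZMod (N i)),
      ∑ ξ' ∈ univ.filter (fun ξ' : ∀ i, ZMod (N i) => ∀ i ∈ S, ξ' i = 0),
          (1 / (256 * m : ℝ)) ^ (spt ξ').card *
            ‖∑ ξ ∈ univ.filter (fun ξ : ∀ i, ZMod (N i) => (∀ i ∈ S, ξ i ≠ 0) ∧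
              ∀ i, i ∉ S → ξ i = ξ' i), c ξ * chiS S ξ x‖ ^ 2 ≤ B * 9 ^ S.card) :
    ∑ x : ∀ i, ZMod (N i), ‖∑ ξ, ((1 / (48 * m : ℝ)) ^ (spt ξ).card : ℝ) * c ξ * chi ξ x‖ ^ (2 * m)
      ≤ (Fintype.card (∀ i, ZMod (N i)) : ℝ) * (B ^ (m - 1) *
        ∑ ξ, (1 / (48 * m : ℝ)) ^ (spt ξ).card * ‖c ξ‖ ^ 2) := by
  set G : ℝ := (Fintype.card (∀ i, ZMod (N i)) : ℝ) with hG
  have hG0 : 0 ≤ G := by positivity
  refine (hc_char m hm c).trans ?_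
  set inn : Finset ι → (∀ i, ZMod (N i)) → ℝ := fun S x =>
      ∑ ξ' ∈ univ.filter (fun ξ' : ∀ i, ZMod (N i) => ∀ i ∈ S, ξ' i = 0),
          (1 / (256 * m : ℝ)) ^ (spt ξ').card *
            ‖∑ ξ ∈ univ.filter (fun ξ : ∀ i, ZMod (N i) => (∀ i ∈ S, ξ i ≠ 0) ∧
              ∀ i, i ∉ S → ξ i = ξ' i), c ξ * chiS S ξ x‖ ^ 2 with hinn
  have hin0 : ∀ S x, 0 ≤ inn S x := fun S x => Finset.sum_nonneg fun ξ' _ => by positivity
  have h1 : ∀ S : Finset ι, (1 / 8 : ℝ) ^ (2 * m * S.card) * ∑ x, inn S x ^ m ≤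
      G * B ^ (m - 1) * ∑ ξ ∈ univ.filter (fun ξ : ∀ i, ZMod (N i) => S ⊆ spt ξ),
        ((9 : ℝ) ^ (m - 1) / 64 ^ m) ^ S.card * (1 / (256 * m : ℝ)) ^ ((spt ξ).card - S.card) *
          ‖c ξ‖ ^ 2 := by
    intro S
    have h2 : ∑ x, inn S x ^ m ≤ (B * 9 ^ S.card) ^ (m - 1) * ∑ x, inn S x := by
      rw [Finset.mul_sum]
      refine Finset.sum_le_sum fun x _ => ?_
      have : inn S x ^ m = inn S x ^ (m - 1) * inn S x := by
        rw [← pow_succ]; congr 1; omega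
      rw [this]
      exact mul_le_mul_of_nonneg_right (pow_le_pow_left₀ (hin0 S x) (hin S x) _) (hin0 S x)
    have h3 : ∑ x, inn S x = G * ∑ ξ ∈ univ.filter (fun ξ : ∀ i, ZMod (N i) =>
      S ⊆ spt ξ), (1 / (256 * m : ℝ)) ^ ((spt ξ).card - S.card) * ‖c ξ‖ ^ 2 :=
      al_sum_inner S _ c
    rw [h3] at h2
    refine (mul_le_mul_of_nonneg_left h2 (by positivity)).trans (le_of_eq ?_)
    have h4 : (1 / 8 : ℝ) ^ (2 * m * S.card) * (B * 9 ^ S.card) ^ (m - 1) =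
        B ^ (m - 1) * ((9 : ℝ) ^ (m - 1) / 64 ^ m) ^ S.card := by
      have e1 : ((9 : ℝ) ^ S.card) ^ (m - 1) = (9 ^ (m - 1)) ^ S.card := by
        rw [← pow_mul, ← pow_mul, mul_comm]
      have e2 : (1 / 8 : ℝ) ^ (2 * m * S.card) = 1 / (64 ^ m) ^ S.card := by
        rw [mul_assoc, pow_mul, pow_mul, one_div_pow, one_div_pow, one_div_pow]
        norm_num
      rw [mul_pow, e1, e2, div_pow]
      ring
    calc (1 / 8 : ℝ) ^ (2 * m * S.card) * ((B * 9 ^ S.card) ^ (m - 1) * (G * ∑ ξ ∈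
          univ.filter (fun ξ : ∀ i, ZMod (N i) => S ⊆ spt ξ),
          (1 / (256 * m : ℝ)) ^ ((spt ξ).card - S.card) * ‖c ξ‖ ^ 2))
        = ((1 / 8 : ℝ) ^ (2 * m * S.card) * (B * 9 ^ S.card) ^ (m - 1)) * (G * ∑ ξ ∈
          univ.filter (fun ξ : ∀ i, ZMod (N i) => S ⊆ spt ξ),
          (1 / (256 * m : ℝ)) ^ ((spt ξ).card - S.card) * ‖c ξ‖ ^ 2) := by ring
      _ = _ := by
          rw [h4]
          rw [Finset.mul_sum, Finset.mul_sum, Finset.mul_sum]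
          exact Finset.sum_congr rfl fun ξ _ => by ring
  refine (Finset.sum_le_sum fun S _ => h1 S).trans ?_
  rw [← Finset.mul_sum, mul_assoc]
  refine mul_le_mul_of_nonneg_left (mul_le_mul_of_nonneg_left ?_ (by positivity)) hG0
  simp_rw [Finset.sum_filter]
  rw [Finset.sum_comm]
  refine Finset.sum_le_sum fun ξ _ => ?_
  rw [← Finset.sum_filter]
  have h5 : (univ.filter (fun S : Finset ι => S ⊆ spt ξ)) = (spt ξ).powerset := by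
    ext S; simp
  rw [h5, ← Finset.sum_mul, Finset.sum_pow_mul_eq_add_pow]
  refine mul_le_mul_of_nonneg_right ?_ (by positivity)
  exact pow_le_pow_left₀ (by positivity) (al_num m hm) _

end Vale.Agent.P042.FS
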