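import Vale.Agent.P042.FS.ArithB

/-! Helper lemmas for `ArithLevel.lean` (helper23): the inner bound from the induction hypothesis. -/

namespace Vale.Agent.P042.FS

open Finset

variable {ι : Type} [Fintype ι] [DecidableEq ι] {N : ι → ℕ} [∀ i, NeZero (N i)]

/-- the inductive statement -/
def ALStat (N : ι → ℕ) [∀ i, NeZero (N i)] (Q m D : ℕ) : Prop :=
  ∀ (K : Finset ι) (R : ℕ) (_ : 1 ≤ R) (_ : ∀ i ∈ K, Nat.Coprime R (N i)) (x₀ u v : ℤ) (ν a : ℝ)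
    (_ : ((v - u : ℤ) : ℝ) ≤ ν + 1) (_ : (R : ℝ) * (Q : ℝ) ^ (8 * m * D + 1) ≤ ν)
    (φ : ℤ → ℝ) (_ : ∀ n, 0 ≤ φ n) (_ : ∀ n, φ n ≤ 1)
    (_ : ∀ n, φ n ≠ 0 → u ≤ n ∧ n < v ∧ n ≡ x₀ [ZMOD R])
    (_ : Real.exp (-(2 * m : ℝ)) ≤ a)
    (_ : ∀ S : Finset ι, S ⊆ K → S.card ≤ D → ∀ x : ∀ i, ZMod (N i),
      (R * ∏ i ∈ S, (N i : ℝ)) / ν *
        ∑ n ∈ (Ico u v).filter (fun n => ∀ i ∈ S, (n : ZMod (N i)) = x i), φ n ≤
          2 ^ S.card * a),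
    ∑ ξ ∈ univ.filter (fun ξ : ∀ i, ZMod (N i) => spt ξ ⊆ K ∧ (spt ξ).card ≤ D),
      (1 / (48 * m : ℝ)) ^ (spt ξ).card * ‖fco R ν u v φ ξ‖ ^ 2 ≤ 25 * a ^ 2

omit [Fintype ι] [DecidableEq ι] [∀ i, NeZero (N i)] in
lemma al_crt (hcop : ∀ i j, i ≠ j → Nat.Coprime (N i) (N j)) (R : ℕ) (S' : Finset ι)
    (hRc : ∀ i ∈ S', Nat.Coprime R (N i)) (n n' : ℤ) (h1 : n ≡ n' [ZMOD R])
    (h2 : ∀ i ∈ S', (n : ZMod (N i)) = (n' : ZMod (N i))) :
    n ≡ n' [ZMOD ((R * ∏ i ∈ S', N i : ℕ) : ℤ)] := by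
  rw [Int.modEq_iff_dvd] at h1 ⊢
  push_cast
  refine IsCoprime.mul_dvd ?_ h1 ?_
  · refine IsCoprime.prod_right fun i hi => ?_
    exact Nat.isCoprime_iff_coprime.mpr (hRc i hi)
  · refine Finset.prod_dvd_of_coprime ?_ fun i hi => ?_
    · intro i hi j hj hij
      exact Nat.isCoprime_iff_coprime.mpr (hcop i j hij)
    · have := h2 i hi
      rw [ZMod.intCast_eq_intCast_iff_dvd_sub] at this
      exact this

lemma al_ih (hcop : ∀ i j, i ≠ j → Nat.Coprime (N i) (N j)) (Q : ℕ) (hQ : 2 ≤ Q)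
    (hNQ : ∀ i, N i ≤ Q) (m : ℕ) (hm : 1 ≤ m) (D : ℕ) (K : Finset ι) (R : ℕ) (hR : 1 ≤ R)
    (hRc : ∀ i ∈ K, Nat.Coprime R (N i)) (x₀ u v : ℤ) (ν a : ℝ)
    (huv : ((v - u : ℤ) : ℝ) ≤ ν + 1) (hν : (R : ℝ) * (Q : ℝ) ^ (8 * m * D + 1) ≤ ν)
    (φ : ℤ → ℝ) (hφ : ∀ n, 0 ≤ φ n) (hφ1 : ∀ n, φ n ≤ 1)
    (hsup : ∀ n, φ n ≠ 0 → u ≤ n ∧ n < v ∧ n ≡ x₀ [ZMOD R])
    (ha : Real.exp (-(2 * m : ℝ)) ≤ a)
    (hden : ∀ S : Finset ι, S ⊆ K → S.card ≤ D → ∀ x : ∀ i, ZMod (N i),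
      (R * ∏ i ∈ S, (N i : ℝ)) / ν *
        ∑ n ∈ (Ico u v).filter (fun n => ∀ i ∈ S, (n : ZMod (N i)) = x i), φ n ≤
          2 ^ S.card * a)
    (S : Finset ι) (hSK : S ⊆ K) (hSD : S.card ≤ D) (ih : ALStat N Q m (D - S.card))
    (S' : Finset ι) (hS' : S' ⊆ S) (x : ∀ i, ZMod (N i)) :
    ∑ ξ ∈ univ.filter (fun ξ : ∀ i, ZMod (N i) => spt ξ ⊆ K \ S ∧ (spt ξ).card ≤ D - S.card),
      (1 / (48 * m : ℝ)) ^ (spt ξ).card *
        ‖fco (R * ∏ i ∈ S', N i) ν u v (resφ S' x φ) ξ‖ ^ 2 ≤ 25 * (2 ^ S'.card * a) ^ 2 := by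
  have ha0 : 0 < a := lt_of_lt_of_le (Real.exp_pos _) ha
  have hprod : 1 ≤ ∏ i ∈ S', N i := Finset.one_le_prod' fun i _ => NeZero.one_le
  obtain ⟨x₁, hx₁⟩ : ∃ x₁ : ℤ, ∀ n, resφ S' x φ n ≠ 0 →
      n ≡ x₁ [ZMOD ((R * ∏ i ∈ S', N i : ℕ) : ℤ)] := by
    by_cases hex : ∃ n, resφ S' x φ n ≠ 0
    · obtain ⟨n₁, hn₁⟩ := hex
      refine ⟨n₁, fun n hn => ?_⟩
      unfold resφ at hn hn₁
      split_ifs at hn with h1
      · split_ifs at hn₁ with h2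
        · refine al_crt hcop R S' (fun i hi => hRc i (hSK (hS' hi))) n n₁ ?_ ?_
          · exact (hsup n hn).2.2.trans (hsup n₁ hn₁).2.2.symm
          · intro i hi
            rw [h1 i hi, h2 i hi]
        · exact absurd rfl hn₁
      · exact absurd rfl hn
    · push Not at hex
      exact ⟨0, fun n hn => absurd (hex n) hn⟩
  refine ih (K \ S) (R * ∏ i ∈ S', N i) (Nat.mul_pos hR hprod) ?_ x₁ u v ν (2 ^ S'.card * a) huv ?_
    (resφ S' x φ) ?_ ?_ ?_ ?_ ?_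
  · intro i hi
    rw [mem_sdiff] at hi
    refine Nat.Coprime.mul_left (hRc i hi.1) ?_
    refine Nat.Coprime.prod_left fun j hj => ?_
    exact hcop j i (fun h => hi.2 (h ▸ hS' hj))
  · have hQ1 : (1 : ℝ) ≤ Q := by exact_mod_cast (by omega : 1 ≤ Q)
    have h1 : ((∏ i ∈ S', N i : ℕ) : ℝ) ≤ (Q : ℝ) ^ S'.card := by
      push_cast
      rw [← Finset.prod_const]
      exact Finset.prod_le_prod (fun i _ => Nat.cast_nonneg _) fun i _ => by exact_mod_cast hNQ i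
    have h2 : S'.card ≤ S.card := Finset.card_le_card hS'
    have h3 : S'.card + (8 * m * (D - S.card) + 1) ≤ 8 * m * D + 1 := by
      obtain ⟨e, he⟩ := Nat.exists_eq_add_of_le hSD
      rw [he, Nat.add_sub_cancel_left]
      have : S.card ≤ 8 * m * S.card := Nat.le_mul_of_pos_left _ (by omega)
      nlinarith
    calc ((R * ∏ i ∈ S', N i : ℕ) : ℝ) * (Q : ℝ) ^ (8 * m * (D - S.card) + 1)
        = (R : ℝ) * (((∏ i ∈ S', N i : ℕ) : ℝ) * (Q : ℝ) ^ (8 * m * (D - S.card) + 1)) := by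
          push_cast; ring
      _ ≤ (R : ℝ) * ((Q : ℝ) ^ S'.card * (Q : ℝ) ^ (8 * m * (D - S.card) + 1)) := by
          gcongr
      _ = (R : ℝ) * (Q : ℝ) ^ (S'.card + (8 * m * (D - S.card) + 1)) := by
          rw [← pow_add]
      _ ≤ (R : ℝ) * (Q : ℝ) ^ (8 * m * D + 1) := by
          refine mul_le_mul_of_nonneg_left ?_ (Nat.cast_nonneg _)
          exact pow_le_pow_right₀ hQ1 h3
      _ ≤ ν := hν
  · intro n
    unfold resφ
    split_ifs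
    · exact hφ n
    · exact le_refl _
  · intro n
    unfold resφ
    split_ifs
    · exact hφ1 n
    · exact zero_le_one
  · intro n hn
    have hn0 : φ n ≠ 0 := by
      intro h
      apply hn
      unfold resφ
      split_ifs
      · exact h
      · rfl
    exact ⟨(hsup n hn0).1, (hsup n hn0).2.1, hx₁ n hn⟩
  · refine ha.trans ?_
    have : (1 : ℝ) ≤ 2 ^ S'.card := one_le_pow₀ (by norm_num)
    nlinarith
  · intro T hT hTD y
    have hdis : Disjoint S' T := by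
      rw [Finset.disjoint_left]
      intro i hi hiT
      exact (mem_sdiff.mp (hT hiT)).2 (hS' hi)
    have hcard : (S' ∪ T).card = S'.card + T.card := Finset.card_union_of_disjoint hdis
    have h := hden (S' ∪ T) (Finset.union_subset (hS'.trans hSK)
      (hT.trans Finset.sdiff_subset)) (by
        rw [hcard]
        have := Finset.card_le_card hS'
        omega) (fun i => if i ∈ S' then x i else y i)
    rw [hcard, Finset.prod_union hdis] at h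
    have h4 : ∑ n ∈ (Ico u v).filter (fun n => ∀ i ∈ S' ∪ T, (n : ZMod (N i)) =
        if i ∈ S' then x i else y i), φ n =
        ∑ n ∈ (Ico u v).filter (fun n => ∀ i ∈ T, (n : ZMod (N i)) = y i), resφ S' x φ n := by
      rw [Finset.sum_filter, Finset.sum_filter]
      refine Finset.sum_congr rfl fun n _ => ?_
      have h5 : (∀ i ∈ S' ∪ T, (n : ZMod (N i)) = if i ∈ S' then x i else y i) ↔
          (∀ i ∈ T, (n : ZMod (N i)) = y i) ∧ (∀ i ∈ S', (n : ZMod (N i)) = x i) := by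
        constructor
        · intro h6
          refine ⟨fun i hi => ?_, fun i hi => ?_⟩
          · have := h6 i (mem_union_right _ hi)
            rwa [if_neg (fun h7 => (Finset.disjoint_left.mp hdis h7 hi))] at this
          · have := h6 i (mem_union_left _ hi)
            rwa [if_pos hi] at this
        · rintro ⟨h6, h7⟩ i hi
          by_cases h8 : i ∈ S'
          · rw [if_pos h8]; exact h7 i h8
          · rw [if_neg h8]
            rcases mem_union.mp hi with h9 | h9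
            · exact absurd h9 h8
            · exact h6 i h9
      unfold resφ
      by_cases h6 : ∀ i ∈ T, (n : ZMod (N i)) = y i
      · by_cases h7 : ∀ i ∈ S', (n : ZMod (N i)) = x i
        · rw [if_pos (h5.mpr ⟨h6, h7⟩), if_pos h6, if_pos h7]
        · rw [if_neg (fun h8 => h7 (h5.mp h8).2), if_pos h6, if_neg h7]
      · rw [if_neg (fun h8 => h6 (h5.mp h8).1), if_neg h6]
    rw [h4] at h
    calc ((R * ∏ i ∈ S', N i : ℕ) : ℝ) * (∏ i ∈ T, (N i : ℝ)) / ν *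
        ∑ n ∈ (Ico u v).filter (fun n => ∀ i ∈ T, (n : ZMod (N i)) = y i), resφ S' x φ n
        = ↑R * ((∏ i ∈ S', (N i : ℝ)) * ∏ i ∈ T, (N i : ℝ)) / ν *
        ∑ n ∈ (Ico u v).filter (fun n => ∀ i ∈ T, (n : ZMod (N i)) = y i), resφ S' x φ n := by
          push_cast; ring
      _ ≤ 2 ^ (S'.card + T.card) * a := h
      _ = 2 ^ T.card * (2 ^ S'.card * a) := by rw [pow_add]; ring

/-- inner bound for `S ⊆ K`, `|S| ≤ D` -/
lemma al_inner (hcop : ∀ i j, i ≠ j → Nat.Coprime (N i) (N j)) (Q : ℕ) (hQ : 2 ≤ Q)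
    (hNQ : ∀ i, N i ≤ Q) (m : ℕ) (hm : 1 ≤ m) (D : ℕ) (K : Finset ι) (R : ℕ) (hR : 1 ≤ R)
    (hRc : ∀ i ∈ K, Nat.Coprime R (N i)) (x₀ u v : ℤ) (ν a : ℝ)
    (huv : ((v - u : ℤ) : ℝ) ≤ ν + 1) (hν : (R : ℝ) * (Q : ℝ) ^ (8 * m * D + 1) ≤ ν)
    (φ : ℤ → ℝ) (hφ : ∀ n, 0 ≤ φ n) (hφ1 : ∀ n, φ n ≤ 1)
    (hsup : ∀ n, φ n ≠ 0 → u ≤ n ∧ n < v ∧ n ≡ x₀ [ZMOD R])
    (ha : Real.exp (-(2 * m : ℝ)) ≤ a)
    (hden : ∀ S : Finset ι, S ⊆ K → S.card ≤ D → ∀ x : ∀ i, ZMod (N i),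
      (R * ∏ i ∈ S, (N i : ℝ)) / ν *
        ∑ n ∈ (Ico u v).filter (fun n => ∀ i ∈ S, (n : ZMod (N i)) = x i), φ n ≤
          2 ^ S.card * a)
    (S : Finset ι) (hSK : S ⊆ K) (hSD : S.card ≤ D) (ih : ALStat N Q m (D - S.card))
    (c : (∀ i, ZMod (N i)) → ℂ)
    (hc1 : ∀ ξ, spt ξ ⊆ K → (spt ξ).card ≤ D → c ξ = fco R ν u v φ ξ)
    (hc0 : ∀ ξ, ¬ (spt ξ ⊆ K ∧ (spt ξ).card ≤ D) → c ξ = 0) (x : ∀ i, ZMod (N i)) :
    ∑ ξ' ∈ univ.filter (fun ξ' : ∀ i, ZMod (N i) => ∀ i ∈ S, ξ' i = 0),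
          (1 / (256 * m : ℝ)) ^ (spt ξ').card *
            ‖∑ ξ ∈ univ.filter (fun ξ : ∀ i, ZMod (N i) => (∀ i ∈ S, ξ i ≠ 0) ∧
              ∀ i, i ∉ S → ξ i = ξ' i), c ξ * chiS S ξ x‖ ^ 2 ≤ 25 * a ^ 2 * 9 ^ S.card := by
  have ha0 : 0 < a := lt_of_lt_of_le (Real.exp_pos _) ha
  have hm0 : (1 : ℝ) ≤ m := by exact_mod_cast hm
  -- support of members of the fibre
  have hspt : ∀ ξ' ξ : ∀ i, ZMod (N i), (∀ i ∈ S, ξ' i = 0) → (∀ i ∈ S, ξ i ≠ 0) →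
      (∀ i, i ∉ S → ξ i = ξ' i) → spt ξ = spt ξ' ∪ S ∧ Disjoint (spt ξ') S := by
    intro ξ' ξ h0 h1 h2
    constructor
    · ext i
      simp only [spt, mem_filter, mem_univ, true_and, mem_union]
      by_cases h : i ∈ S
      · simp [h, h1 i h]
      · simp [h, h2 i h]
    · rw [Finset.disjoint_left]
      intro i hi hiS
      simp only [spt, mem_filter, mem_univ, true_and] at hi
      exact hi (h0 i hiS)
  have hfib1 : ∀ ξ' : ∀ i, ZMod (N i), (∀ i ∈ S, ξ' i = 0) → spt ξ' ⊆ K \ S →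
      (spt ξ').card ≤ D - S.card →
      ∑ ξ ∈ univ.filter (fun ξ : ∀ i, ZMod (N i) => (∀ i ∈ S, ξ i ≠ 0) ∧
              ∀ i, i ∉ S → ξ i = ξ' i), c ξ * chiS S ξ x =
      ∑ S' ∈ S.powerset, (-1) ^ (S \ S').card *
        fco (R * ∏ i ∈ S', N i) ν u v (resφ S' x φ) ξ' := by
    intro ξ' h0 h1 h2
    rw [← al_expand S ξ' x h0]
    refine Finset.sum_congr rfl fun ξ hξ => ?_
    rw [mem_filter] at hξ
    obtain ⟨h3, h4⟩ := hspt ξ' ξ h0 hξ.2.1 hξ.2.2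
    rw [hc1 ξ]
    · rw [h3]
      exact Finset.union_subset (h1.trans Finset.sdiff_subset) hSK
    · rw [h3, Finset.card_union_of_disjoint h4]
      omega
  have hfib0 : ∀ ξ' : ∀ i, ZMod (N i), (∀ i ∈ S, ξ' i = 0) → ¬ (spt ξ' ⊆ K \ S ∧
      (spt ξ').card ≤ D - S.card) →
      ∑ ξ ∈ univ.filter (fun ξ : ∀ i, ZMod (N i) => (∀ i ∈ S, ξ i ≠ 0) ∧
              ∀ i, i ∉ S → ξ i = ξ' i), c ξ * chiS S ξ x = 0 := by
    intro ξ' h0 h1
    refine Finset.sum_eq_zero fun ξ hξ => ?_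
    rw [mem_filter] at hξ
    obtain ⟨h3, h4⟩ := hspt ξ' ξ h0 hξ.2.1 hξ.2.2
    rw [hc0 ξ, zero_mul]
    rintro ⟨h5, h6⟩
    apply h1
    constructor
    · intro i hi
      rw [mem_sdiff]
      exact ⟨h5 (h3 ▸ mem_union_left _ hi), fun hiS => Finset.disjoint_left.mp h4 hi hiS⟩
    · rw [h3, Finset.card_union_of_disjoint h4] at h6
      omega
  have hmink := al_minkowski (X := ∀ i, ZMod (N i)) S.powerset
    (fun ξ' => if spt ξ' ⊆ K \ S ∧ (spt ξ').card ≤ D - S.card then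
      (1 / (48 * m : ℝ)) ^ (spt ξ').card else 0)
    (fun ξ' => by split_ifs <;> positivity)
    (fun S' ξ' => (-1) ^ (S \ S').card * fco (R * ∏ i ∈ S', N i) ν u v (resφ S' x φ) ξ')
    (fun S' => 5 * (2 ^ S'.card * a)) (fun S' _ => by positivity)
    (by
      intro S' hS'
      rw [mem_powerset] at hS'
      have h := al_ih hcop Q hQ hNQ m hm D K R hR hRc x₀ u v ν a huv hν φ hφ hφ1 hsup ha hden S hSK
        hSD ih S' hS' x
      rw [Finset.sum_filter] at h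
      calc _ = ∑ ξ : ∀ i, ZMod (N i), (if spt ξ ⊆ K \ S ∧ (spt ξ).card ≤ D - S.card then
            (1 / (48 * m : ℝ)) ^ (spt ξ).card *
              ‖fco (R * ∏ i ∈ S', N i) ν u v (resφ S' x φ) ξ‖ ^ 2 else 0) := by
            refine Finset.sum_congr rfl fun ξ _ => ?_
            rw [norm_mul, norm_pow, norm_neg, norm_one, one_pow, one_mul]
            split_ifs <;> simp
        _ ≤ 25 * (2 ^ S'.card * a) ^ 2 := h
        _ = (5 * (2 ^ S'.card * a)) ^ 2 := by ring)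
  have hsumC : ∑ S' ∈ S.powerset, 5 * ((2 : ℝ) ^ S'.card * a) = 5 * a * 3 ^ S.card := by
    have h := Finset.sum_pow_mul_eq_add_pow (2 : ℝ) 1 S
    simp only [one_pow, mul_one] at h
    calc ∑ S' ∈ S.powerset, 5 * ((2 : ℝ) ^ S'.card * a) = 5 * a * ∑ S' ∈ S.powerset, 2 ^ S'.card := by
          rw [Finset.mul_sum]; exact Finset.sum_congr rfl fun _ _ => by ring
      _ = 5 * a * 3 ^ S.card := by rw [h]; norm_num
  rw [hsumC] at hmink
  refine le_trans ?_ (hmink.trans (le_of_eq ?_))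
  · rw [Finset.sum_filter]
    refine Finset.sum_le_sum fun ξ' _ => ?_
    by_cases h0 : ∀ i ∈ S, ξ' i = 0
    · rw [if_pos h0]
      by_cases h1 : spt ξ' ⊆ K \ S ∧ (spt ξ').card ≤ D - S.card
      · rw [hfib1 ξ' h0 h1.1 h1.2, if_pos h1]
        refine mul_le_mul_of_nonneg_right ?_ (by positivity)
        refine pow_le_pow_left₀ (by positivity) ?_ _
        refine one_div_le_one_div_of_le (by positivity) ?_
        nlinarith
      · rw [hfib0 ξ' h0 h1, if_neg h1]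
        simp
    · rw [if_neg h0]
      split_ifs <;> positivity
  · rw [mul_pow, mul_pow, ← pow_mul, mul_comm S.card 2, pow_mul]
    norm_num

end Vale.Agent.P042.FS
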