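import Vale.Agent.P042.FS.HC
import Vale.Agent.P042.FS.Moment
import Vale.Agent.P042.FS.ArithC

namespace Vale.Agent.P042.FS

open Finset

variable {ι : Type} [Fintype ι] [DecidableEq ι] {N : ι → ℕ} [∀ i, NeZero (N i)]

lemma al_final (m : ℕ) (hm : 1 ≤ m) (a Φ : ℝ) (ha : Real.exp (-(2 * m : ℝ)) ≤ a)
    (hΦ : 25 * a ^ 2 < Φ)
    (h : Φ ^ (2 * m) ≤ a ^ (2 * m - 1) * (2 * Φ ^ m + a ^ (2 * m))) : False := by
  have ha0 : 0 < a := lt_of_lt_of_le (Real.exp_pos _) ha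
  have hΦ0 : 0 < Φ := lt_trans (by positivity) hΦ
  have h1 : a ^ (2 * m) ≤ Φ ^ m := by
    rw [pow_mul]
    exact pow_le_pow_left₀ (by positivity) (by nlinarith [sq_nonneg a]) m
  have h2 : Φ ^ m ≤ 3 * a ^ (2 * m - 1) := by
    have h3 : Φ ^ m * Φ ^ m ≤ (3 * a ^ (2 * m - 1)) * Φ ^ m := by
      calc Φ ^ m * Φ ^ m = Φ ^ (2 * m) := by rw [← pow_add]; congr 1; omega
        _ ≤ a ^ (2 * m - 1) * (2 * Φ ^ m + a ^ (2 * m)) := h
        _ ≤ a ^ (2 * m - 1) * (2 * Φ ^ m + Φ ^ m) := by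
            refine mul_le_mul_of_nonneg_left ?_ (by positivity)
            linarith
        _ = (3 * a ^ (2 * m - 1)) * Φ ^ m := by ring
    exact le_of_mul_le_mul_right h3 (pow_pos hΦ0 m)
  have h4 : Φ ^ m * Real.exp (-(2 * m : ℝ)) ≤ 3 * (a ^ 2) ^ m := by
    calc Φ ^ m * Real.exp (-(2 * m : ℝ)) ≤ Φ ^ m * a :=
          mul_le_mul_of_nonneg_left ha (by positivity)
      _ ≤ 3 * a ^ (2 * m - 1) * a := mul_le_mul_of_nonneg_right h2 ha0.le
      _ = 3 * a ^ (2 * m - 1 + 1) := by rw [pow_succ]; ring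
      _ = 3 * (a ^ 2) ^ m := by rw [← pow_mul]; congr 2; omega
  have h5 : (25 * a ^ 2) ^ m < Φ ^ m := pow_lt_pow_left₀ hΦ (by positivity) (by omega)
  have h6 : (25 : ℝ) ^ m * (a ^ 2) ^ m * Real.exp (-(2 * m : ℝ)) < 3 * (a ^ 2) ^ m := by
    rw [← mul_pow]
    exact lt_of_lt_of_le (mul_lt_mul_of_pos_right h5 (Real.exp_pos _)) h4
  have h7 : (25 : ℝ) ^ m * Real.exp (-(2 * m : ℝ)) < 3 := by
    have h8 : 0 < (a ^ 2) ^ m := by positivity
    have : (25 : ℝ) ^ m * Real.exp (-(2 * m : ℝ)) * (a ^ 2) ^ m < 3 * (a ^ 2) ^ m := by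
      linarith
    exact lt_of_mul_lt_mul_right this h8.le
  have h8 : Real.exp (-(2 * m : ℝ)) = (Real.exp 1 ^ 2)⁻¹ ^ m := by
    rw [Real.exp_neg, inv_pow, ← pow_mul, ← Real.exp_nat_mul]
    push_cast
    rw [mul_one]
  have h9 : Real.exp 1 ^ 2 < 7.4 := by
    have := Real.exp_one_lt_d9
    have h10 := Real.exp_pos 1
    nlinarith
  rw [h8, ← mul_pow] at h7
  have h11 : (3 : ℝ) < 25 * (Real.exp 1 ^ 2)⁻¹ := by
    rw [← div_eq_mul_inv, lt_div_iff₀ (by positivity)]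
    linarith
  have h12 : 25 * (Real.exp 1 ^ 2)⁻¹ ≤ (25 * (Real.exp 1 ^ 2)⁻¹) ^ m :=
    le_self_pow₀ (by linarith) (by omega)
  linarith

/-- arithmetic level inequality for functions that are dense on no progression -/
theorem arith_level (hcop : ∀ i j, i ≠ j → Nat.Coprime (N i) (N j)) (Q : ℕ) (hQ : 2 ≤ Q)
    (hNQ : ∀ i, N i ≤ Q) (hN2 : ∀ i, 2 ≤ N i) (hcard : Fintype.card ι ≤ Q) (m : ℕ)
    (hm : 1 ≤ m) : ∀ (D : ℕ) (K : Finset ι)
    (R : ℕ) (_ : 1 ≤ R) (_ : ∀ i ∈ K, Nat.Coprime R (N i)) (x₀ u v : ℤ) (ν a : ℝ)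
    (_ : ((v - u : ℤ) : ℝ) ≤ ν + 1) (_ : (R : ℝ) * (Q : ℝ) ^ (8 * m * D + 1) ≤ ν)
    (φ : ℤ → ℝ) (_ : ∀ n, 0 ≤ φ n) (_ : ∀ n, φ n ≤ 1)
    (_ : ∀ n, φ n ≠ 0 → u ≤ n ∧ n < v ∧ n ≡ x₀ [ZMOD R])
    (_ : Real.exp (-(2 * m : ℝ)) ≤ a)
    (_ : ∀ S : Finset ι, S ⊆ K → S.card ≤ D → ∀ x : ∀ i, ZMod (N i),
      (R * ∏ i ∈ S, (N i : ℝ)) / ν *
        ∑ n ∈ (Ico u v).filter (fun n => ∀ i ∈ S, (n : ZMod (N i)) = x i), φ n ≤
          2 ^ S.card * a),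
    ∑ ξ ∈ univ.filter (fun ξ : ∀ i, ZMod (N i) => spt ξ ⊆ K ∧ (spt ξ).card ≤ D),
      (1 / (48 * m : ℝ)) ^ (spt ξ).card * ‖fco R ν u v φ ξ‖ ^ 2 ≤ 25 * a ^ 2 := by
  intro D
  induction D using Nat.strong_induction_on with
  | _ D ih =>
  intro K R hR hRc x₀ u v ν a huv hν φ hφ hφ1 hsup ha hden
  have ih' : ∀ D' < D, ALStat N Q m D' := fun D' hD' => ih D' hD'
  have ha0 : 0 < a := lt_of_lt_of_le (Real.exp_pos _) ha
  have hm0 : (1 : ℝ) ≤ m := by exact_mod_cast hm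
  have hν0 : 0 < ν := by
    refine lt_of_lt_of_le ?_ hν
    have h1 : (0 : ℝ) < R := by exact_mod_cast hR
    have h2 : (0 : ℝ) < Q := by exact_mod_cast (by omega : 0 < Q)
    positivity
  have hsum : R / ν * ∑ n ∈ Ico u v, φ n ≤ a := by
    have h := hden ∅ (Finset.empty_subset _) (by simp) (fun _ => 0)
    simpa using h
  set c : (∀ i, ZMod (N i)) → ℂ := fun ξ =>
    if spt ξ ⊆ K ∧ (spt ξ).card ≤ D then fco R ν u v φ ξ else 0 with hc
  have hc1 : ∀ ξ, spt ξ ⊆ K → (spt ξ).card ≤ D → c ξ = fco R ν u v φ ξ := by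
    intro ξ h1 h2
    simp only [hc]
    rw [if_pos ⟨h1, h2⟩]
  have hc0 : ∀ ξ, ¬ (spt ξ ⊆ K ∧ (spt ξ).card ≤ D) → c ξ = 0 := by
    intro ξ h
    simp only [hc]
    rw [if_neg h]
  have hcor : ∀ ξ, c ξ = 0 ∨ c ξ = fco R ν u v φ ξ := by
    intro ξ
    by_cases h : spt ξ ⊆ K ∧ (spt ξ).card ≤ D
    · exact Or.inr (hc1 ξ h.1 h.2)
    · exact Or.inl (hc0 ξ h)
  have hca : ∀ ξ, ‖c ξ‖ ≤ a := by
    intro ξ
    rcases hcor ξ with h | h
    · rw [h, norm_zero]; exact ha0.le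
    · rw [h]; exact (al_fco_norm R ν hν0 u v φ hφ ξ).trans hsum
  set Φ : ℝ := ∑ ξ : ∀ i, ZMod (N i), (1 / (48 * m : ℝ)) ^ (spt ξ).card * ‖c ξ‖ ^ 2 with hΦdef
  have hΦeq : ∑ ξ ∈ univ.filter (fun ξ : ∀ i, ZMod (N i) => spt ξ ⊆ K ∧ (spt ξ).card ≤ D),
      (1 / (48 * m : ℝ)) ^ (spt ξ).card * ‖fco R ν u v φ ξ‖ ^ 2 = Φ := by
    rw [hΦdef, Finset.sum_filter]
    refine Finset.sum_congr rfl fun ξ _ => ?_
    by_cases h : spt ξ ⊆ K ∧ (spt ξ).card ≤ D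
    · rw [if_pos h, hc1 ξ h.1 h.2]
    · rw [if_neg h, hc0 ξ h]; simp
  rw [hΦeq]
  by_contra hcon
  push Not at hcon
  have hΦ0 : 0 < Φ := lt_trans (by positivity) hcon
  -- inner bound
  have hin : ∀ (S : Finset ι) (x : ∀ i, ZMod (N i)),
      ∑ ξ' ∈ univ.filter (fun ξ' : ∀ i, ZMod (N i) => ∀ i ∈ S, ξ' i = 0),
          (1 / (256 * m : ℝ)) ^ (spt ξ').card *
            ‖∑ ξ ∈ univ.filter (fun ξ : ∀ i, ZMod (N i) => (∀ i ∈ S, ξ i ≠ 0) ∧
              ∀ i, i ∉ S → ξ i = ξ' i), c ξ * chiS S ξ x‖ ^ 2 ≤ Φ * 9 ^ S.card := by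
    intro S x
    by_cases hSe : S = ∅
    · subst hSe
      have h1 : ∀ ξ' : ∀ i, ZMod (N i), univ.filter (fun ξ : ∀ i, ZMod (N i) =>
          (∀ i ∈ (∅ : Finset ι), ξ i ≠ 0) ∧ ∀ i, i ∉ (∅ : Finset ι) → ξ i = ξ' i) = {ξ'} := by
        intro ξ'
        ext ξ
        simp [funext_iff]
      simp_rw [h1]
      rw [Finset.card_empty, pow_zero, mul_one]
      have h2 : univ.filter (fun ξ' : ∀ i, ZMod (N i) => ∀ i ∈ (∅ : Finset ι), ξ' i = 0) =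
          univ := by simp
      rw [h2]
      refine Finset.sum_le_sum fun ξ' _ => ?_
      rw [Finset.sum_singleton]
      have h3 : chiS ∅ ξ' x = 1 := by simp [chiS]
      rw [h3, mul_one]
      refine mul_le_mul_of_nonneg_right ?_ (by positivity)
      refine pow_le_pow_left₀ (by positivity) ?_ _
      refine one_div_le_one_div_of_le (by positivity) ?_
      nlinarith
    · by_cases hSK : S ⊆ K ∧ S.card ≤ D
      · have hS1 : 1 ≤ S.card := Finset.card_pos.mpr (Finset.nonempty_iff_ne_empty.mpr hSe)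
        have h := al_inner hcop Q hQ hNQ m hm D K R hR hRc x₀ u v ν a huv hν φ hφ hφ1 hsup ha
          hden S hSK.1 hSK.2 (ih' _ (by omega)) c hc1 hc0 x
        refine h.trans ?_
        exact mul_le_mul_of_nonneg_right hcon.le (by positivity)
      · have h1 : ∀ ξ' : ∀ i, ZMod (N i), ∑ ξ ∈ univ.filter (fun ξ : ∀ i, ZMod (N i) =>
            (∀ i ∈ S, ξ i ≠ 0) ∧ ∀ i, i ∉ S → ξ i = ξ' i), c ξ * chiS S ξ x = 0 := by
          intro ξ'
          refine Finset.sum_eq_zero fun ξ hξ => ?_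
          rw [mem_filter] at hξ
          have hSsub : S ⊆ spt ξ := by
            intro i hi
            simp [spt, hξ.2.1 i hi]
          rw [hc0 ξ, zero_mul]
          rintro ⟨h5, h6⟩
          exact hSK ⟨hSsub.trans h5, (Finset.card_le_card hSsub).trans h6⟩
        simp_rw [h1]
        simp only [norm_zero, ne_eq, OfNat.ofNat_ne_zero, not_false_eq_true, zero_pow, mul_zero,
          Finset.sum_const_zero]
        positivity
  have hE := al_energy m hm c Φ hΦ0.le hin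
  -- moment comparison
  have hmom := moment_compare hcop Q hQ hNQ hN2 hcard m D hm K R hR hRc x₀ u v ν a huv hν ha0
    (fun ξ => (((1 / (48 * m : ℝ)) ^ (spt ξ).card : ℝ) : ℂ) * c ξ)
    (by
      intro ξ
      rw [norm_mul, Complex.norm_real, Real.norm_eq_abs, abs_of_nonneg (by positivity)]
      refine (mul_le_mul_of_nonneg_right ?_ (norm_nonneg _)).trans
        (by rw [one_mul]; exact hca ξ)
      refine pow_le_one₀ (by positivity) ?_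
      rw [div_le_one (by positivity)]
      nlinarith)
    (by
      intro ξ hne
      by_contra h
      exact hne (by simp [hc0 ξ h]))
  have hGpos : (0 : ℝ) < (Fintype.card (∀ i, ZMod (N i)) : ℝ) := by
    exact_mod_cast Fintype.card_pos
  have hE2 : (∑ x : ∀ i, ZMod (N i), ‖∑ ξ, (((1 / (48 * m : ℝ)) ^ (spt ξ).card : ℝ) : ℂ) * c ξ *
      chi ξ x‖ ^ (2 * m)) / (Fintype.card (∀ i, ZMod (N i)) : ℝ) ≤ Φ ^ m := by
    rw [div_le_iff₀ hGpos]
    refine hE.trans (le_of_eq ?_)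
    rw [← hΦdef]
    have : Φ ^ m = Φ ^ (m - 1) * Φ := by
      rw [← pow_succ]; congr 1; omega
    rw [this]; ring
  have hhol := al_holder R ν hν0 x₀ u v φ hφ hφ1 (fun n hn => (hsup n hn).2.2) c hcor
    (1 / (48 * m : ℝ)) (by positivity) a hsum (2 * m) (by omega)
  rw [← hΦdef] at hhol
  refine al_final m hm a Φ ha hcon (hhol.trans ?_)
  refine mul_le_mul_of_nonneg_left ?_ (by positivity)
  refine hmom.trans ?_
  linarith

end Vale.Agent.P042.FS
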