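import Vale.Agent.P042.FS.Freq

namespace Vale.Agent.P042.FS

open Finset

theorem wm_norm_ee (x : ℝ) : ‖ee x‖ = 1 := by
  unfold ee
  rw [show (2 * Real.pi * Complex.I * (x : ℂ) : ℂ) = ((2 * Real.pi * x : ℝ) : ℂ) * Complex.I by
    push_cast; ring]
  exact Complex.norm_exp_ofReal_mul_I _

theorem wm_conj_ee (x : ℝ) : (starRingEnd ℂ) (ee x) = ee (-x) := by
  unfold ee
  rw [← Complex.exp_conj]
  congr 1
  simp only [map_mul, Complex.conj_I, Complex.conj_ofReal]
  rw [show (starRingEnd ℂ) 2 = 2 from Complex.conj_ofNat 2]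
  push_cast
  ring

theorem wm_ee_nat_mul (x : ℝ) (n : ℕ) : ee (x * n) = ee x ^ n := by
  unfold ee
  rw [← Complex.exp_nat_mul]
  congr 1
  push_cast
  ring

/-- orthogonality of the characters mod `M` -/
theorem wm_orth (M : ℕ) (hM : 1 ≤ M) (d : ℤ) :
    ∑ z ∈ range M, ee ((d : ℝ) / M * z) = if (M : ℤ) ∣ d then (M : ℂ) else 0 := by
  have hM0 : (M : ℝ) ≠ 0 := by positivity
  simp_rw [wm_ee_nat_mul]
  split_ifs with h
  · obtain ⟨e, he⟩ := h
    have h1 : ee ((d : ℝ) / M) = 1 := by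
      rw [he]
      push_cast
      rw [mul_div_cancel_left₀ _ hM0]
      exact fq_ee_int e
    rw [h1]
    simp
  · have h1 : ee ((d : ℝ) / M) ≠ 1 := by
      intro h1
      apply h
      unfold ee at h1
      rw [Complex.exp_eq_one_iff] at h1
      obtain ⟨n, hn⟩ := h1
      have h2 : (2 * Real.pi * Complex.I : ℂ) ≠ 0 := Complex.two_pi_I_ne_zero
      rw [mul_comm (n : ℂ)] at hn
      have h3 := mul_left_cancel₀ h2 hn
      have h4 : (d : ℝ) / M = n := by exact_mod_cast h3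
      rw [div_eq_iff hM0] at h4
      refine ⟨n, ?_⟩
      rw [mul_comm]
      exact_mod_cast h4
    have h2 : ee ((d : ℝ) / M) ^ M = 1 := by
      rw [← wm_ee_nat_mul, div_mul_cancel₀ _ hM0]
      exact fq_ee_int d
    rw [geom_sum_eq h1, h2, sub_self, zero_div]

/-- Parseval over the residue classes mod `M` -/
theorem wm_parseval (M : ℕ) (hM : 1 ≤ M) (W : Finset ℤ) (f : ℤ → ℂ) :
    ∑ z ∈ range M, ‖∑ x ∈ W, f x * ee (-((x : ℝ) * (z / M)))‖ ^ 2 =
      M * ∑ r ∈ range M, ‖∑ x ∈ W.filter (fun x => x ≡ r [ZMOD M]), f x‖ ^ 2 := by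
  have key : ((∑ z ∈ range M, ‖∑ x ∈ W, f x * ee (-((x : ℝ) * (z / M)))‖ ^ 2 : ℝ) : ℂ) =
      ((M * ∑ r ∈ range M, ‖∑ x ∈ W.filter (fun x => x ≡ r [ZMOD M]), f x‖ ^ 2 : ℝ) : ℂ) := by
    push_cast
    have h1 : ∀ z ∈ range M, ((‖∑ x ∈ W, f x * ee (-((x : ℝ) * (z / M)))‖ : ℝ) : ℂ) ^ 2 =
        ∑ x ∈ W, ∑ x' ∈ W, f x * (starRingEnd ℂ) (f x') * ee (((x' - x : ℤ) : ℝ) / M * z) := by
      intro z _
      rw [← Complex.mul_conj', map_sum, sum_mul_sum]
      apply sum_congr rfl
      intro x _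
      apply sum_congr rfl
      intro x' _
      rw [map_mul, wm_conj_ee, show ((x' - x : ℤ) : ℝ) / M * z =
        -((x : ℝ) * (z / M)) + - -((x' : ℝ) * (z / M)) by push_cast; ring, fq_ee_add]
      ring
    rw [sum_congr rfl h1, sum_comm]
    have h2 : ∀ x ∈ W, ∑ z ∈ range M, ∑ x' ∈ W, f x * (starRingEnd ℂ) (f x') *
        ee (((x' - x : ℤ) : ℝ) / M * z) = ∑ x' ∈ W, f x * (starRingEnd ℂ) (f x') *
        (if (M : ℤ) ∣ x' - x then (M : ℂ) else 0) := by
      intro x _
      rw [sum_comm]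
      apply sum_congr rfl
      intro x' _
      rw [← mul_sum, wm_orth M hM]
    rw [sum_congr rfl h2]
    have h3 : ∀ r ∈ range M, ((‖∑ x ∈ W.filter (fun x => x ≡ r [ZMOD M]), f x‖ : ℝ) : ℂ) ^ 2 =
        ∑ x ∈ W, ∑ x' ∈ W, f x * (starRingEnd ℂ) (f x') *
          ((if x ≡ r [ZMOD M] then 1 else 0) * (if x' ≡ r [ZMOD M] then 1 else 0)) := by
      intro r _
      rw [← Complex.mul_conj', sum_filter, map_sum, sum_mul_sum]
      apply sum_congr rfl
      intro x _
      apply sum_congr rfl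
      intro x' _
      split_ifs <;> simp
    rw [sum_congr rfl h3]
    have h10 : ∑ r ∈ range M, ∑ x ∈ W, ∑ x' ∈ W, f x * (starRingEnd ℂ) (f x') *
          ((if x ≡ r [ZMOD M] then 1 else 0) * (if x' ≡ r [ZMOD M] then 1 else 0)) =
        ∑ x ∈ W, ∑ x' ∈ W, f x * (starRingEnd ℂ) (f x') * ∑ r ∈ range M,
          (((if x ≡ r [ZMOD M] then 1 else 0 : ℂ)) * (if x' ≡ r [ZMOD M] then 1 else 0)) := by
      rw [sum_comm]
      apply sum_congr rfl
      intro x _
      rw [sum_comm]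
      apply sum_congr rfl
      intro x' _
      rw [← mul_sum]
    rw [h10, mul_sum]
    apply sum_congr rfl
    intro x _
    rw [mul_sum]
    apply sum_congr rfl
    intro x' _
    have h4 : ∑ r ∈ range M, (((if x ≡ r [ZMOD M] then 1 else 0 : ℂ)) *
        (if x' ≡ r [ZMOD M] then 1 else 0)) = if (M : ℤ) ∣ x' - x then 1 else 0 := by
      have hMpos : (0 : ℤ) < M := by exact_mod_cast hM
      have h5 : ∀ r ∈ range M, (((if x ≡ r [ZMOD M] then 1 else 0 : ℂ)) *
        (if x' ≡ r [ZMOD M] then 1 else 0)) = if r = (x % M).toNat then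
          (if (M : ℤ) ∣ x' - x then 1 else 0) else 0 := by
        intro r hr
        rw [mem_range] at hr
        have hrM : ((r : ℤ)) % M = r := Int.emod_eq_of_lt (by positivity) (by exact_mod_cast hr)
        have h6 : x ≡ r [ZMOD M] ↔ r = (x % M).toNat := by
          unfold Int.ModEq
          rw [hrM]
          have := Int.emod_nonneg x hMpos.ne'
          omega
        by_cases h7 : x ≡ r [ZMOD M]
        · rw [if_pos h7, if_pos (h6.1 h7), one_mul]
          have h8 : x' ≡ r [ZMOD M] ↔ (M : ℤ) ∣ x' - x := by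
            rw [← Int.modEq_iff_dvd]
            constructor
            · intro h; exact h7.trans h.symm
            · intro h; exact h.symm.trans h7
          by_cases h9 : x' ≡ r [ZMOD M]
          · rw [if_pos h9, if_pos (h8.1 h9)]
          · rw [if_neg h9, if_neg (fun h => h9 (h8.2 h))]
        · rw [if_neg h7, if_neg (fun h => h7 (h6.2 h)), zero_mul]
      rw [sum_congr rfl h5, sum_ite_eq', if_pos]
      rw [mem_range]
      have := Int.emod_nonneg x hMpos.ne'
      have := Int.emod_lt_of_pos x hMpos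
      omega
    rw [h4]
    split_ifs <;> ring
  exact_mod_cast key

end Vale.Agent.P042.FS
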