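import Vale.Agent.P042.FS.Defs
import Vale.Agent.P042.FS.WinPars

namespace Vale.Agent.P042.FS

open Finset

/-- Parseval on `Z/P` for functions supported on an interval of length at most `P` -/
theorem parseval_int (g : ℤ → ℂ) (u : ℤ) (P : ℕ) (hP : 1 ≤ P) :
    ∑ r ∈ range P, ‖∑ x ∈ Ico u (u + P), g x * ee (-(x * (r / P : ℝ)))‖ ^ 2 =
      P * ∑ x ∈ Ico u (u + P), ‖g x‖ ^ 2 := by
  rw [wm_parseval P hP (Ico u (u + P)) g]
  congr 1
  have hPpos : (0 : ℤ) < P := by exact_mod_cast hP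
  have hmaps : ∀ x ∈ Ico u (u + (P : ℤ)), (x % P).toNat ∈ range P := by
    intro x _
    rw [mem_range]
    have := Int.emod_nonneg x hPpos.ne'
    have := Int.emod_lt_of_pos x hPpos
    omega
  rw [← sum_fiberwise_of_maps_to hmaps]
  refine sum_congr rfl fun r hr => ?_
  rw [mem_range] at hr
  have hfil : (Ico u (u + (P : ℤ))).filter (fun x : ℤ => (x % (P : ℤ)).toNat = r) =
      (Ico u (u + (P : ℤ))).filter (fun x => x ≡ (r : ℤ) [ZMOD (P : ℤ)]) := by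
    apply filter_congr
    intro x _
    have hrM : ((r : ℤ)) % P = r := Int.emod_eq_of_lt (by positivity) (by exact_mod_cast hr)
    unfold Int.ModEq
    rw [hrM]
    have := Int.emod_nonneg x hPpos.ne'
    omega
  rw [hfil]
  have hcard : ((Ico u (u + (P : ℤ))).filter (fun x => x ≡ r [ZMOD P])).card ≤ 1 := by
    rw [card_le_one]
    intro a ha b hb
    rw [mem_filter, mem_Ico] at ha hb
    have h1 : a ≡ b [ZMOD P] := ha.2.trans hb.2.symm
    rw [Int.modEq_iff_dvd] at h1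
    obtain ⟨t, ht⟩ := h1
    have h2 : t = 0 := by
      by_contra h3
      rcases lt_or_gt_of_ne h3 with h4 | h4
      · nlinarith
      · nlinarith
    rw [h2, mul_zero] at ht
    omega
  rcases Nat.le_one_iff_eq_zero_or_eq_one.mp hcard with h | h
  · rw [card_eq_zero] at h
    rw [h]
    simp
  · rw [card_eq_one] at h
    obtain ⟨a, ha⟩ := h
    rw [ha]
    simp

/-- lower bound for the Dirichlet kernel near integers -/
theorem ci_kernel (H : ℕ) (hH : 1 ≤ H) (β : ℝ) (b : ℤ) (hb : |β - b| ≤ 1 / (8 * H)) :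
    (H : ℝ) / 2 ≤ ‖∑ j ∈ range H, ee (j * β)‖ := by
  have hHR : (1 : ℝ) ≤ H := by exact_mod_cast hH
  have h1 : ∀ j ∈ range H, (1 : ℝ) / 2 ≤ (ee (j * β)).re := by
    intro j hj
    rw [mem_range] at hj
    have e1 : ee (j * β) = ee (j * (β - b)) := by
      have : (j : ℝ) * β = j * (β - b) + ((j * b : ℤ) : ℝ) := by push_cast; ring
      rw [this, fq_ee_add, fq_ee_int, mul_one]
    have e2 : (ee (j * (β - b))).re = Real.cos (2 * Real.pi * (j * (β - b))) := by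
      unfold ee
      rw [show (2 * Real.pi * Complex.I * ((j * (β - b) : ℝ) : ℂ) : ℂ) =
        ((2 * Real.pi * (j * (β - b)) : ℝ) : ℂ) * Complex.I by push_cast; ring]
      exact Complex.exp_ofReal_mul_I_re _
    rw [e1, e2, ← Real.cos_abs]
    have h2 : |2 * Real.pi * (j * (β - b))| ≤ Real.pi / 3 := by
      rw [abs_mul, abs_mul (j : ℝ), abs_of_pos (by positivity : (0 : ℝ) < 2 * Real.pi), Nat.abs_cast]
      have h3 : (j : ℝ) * |β - b| ≤ H * (1 / (8 * H)) := by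
        refine mul_le_mul ?_ hb (abs_nonneg _) (by positivity)
        exact_mod_cast hj.le
      have h4 : (H : ℝ) * (1 / (8 * H)) = 1 / 8 := by field_simp
      rw [h4] at h3
      nlinarith [Real.pi_pos]
    rw [← Real.cos_pi_div_three]
    refine Real.cos_le_cos_of_nonneg_of_le_pi (abs_nonneg _) ?_ h2
    linarith [Real.pi_pos]
  calc (H : ℝ) / 2 = ∑ j ∈ range H, (1 : ℝ) / 2 := by rw [sum_const, card_range, nsmul_eq_mul]; ring
    _ ≤ ∑ j ∈ range H, (ee (j * β)).re := sum_le_sum h1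
    _ = (∑ j ∈ range H, ee (j * β)).re := by rw [Complex.re_sum]
    _ ≤ ‖∑ j ∈ range H, ee (j * β)‖ := Complex.re_le_norm _

open Classical in
/-- energy near a frequency is bounded by window sums -/
theorem window_duality (f : ℤ → ℝ) (N H P : ℕ) (hH : 1 ≤ H) (hP : N + H ≤ P)
    (hf : ∀ x, f x ≠ 0 → 0 ≤ x ∧ x < N) (θ : ℝ) :
    (∑ r ∈ (range P).filter (fun r : ℕ => ∃ b : ℤ, |(r / P : ℝ) - θ - b| ≤ 1 / (8 * H)),
      ‖∑ x ∈ Ico (0 : ℤ) N, (f x : ℂ) * ee (-(x * (r / P : ℝ)))‖ ^ 2) / P ≤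
    4 / (H : ℝ) ^ 2 * ∑ y ∈ Ico (-(H : ℤ)) N,
      ‖∑ x ∈ Ico y (y + H), (f x : ℂ) * ee (-(x * θ))‖ ^ 2 := by
  have hP1 : 1 ≤ P := by omega
  have hPR : (0 : ℝ) < P := by exact_mod_cast hP1
  have hHR : (1 : ℝ) ≤ H := by exact_mod_cast hH
  set w : ℤ → ℂ := fun y => ∑ x ∈ Ico y (y + H), (f x : ℂ) * ee (-(x * θ)) with hw
  set g : ℤ → ℂ := fun y => if y < N then w y * ee (y * θ) else 0 with hg
  have hpars := parseval_int g (-(H : ℤ)) P hP1
  have hsubset : Ico (-(H : ℤ)) N ⊆ Ico (-(H : ℤ)) (-(H : ℤ) + P) := by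
    intro x hx
    rw [mem_Ico] at hx ⊢
    omega
  have hR : ∑ x ∈ Ico (-(H : ℤ)) (-(H : ℤ) + P), ‖g x‖ ^ 2 = ∑ y ∈ Ico (-(H : ℤ)) N, ‖w y‖ ^ 2 := by
    rw [← sum_subset hsubset]
    · refine sum_congr rfl fun y hy => ?_
      rw [mem_Ico] at hy
      simp only [hg]
      rw [if_pos hy.2, norm_mul, wm_norm_ee, mul_one]
    · intro y hy hy2
      rw [mem_Ico] at hy hy2
      simp only [hg]
      rw [if_neg (by omega)]
      simp
  -- transform of `w`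
  have htr : ∀ r : ℕ, ∑ x ∈ Ico (-(H : ℤ)) (-(H : ℤ) + P), g x * ee (-(x * (r / P : ℝ))) =
      (∑ x ∈ Ico (0 : ℤ) N, (f x : ℂ) * ee (-(x * (r / P : ℝ)))) *
        ∑ j ∈ range H, ee (j * ((r / P : ℝ) - θ)) := by
    intro r
    have h1 : ∑ x ∈ Ico (-(H : ℤ)) (-(H : ℤ) + P), g x * ee (-(x * (r / P : ℝ))) =
        ∑ y ∈ Ico (-(H : ℤ)) N, w y * ee (y * θ) * ee (-(y * (r / P : ℝ))) := by
      rw [← sum_subset hsubset]
      · refine sum_congr rfl fun y hy => ?_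
        rw [mem_Ico] at hy
        simp only [hg]
        rw [if_pos hy.2]
      · intro y hy hy2
        rw [mem_Ico] at hy hy2
        simp only [hg]
        rw [if_neg (by omega)]
        simp
    rw [h1]
    have h2 : ∀ y ∈ Ico (-(H : ℤ)) N, w y * ee (y * θ) * ee (-(y * (r / P : ℝ))) =
        ∑ j ∈ range H, (f (y + j) : ℂ) * ee (-(((y + j : ℤ) : ℝ) * (r / P : ℝ))) *
          ee (j * ((r / P : ℝ) - θ)) := by
      intro y _
      simp only [hw]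
      have h3 : ∑ x ∈ Ico y (y + (H : ℤ)), (f x : ℂ) * ee (-(x * θ)) =
          ∑ j ∈ range H, (f (y + j) : ℂ) * ee (-(((y + j : ℤ) : ℝ) * θ)) := by
        refine (sum_nbij' (fun j : ℕ => y + (j : ℤ)) (fun x : ℤ => (x - y).toNat) ?_ ?_ ?_ ?_ ?_).symm
        · intro j hj
          rw [mem_range] at hj
          rw [mem_Ico]
          omega
        · intro x hx
          rw [mem_Ico] at hx
          rw [mem_range]
          omega
        · intro j _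
          omega
        · intro x hx
          rw [mem_Ico] at hx
          omega
        · intro j _
          rfl
      rw [h3, sum_mul, sum_mul]
      refine sum_congr rfl fun j _ => ?_
      rw [mul_assoc, mul_assoc, mul_assoc, ← fq_ee_add, ← fq_ee_add, ← fq_ee_add]
      congr 2
      push_cast
      ring
    rw [sum_congr rfl h2, sum_comm, mul_comm, sum_mul]
    refine sum_congr rfl fun j hj => ?_
    rw [mem_range] at hj
    rw [← sum_mul, mul_comm]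
    congr 1
    -- shift the sum
    have h4 : ∑ y ∈ Ico (-(H : ℤ)) N, (f (y + j) : ℂ) * ee (-(((y + j : ℤ) : ℝ) * (r / P : ℝ))) =
        ∑ x ∈ Ico (-(H : ℤ) + j) (N + j), (f x : ℂ) * ee (-((x : ℝ) * (r / P : ℝ))) := by
      refine sum_nbij' (fun y : ℤ => y + (j : ℤ)) (fun x : ℤ => x - j) ?_ ?_ ?_ ?_ ?_
      · intro y hy
        rw [mem_Ico] at hy ⊢
        omega
      · intro x hx
        rw [mem_Ico] at hx ⊢
        omega
      · intro y _
        omega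
      · intro x _
        omega
      · intro y _
        rfl
    rw [h4]
    refine (sum_subset ?_ ?_).symm
    · intro x hx
      rw [mem_Ico] at hx ⊢
      omega
    · intro x _ hx2
      rw [mem_Ico] at hx2
      have : f x = 0 := by
        by_contra hne
        exact hx2 (hf x hne)
      rw [this]
      simp
  rw [hR] at hpars
  have hkey : ∀ r ∈ (range P).filter (fun r : ℕ => ∃ b : ℤ, |(r / P : ℝ) - θ - b| ≤ 1 / (8 * H)),
      ‖∑ x ∈ Ico (0 : ℤ) N, (f x : ℂ) * ee (-(x * (r / P : ℝ)))‖ ^ 2 ≤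
      4 / (H : ℝ) ^ 2 * ‖∑ x ∈ Ico (-(H : ℤ)) (-(H : ℤ) + P), g x * ee (-(x * (r / P : ℝ)))‖ ^ 2 := by
    intro r hr
    obtain ⟨b, hb⟩ := (mem_filter.mp hr).2
    have h1 := ci_kernel H hH _ b hb
    rw [htr r, norm_mul, mul_pow]
    set F := ‖∑ x ∈ Ico (0 : ℤ) N, (f x : ℂ) * ee (-(x * (r / P : ℝ)))‖
    set D := ‖∑ j ∈ range H, ee (j * ((r / P : ℝ) - θ))‖
    have h2 : ((H : ℝ) / 2) ^ 2 ≤ D ^ 2 := pow_le_pow_left₀ (by positivity) h1 2
    have h3 : 1 ≤ 4 / (H : ℝ) ^ 2 * D ^ 2 := by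
      rw [div_mul_eq_mul_div, le_div_iff₀ (by positivity)]
      nlinarith
    calc F ^ 2 = F ^ 2 * 1 := (mul_one _).symm
      _ ≤ F ^ 2 * (4 / (H : ℝ) ^ 2 * D ^ 2) := mul_le_mul_of_nonneg_left h3 (by positivity)
      _ = _ := by ring
  rw [div_le_iff₀ hPR]
  calc _ ≤ ∑ r ∈ (range P).filter (fun r : ℕ => ∃ b : ℤ, |(r / P : ℝ) - θ - b| ≤ 1 / (8 * H)),
        4 / (H : ℝ) ^ 2 *
          ‖∑ x ∈ Ico (-(H : ℤ)) (-(H : ℤ) + P), g x * ee (-(x * (r / P : ℝ)))‖ ^ 2 :=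
        sum_le_sum hkey
    _ ≤ ∑ r ∈ range P, 4 / (H : ℝ) ^ 2 *
          ‖∑ x ∈ Ico (-(H : ℤ)) (-(H : ℤ) + P), g x * ee (-(x * (r / P : ℝ)))‖ ^ 2 :=
        sum_le_sum_of_subset_of_nonneg (filter_subset _ _) fun _ _ _ => by positivity
    _ = 4 / (H : ℝ) ^ 2 * (P * ∑ y ∈ Ico (-(H : ℤ)) N, ‖w y‖ ^ 2) := by
        rw [← mul_sum, hpars]
    _ = _ := by ring

/-! Correlation lemmas (helper40). -/

namespace CE

theorem ee_add (x y : ℝ) : ee (x + y) = ee x * ee y := by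
  unfold ee
  rw [← Complex.exp_add]
  congr 1
  push_cast
  ring

theorem ee_zero : ee 0 = 1 := by simp [ee]

theorem ee_int (k : ℤ) : ee k = 1 := by
  unfold ee
  rw [Complex.exp_eq_one_iff]
  exact ⟨k, by push_cast; ring⟩

theorem ee_pow (x : ℝ) (n : ℕ) : ee x ^ n = ee (n * x) := by
  unfold ee
  rw [← Complex.exp_nat_mul]
  congr 1
  push_cast
  ring

theorem conj_ee (x : ℝ) : (starRingEnd ℂ) (ee x) = ee (-x) := by
  unfold ee
  rw [← Complex.exp_conj]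
  congr 1
  have h2 : (starRingEnd ℂ) 2 = 2 := map_ofNat _ 2
  simp [h2]

theorem ee_eq_one {x : ℝ} (h : ee x = 1) : ∃ k : ℤ, x = k := by
  unfold ee at h
  rw [Complex.exp_eq_one_iff] at h
  obtain ⟨k, hk⟩ := h
  refine ⟨k, ?_⟩
  have h2 : (2 * Real.pi * Complex.I : ℂ) ≠ 0 := Complex.two_pi_I_ne_zero
  have h3 : (2 * Real.pi * Complex.I : ℂ) * x = (2 * Real.pi * Complex.I : ℂ) * k := by
    rw [hk]
    ring
  have h4 := mul_left_cancel₀ h2 h3
  exact_mod_cast h4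

theorem orth (P : ℕ) (hP : 1 ≤ P) (k : ℤ) (hk : |k| < P) :
    ∑ r ∈ range P, ee (k * (r / P : ℝ)) = if k = 0 then (P : ℂ) else 0 := by
  have hP0 : (P : ℝ) ≠ 0 := by
    have : (0 : ℝ) < P := by exact_mod_cast hP
    exact this.ne'
  split_ifs with h
  · subst h
    simp [ee_zero]
  · set z := ee (k / P) with hz
    have h1 : ∀ r : ℕ, ee (k * (r / P : ℝ)) = z ^ r := by
      intro r
      rw [hz, ee_pow]
      congr 1
      ring
    have h2 : z ^ P = 1 := by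
      rw [hz, ee_pow]
      have : (P : ℝ) * (k / P) = k := by field_simp
      rw [this, ee_int]
    have h3 : z ≠ 1 := by
      intro h4
      obtain ⟨b, hb⟩ := ee_eq_one h4
      have h5 : (k : ℝ) = b * P := by
        rw [← hb]
        field_simp
      have h6 : k = b * P := by exact_mod_cast h5
      have h7 : b ≠ 0 := by
        rintro rfl
        exact h (by simpa using h6)
      rw [h6, abs_mul, Nat.abs_cast] at hk
      have h8 : (1 : ℤ) ≤ |b| := Int.one_le_abs h7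
      have h9 : (0 : ℤ) ≤ P := by positivity
      nlinarith
    rw [Finset.sum_congr rfl fun r _ => h1 r, geom_sum_eq h3, h2]
    simp

theorem corr (f : ℤ → ℝ) (N P : ℕ) (hP : 1 ≤ P) (h : ℤ)
    (hh : ∀ x ∈ Ico (0 : ℤ) N, ∀ y ∈ Ico (0 : ℤ) N, |h + y - x| < P) :
    ∑ r ∈ range P, ((‖∑ x ∈ Ico (0 : ℤ) N, (f x : ℂ) * ee (-(x * (r / P : ℝ)))‖ ^ 2 : ℝ) : ℂ) *
      ee ((r / P : ℝ) * h) =
    P * ((∑ x ∈ Ico (0 : ℤ) N, ∑ y ∈ Ico (0 : ℤ) N, if h + y - x = 0 then f x * f y else 0 : ℝ) : ℂ) := by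
  have h1 : ∀ r : ℕ, ((‖∑ x ∈ Ico (0 : ℤ) N, (f x : ℂ) * ee (-(x * (r / P : ℝ)))‖ ^ 2 : ℝ) : ℂ) *
      ee ((r / P : ℝ) * h) = ∑ x ∈ Ico (0 : ℤ) N, ∑ y ∈ Ico (0 : ℤ) N,
        (f x : ℂ) * (f y : ℂ) * ee ((h + y - x : ℤ) * (r / P : ℝ)) := by
    intro r
    have e1 : ((‖∑ x ∈ Ico (0 : ℤ) N, (f x : ℂ) * ee (-(x * (r / P : ℝ)))‖ ^ 2 : ℝ) : ℂ) =
        (∑ x ∈ Ico (0 : ℤ) N, (f x : ℂ) * ee (-(x * (r / P : ℝ)))) *
        (starRingEnd ℂ) (∑ x ∈ Ico (0 : ℤ) N, (f x : ℂ) * ee (-(x * (r / P : ℝ)))) := by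
      rw [Complex.mul_conj, Complex.normSq_eq_norm_sq]
    rw [e1, map_sum, Finset.sum_mul_sum, Finset.sum_mul]
    refine Finset.sum_congr rfl fun x _ => ?_
    rw [Finset.sum_mul]
    refine Finset.sum_congr rfl fun y _ => ?_
    rw [map_mul, conj_ee, Complex.conj_ofReal]
    have e2 : ee ((h + y - x : ℤ) * (r / P : ℝ)) =
        ee (-(x * (r / P : ℝ))) * ee (- -(y * (r / P : ℝ))) * ee ((r / P : ℝ) * h) := by
      rw [← ee_add, ← ee_add]
      congr 1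
      push_cast
      ring
    rw [e2]
    ring
  rw [Finset.sum_congr rfl fun r _ => h1 r, Finset.sum_comm]
  push_cast
  rw [Finset.mul_sum]
  refine Finset.sum_congr rfl fun x hx => ?_
  rw [Finset.sum_comm, Finset.mul_sum]
  refine Finset.sum_congr rfl fun y hy => ?_
  rw [← Finset.mul_sum]
  have e3 := orth P hP (h + y - x) (hh x hx y hy)
  push_cast at e3
  rw [e3]
  have e4 : ((h + y - x : ℤ) = 0) ↔ (h + y - x = 0) := Iff.rfl
  split_ifs <;> simp <;> ring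

theorem cor_eq (f : ℤ → ℝ) (N : ℕ) (h : ℤ) (hf : ∀ x, f x ≠ 0 → 0 ≤ x ∧ x < N) :
    (∑ x ∈ Ico (0 : ℤ) N, ∑ y ∈ Ico (0 : ℤ) N, if h + y - x = 0 then f x * f y else 0) =
      ∑ y ∈ Ico (0 : ℤ) N, f y * f (y + h) := by
  rw [Finset.sum_comm]
  refine Finset.sum_congr rfl fun y _ => ?_
  have h1 : ∀ x : ℤ, (if h + y - x = 0 then f x * f y else 0) =
      if x = y + h then f y * f (y + h) else 0 := by
    intro x
    by_cases hx : x = y + h
    · subst hx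
      rw [if_pos (by ring), if_pos rfl, mul_comm]
    · rw [if_neg (fun h2 => hx (by linarith)), if_neg hx]
  rw [Finset.sum_congr rfl fun x _ => h1 x, Finset.sum_ite_eq']
  split_ifs with h2
  · rfl
  · have h3 : f (y + h) = 0 := by
      by_contra h4
      exact h2 (Finset.mem_Ico.2 (hf _ h4))
    rw [h3, mul_zero]

theorem cor_le (A : Finset ℤ) (N : ℕ) (α : ℝ) (hN : 1 ≤ N)
    (hA : ∀ x ∈ A, 0 ≤ x ∧ x < N) (hα : (A.card : ℝ) = α * N) (hα0 : 0 < α)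
    (h : ℤ) (hh : 0 < h ∧ 4 * h ≤ N) (hav : ∀ x ∈ A, x + h ∉ A)
    (hedge1 : ((A.filter (fun x => x < h)).card : ℝ) ≤ 2 * α * h)
    (hedge2 : ((A.filter (fun x => (N : ℤ) - h ≤ x)).card : ℝ) ≤ 2 * α * h) :
    ∑ y ∈ Ico (0 : ℤ) N, balf A α N y * balf A α N (y + h) ≤ -(α ^ 2 * N / 4) := by
  have hsub : A ⊆ Ico (0 : ℤ) N := fun x hx => Finset.mem_Ico.2 (hA x hx)
  have e0 : ∀ y ∈ Ico (0 : ℤ) N, balf A α N y * balf A α N (y + h) =
      - α * (if y ∈ A ∧ y + h < N then (1 : ℝ) else 0) -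
      α * (if y + h ∈ A then (1 : ℝ) else 0) + α ^ 2 * (if y + h < N then (1 : ℝ) else 0) := by
    intro y hy
    rw [Finset.mem_Ico] at hy
    unfold balf
    have h1 : (0 ≤ y + h ∧ y + h < N) ↔ y + h < N := ⟨fun h => h.2, fun h' => ⟨by omega, h'⟩⟩
    simp only [h1, hy, and_self, if_true]
    by_cases a1 : y ∈ A
    · have a2 := hav y a1
      by_cases a3 : y + h < N <;> simp [a1, a2, a3] <;> ring
    · by_cases a2 : y + h ∈ A
      · have a3 : y + h < N := (hA _ a2).2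
        simp [a1, a2, a3]
        ring
      · by_cases a3 : y + h < N <;> simp [a1, a2, a3] <;> ring
  rw [Finset.sum_congr rfl e0, Finset.sum_add_distrib, Finset.sum_sub_distrib, ← Finset.mul_sum,
    ← Finset.mul_sum, ← Finset.mul_sum]
  have s1 : (A.card : ℝ) - 2 * α * h ≤
      ∑ y ∈ Ico (0 : ℤ) N, (if y ∈ A ∧ y + h < N then (1 : ℝ) else 0) := by
    rw [Finset.sum_boole]
    have e1 : (Ico (0 : ℤ) N).filter (fun y => y ∈ A ∧ y + h < N) =
        A.filter (fun x => ¬ ((N : ℤ) - h ≤ x)) := by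
      ext y
      simp only [Finset.mem_filter]
      constructor
      · rintro ⟨_, h2, h3⟩
        exact ⟨h2, by omega⟩
      · rintro ⟨h2, h3⟩
        exact ⟨hsub h2, h2, by omega⟩
    rw [e1]
    have e2 := Finset.card_filter_add_card_filter_not (s := A) (fun x => (N : ℤ) - h ≤ x)
    have e3 : ((A.filter (fun x => (N : ℤ) - h ≤ x)).card : ℝ) +
        ((A.filter (fun x => ¬ ((N : ℤ) - h ≤ x))).card : ℝ) = A.card := by exact_mod_cast e2
    linarith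
  have s2 : (A.card : ℝ) - 2 * α * h ≤
      ∑ y ∈ Ico (0 : ℤ) N, (if y + h ∈ A then (1 : ℝ) else 0) := by
    rw [Finset.sum_boole]
    have e1 : (A.filter (fun x => ¬ (x < h))).card ≤
        ((Ico (0 : ℤ) N).filter (fun y => y + h ∈ A)).card := by
      refine Finset.card_le_card_of_injOn (fun x => x - h) ?_ ?_
      · intro x hx
        have hx' := Finset.mem_filter.1 (Finset.mem_coe.1 hx)
        have h2 := hA x hx'.1
        simp only [Finset.coe_filter, Finset.mem_Ico, Set.mem_ofPred_eq, sub_add_cancel]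
        exact ⟨⟨by omega, by omega⟩, hx'.1⟩
      · intro x _ y _ hxy
        simp only at hxy
        omega
    have e2 := Finset.card_filter_add_card_filter_not (s := A) (fun x => x < h)
    have e3 : ((A.filter (fun x => x < h)).card : ℝ) +
        ((A.filter (fun x => ¬ (x < h))).card : ℝ) = A.card := by exact_mod_cast e2
    have e4 : ((A.filter (fun x => ¬ (x < h))).card : ℝ) ≤
        (((Ico (0 : ℤ) N).filter (fun y => y + h ∈ A)).card : ℝ) := by exact_mod_cast e1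
    linarith
  have s3 : ∑ y ∈ Ico (0 : ℤ) N, (if y + h < N then (1 : ℝ) else 0) = N - h := by
    rw [Finset.sum_boole]
    have e1 : (Ico (0 : ℤ) N).filter (fun y => y + h < N) = Ico (0 : ℤ) (N - h) := by
      ext y
      simp only [Finset.mem_filter, Finset.mem_Ico]
      omega
    rw [e1, Int.card_Ico]
    have e2 : (((N : ℤ) - h - 0).toNat : ℤ) = N - h := by
      rw [Int.toNat_of_nonneg (by omega)]
      ring
    have e3 : ((((N : ℤ) - h - 0).toNat : ℤ) : ℝ) = ((N - h : ℤ) : ℝ) := by rw [e2]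
    push_cast at e3
    exact_mod_cast e3
  rw [s3]
  rw [hα] at s1 s2
  have h4 : (4 : ℝ) * h ≤ N := by exact_mod_cast hh.2
  have h5 : (0 : ℝ) < h := by exact_mod_cast hh.1
  have m1 := mul_le_mul_of_nonneg_left s1 hα0.le
  have m2 := mul_le_mul_of_nonneg_left s2 hα0.le
  have m3 := mul_le_mul_of_nonneg_left h4 (by positivity : (0 : ℝ) ≤ α ^ 2)
  nlinarith

theorem sq_sum_le (A : Finset ℤ) (N : ℕ) (α : ℝ) (hN : 1 ≤ N)
    (hA : ∀ x ∈ A, 0 ≤ x ∧ x < N) (hα : (A.card : ℝ) = α * N) (hα0 : 0 < α) :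
    ∑ y ∈ Ico (0 : ℤ) N, balf A α N y * balf A α N y ≤ α * N := by
  have hsub : A ⊆ Ico (0 : ℤ) N := fun x hx => Finset.mem_Ico.2 (hA x hx)
  have e0 : ∀ y ∈ Ico (0 : ℤ) N, balf A α N y * balf A α N y =
      (1 - 2 * α) * (if y ∈ A then (1 : ℝ) else 0) + α ^ 2 := by
    intro y hy
    rw [Finset.mem_Ico] at hy
    unfold balf
    simp only [hy, and_self, if_true]
    by_cases a1 : y ∈ A <;> simp [a1] <;> ring
  rw [Finset.sum_congr rfl e0, Finset.sum_add_distrib, ← Finset.mul_sum, Finset.sum_boole,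
    Finset.filter_mem_eq_inter, Finset.inter_eq_right.2 hsub, hα, Finset.sum_const, Int.card_Ico,
    nsmul_eq_mul]
  simp only [sub_zero, Int.toNat_natCast]
  have hc : (0 : ℝ) ≤ α ^ 2 * N := by positivity
  nlinarith

end CE

/-- reduction of a fraction modulo one -/
theorem ce_farey (b : ℤ) (q Q : ℕ) (hq1 : 1 ≤ q) (hq2 : q ≤ Q) :
    ∃ θ₀ ∈ farey Q, ∃ c : ℤ, (b : ℝ) / q = (θ₀ : ℝ) + (c : ℝ) := by
  have hqz : (0 : ℤ) < q := by exact_mod_cast hq1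
  have hqR : (0 : ℝ) < q := by exact_mod_cast hq1
  have hmod0 := Int.emod_nonneg b hqz.ne'
  have hmod1 := Int.emod_lt_of_pos b hqz
  refine ⟨(((b % q).toNat : ℕ) : ℚ) / q, ?_, b / q, ?_⟩
  · rw [farey, mem_biUnion]
    refine ⟨q, mem_Icc.mpr ⟨hq1, hq2⟩, ?_⟩
    rw [mem_image]
    exact ⟨(b % q).toNat, mem_range.mpr (by omega), rfl⟩
  · have e1 : (((b % q).toNat : ℕ) : ℝ) = ((b % q : ℤ) : ℝ) := by
      have : (((b % q).toNat : ℕ) : ℤ) = b % q := Int.toNat_of_nonneg hmod0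
      exact_mod_cast this
    have e2 : (b : ℝ) = q * ((b / q : ℤ) : ℝ) + ((b % q : ℤ) : ℝ) := by
      have := Int.mul_ediv_add_emod b q
      exact_mod_cast this.symm
    rw [Rat.cast_div, Rat.cast_natCast, Rat.cast_natCast, e1]
    generalize ((b % q : ℤ) : ℝ) = u at e2 ⊢
    generalize ((b / q : ℤ) : ℝ) = v at e2 ⊢
    rw [e2]
    field_simp
    ring

open Classical in
theorem ce_pick (I : ℕ) (α tc sr ar x : ℝ) (htc : 0 < tc) (hα0 : 0 < α) (har : 0 ≤ ar)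
    (hsT : sr ≤ tc)
    (hI : (1 / 2 : ℝ) ^ (I + 1) ≤ α / 16) (Qf Hf : ℕ → ℕ)
    (hcov : ∀ i ≤ I, (1 / 2 : ℝ) ^ (i + 1) * tc ≤ sr →
      ∃ (q : ℕ) (a : ℤ), 1 ≤ q ∧ q ≤ Qf i ∧ |x - a / q| ≤ 1 / (8 * (Hf i : ℝ))) :
    ar * sr ≤ ar * (α / 16 * tc) +
      ∑ i ∈ range (I + 1), ∑ θ ∈ farey (Qf i),
        (if ∃ b : ℤ, |x - (θ : ℝ) - b| ≤ 1 / (8 * (Hf i : ℝ)) then
        ar * ((1 / 2 : ℝ) ^ i * tc) else 0) := by
  have hnn : ∀ i : ℕ, ∀ θ ∈ farey (Qf i),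
      0 ≤ (if ∃ b : ℤ, |x - (θ : ℝ) - b| ≤ 1 / (8 * (Hf i : ℝ)) then
      ar * ((1 / 2 : ℝ) ^ i * tc) else 0) := by
    intro i θ _
    split_ifs
    · exact mul_nonneg har (by positivity)
    · exact le_rfl
  have hnn2 : ∀ i ∈ range (I + 1), 0 ≤ ∑ θ ∈ farey (Qf i),
      (if ∃ b : ℤ, |x - (θ : ℝ) - b| ≤ 1 / (8 * (Hf i : ℝ)) then
      ar * ((1 / 2 : ℝ) ^ i * tc) else 0) := fun i _ => Finset.sum_nonneg (hnn i)
  by_cases hsm : (1 / 2 : ℝ) ^ (I + 1) * tc ≤ sr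
  · have hex : ∃ i, (1 / 2 : ℝ) ^ (i + 1) * tc ≤ sr := ⟨I, hsm⟩
    obtain ⟨i, hiI, hi1, hi2⟩ : ∃ i ≤ I, (1 / 2 : ℝ) ^ (i + 1) * tc ≤ sr ∧
        sr ≤ (1 / 2 : ℝ) ^ i * tc := by
      refine ⟨Nat.find hex, Nat.find_min' hex hsm, Nat.find_spec hex, ?_⟩
      rcases Nat.eq_zero_or_pos (Nat.find hex) with h0 | h0
      · rw [h0, pow_zero, one_mul]
        exact hsT
      · have := Nat.find_min hex (m := Nat.find hex - 1) (by omega)
        rw [Nat.sub_add_cancel h0] at this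
        exact (not_le.mp this).le
    obtain ⟨q, b, hq1, hq2, hb⟩ := hcov i hiI hi1
    obtain ⟨θ₀, hmem, cc, hval⟩ := ce_farey b q (Qf i) hq1 hq2
    have h1 := Finset.single_le_sum (hnn i) hmem
    rw [if_pos ⟨cc, by rw [sub_sub, ← hval]; exact hb⟩] at h1
    have h2 := Finset.single_le_sum hnn2 (mem_range.mpr (by omega : i < I + 1))
    have h3 : ar * sr ≤ ar * ((1 / 2 : ℝ) ^ i * tc) := mul_le_mul_of_nonneg_left hi2 har
    have h4 : 0 ≤ ar * (α / 16 * tc) := mul_nonneg har (by positivity)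
    linarith
  · have h1 : ar * sr ≤ ar * (α / 16 * tc) := by
      refine mul_le_mul_of_nonneg_left ((not_le.1 hsm).le.trans ?_) har
      exact mul_le_mul_of_nonneg_right hI htc.le
    have h2 := Finset.sum_nonneg hnn2
    linarith

open Classical in
theorem ce_energy (f : ℤ → ℝ) (N P : ℕ) (hP1 : 1 ≤ P) (hPN : P = 2 * N)
    (hf : ∀ x, f x ≠ 0 → 0 ≤ x ∧ x < N) (tc : ℝ) (htc : 0 < tc) (I : ℕ) (Qf Hf : ℕ → ℕ)
    (hHf : ∀ i ≤ I, 1 ≤ Hf i ∧ Hf i ≤ N) :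
    ∑ i ∈ range (I + 1), ∑ r ∈ range P, ∑ θ ∈ farey (Qf i),
      (if ∃ b : ℤ, |(r / P : ℝ) - (θ : ℝ) - b| ≤ 1 / (8 * (Hf i : ℝ)) then
        ‖∑ x ∈ Ico (0 : ℤ) N, (f x : ℂ) * ee (-(x * (r / P : ℝ)))‖ ^ 2 *
          ((1 / 2 : ℝ) ^ i * tc) else 0) ≤
      P * (tc * ∑ i ∈ range (I + 1), (1 / 2 : ℝ) ^ i * (4 / (Hf i : ℝ) ^ 2 *
        ∑ y ∈ Ico (-(Hf i : ℤ)) N, ∑ θ ∈ farey (Qf i),
          ‖∑ x ∈ Ico y (y + Hf i), (f x : ℂ) * ee (-(x * (θ : ℝ)))‖ ^ 2)) := by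
  have hP0 : (0 : ℝ) < P := by exact_mod_cast hP1
  rw [Finset.mul_sum, Finset.mul_sum]
  refine Finset.sum_le_sum fun i hi => ?_
  have hi' : i ≤ I := by rw [mem_range] at hi; omega
  rw [Finset.sum_comm, Finset.sum_comm (s := Ico (-(Hf i : ℤ)) (N : ℤ)), Finset.mul_sum,
    Finset.mul_sum, Finset.mul_sum, Finset.mul_sum]
  refine Finset.sum_le_sum fun θ hθ => ?_
  have h1 := window_duality f N (Hf i) P (hHf i hi').1 (by have := (hHf i hi').2; omega) hf (θ : ℝ)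
  rw [div_le_iff₀ hP0] at h1
  rw [← Finset.sum_filter, ← Finset.sum_mul]
  have h2 := mul_le_mul_of_nonneg_right h1
    (by positivity : 0 ≤ (1 / 2 : ℝ) ^ i * tc)
  refine h2.trans (le_of_eq ?_)
  ring

/-- a set without differences `h n`, `n ∈ T`, has large window energy -/
theorem circle_energy (A : Finset ℤ) (N : ℕ) (α : ℝ) (hN : 1 ≤ N)
    (hA : ∀ x ∈ A, 0 ≤ x ∧ x < N) (hα : (A.card : ℝ) = α * N) (hα0 : 0 < α)
    (T : Finset ℕ) (h : ℕ → ℤ) (hT : T.Nonempty) (hh : ∀ n ∈ T, 0 < h n ∧ 4 * h n ≤ N)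
    (hav : ∀ n ∈ T, ∀ x ∈ A, x + h n ∉ A)
    (hedge1 : ∀ n ∈ T, ((A.filter (fun x => x < h n)).card : ℝ) ≤ 2 * α * h n)
    (hedge2 : ∀ n ∈ T, ((A.filter (fun x => (N : ℤ) - h n ≤ x)).card : ℝ) ≤ 2 * α * h n)
    (I : ℕ) (hI : (1 / 2 : ℝ) ^ (I + 1) ≤ α / 16) (Qf Hf : ℕ → ℕ)
    (hHf : ∀ i ≤ I, 1 ≤ Hf i ∧ Hf i ≤ N)
    (hcov : ∀ θ : ℝ, ∀ i ≤ I, (1 / 2 : ℝ) ^ (i + 1) * T.card ≤ ‖∑ n ∈ T, ee (θ * (h n : ℝ))‖ →
      ∃ (q : ℕ) (a : ℤ), 1 ≤ q ∧ q ≤ Qf i ∧ |θ - a / q| ≤ 1 / (8 * (Hf i : ℝ))) :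
    3 / 16 * α ^ 2 * N ≤ ∑ i ∈ range (I + 1), (1 / 2 : ℝ) ^ i * (4 / (Hf i : ℝ) ^ 2 *
      ∑ y ∈ Ico (-(Hf i : ℤ)) N, ∑ θ ∈ farey (Qf i),
        ‖∑ x ∈ Ico y (y + Hf i), (balf A α N x : ℂ) * ee (-(x * (θ : ℝ)))‖ ^ 2) := by
  classical
  set f := balf A α N with hfdef
  set P : ℕ := 2 * N with hP
  have hP1 : 1 ≤ P := by omega
  have hP0 : (0 : ℝ) < P := by exact_mod_cast hP1
  have hf : ∀ x, f x ≠ 0 → 0 ≤ x ∧ x < N := by
    intro x hx
    by_contra h2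
    apply hx
    have h3 : x ∉ A := fun h4 => h2 (hA x h4)
    simp [hfdef, balf, h2, h3]
  set a : ℕ → ℝ := fun r => ‖∑ x ∈ Ico (0 : ℤ) N, (f x : ℂ) * ee (-(x * (r / P : ℝ)))‖ ^ 2 with ha
  have ha0 : ∀ r, 0 ≤ a r := fun r => by positivity
  set s : ℕ → ℂ := fun r => ∑ n ∈ T, ee ((r / P : ℝ) * (h n : ℝ)) with hs
  have hTc : (0 : ℝ) < T.card := by exact_mod_cast hT.card_pos
  have hsT : ∀ r, ‖s r‖ ≤ T.card := by
    intro r
    refine (norm_sum_le _ _).trans (le_of_eq ?_)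
    rw [sum_congr rfl fun n _ => wm_norm_ee _]
    simp
  have c1 : ∑ r ∈ range P, (a r : ℂ) * s r =
      P * ((∑ n ∈ T, ∑ y ∈ Ico (0 : ℤ) N, f y * f (y + h n) : ℝ) : ℂ) := by
    simp only [hs, Finset.mul_sum]
    rw [Finset.sum_comm]
    push_cast
    rw [Finset.mul_sum]
    refine Finset.sum_congr rfl fun n hn => ?_
    have h1 := CE.corr f N P hP1 (h n) (fun x hx y hy => by
      rw [Finset.mem_Ico] at hx hy
      have := hh n hn
      rw [abs_lt]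
      constructor <;> omega)
    rw [CE.cor_eq f N (h n) hf] at h1
    have h2 : ∑ r ∈ range P, (a r : ℂ) * ee ((r / P : ℝ) * (h n : ℝ)) =
        P * ((∑ y ∈ Ico (0 : ℤ) N, f y * f (y + h n) : ℝ) : ℂ) := h1
    rw [h2]
    push_cast
    rfl
  have c2 : (P : ℝ) * (T.card * (α ^ 2 * N / 4)) ≤ ∑ r ∈ range P, a r * ‖s r‖ := by
    have h1 : ∑ n ∈ T, ∑ y ∈ Ico (0 : ℤ) N, f y * f (y + h n) ≤ ∑ n ∈ T, -(α ^ 2 * N / 4) :=
      Finset.sum_le_sum fun n hn => CE.cor_le A N α hN hA hα hα0 (h n) (hh n hn) (hav n hn)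
        (hedge1 n hn) (hedge2 n hn)
    rw [Finset.sum_const, nsmul_eq_mul] at h1
    have h2 : ‖∑ r ∈ range P, (a r : ℂ) * s r‖ ≤ ∑ r ∈ range P, a r * ‖s r‖ := by
      refine (norm_sum_le _ _).trans (le_of_eq ?_)
      refine Finset.sum_congr rfl fun r _ => ?_
      rw [norm_mul, Complex.norm_real, Real.norm_eq_abs, abs_of_nonneg (ha0 r)]
    rw [c1, norm_mul, Complex.norm_natCast, Complex.norm_real, Real.norm_eq_abs] at h2
    refine le_trans (mul_le_mul_of_nonneg_left ?_ hP0.le) h2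
    rw [← neg_neg (∑ n ∈ T, ∑ y ∈ Ico (0 : ℤ) N, f y * f (y + h n)), abs_neg]
    refine le_trans ?_ (le_abs_self _)
    linarith
  have c3 : ∑ r ∈ range P, a r ≤ P * (α * N) := by
    have h1 := CE.corr f N P hP1 0 (fun x hx y hy => by
      rw [Finset.mem_Ico] at hx hy
      rw [abs_lt]
      constructor <;> omega)
    rw [CE.cor_eq f N 0 hf] at h1
    have h2 : (∑ r ∈ range P, (a r : ℂ)) = P * ((∑ y ∈ Ico (0 : ℤ) N, f y * f (y + 0) : ℝ) : ℂ) := by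
      rw [← h1]
      refine Finset.sum_congr rfl fun r _ => ?_
      rw [Int.cast_zero, mul_zero, CE.ee_zero, mul_one]
    have h3 : ∑ r ∈ range P, a r = P * ∑ y ∈ Ico (0 : ℤ) N, f y * f (y + 0) := by
      exact_mod_cast h2
    rw [h3]
    simp only [add_zero]
    exact mul_le_mul_of_nonneg_left (CE.sq_sum_le A N α hN hA hα hα0) hP0.le
  have c4 : ∀ r ∈ range P, a r * ‖s r‖ ≤ a r * (α / 16 * T.card) +
      ∑ i ∈ range (I + 1), ∑ θ ∈ farey (Qf i),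
        (if ∃ b : ℤ, |(r / P : ℝ) - (θ : ℝ) - b| ≤ 1 / (8 * (Hf i : ℝ)) then
        a r * ((1 / 2 : ℝ) ^ i * T.card) else 0) := fun r _ =>
    ce_pick I α T.card ‖s r‖ (a r) (r / P) hTc hα0 (ha0 r) (hsT r) hI Qf Hf
      (fun i hi h1 => hcov (r / P) i hi h1)
  have c5 := c2.trans (Finset.sum_le_sum c4)
  rw [Finset.sum_add_distrib, ← Finset.sum_mul, Finset.sum_comm] at c5
  have c6 := ce_energy f N P hP1 hP hf T.card hTc I Qf Hf hHf
  have c7 : (∑ r ∈ range P, a r) * (α / 16 * T.card) ≤ P * (α * N) * (α / 16 * T.card) :=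
    mul_le_mul_of_nonneg_right c3 (by positivity)
  have c8 := c5.trans (add_le_add c7 c6)
  have hPT : (0 : ℝ) < P * T.card := by positivity
  refine le_of_mul_le_mul_left ?_ hPT
  nlinarith

end Vale.Agent.P042.FS
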