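import Mathlib

namespace Vale.Agent.P042.FS

open Finset

/-- `e(x) = exp(2 pi i x)` -/
noncomputable def ee (x : ℝ) : ℂ := Complex.exp (2 * Real.pi * Complex.I * x)

/-- value at `n` of the polynomial of degree `k` with integer coefficients `c` -/
def pv (k : ℕ) (c : ℕ → ℤ) (n : ℤ) : ℤ := ∑ j ∈ range (k + 1), c j * n ^ j

section prod

variable {ι : Type} [Fintype ι] [DecidableEq ι] {N : ι → ℕ} [∀ i, NeZero (N i)]

/-- product character -/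
noncomputable def chi (ξ x : ∀ i, ZMod (N i)) : ℂ := ∏ i, (ZMod.stdAddChar (ξ i * x i) : ℂ)

/-- product character restricted to the coordinates in `S` -/
noncomputable def chiS (S : Finset ι) (ξ x : ∀ i, ZMod (N i)) : ℂ :=
  ∏ i ∈ S, (ZMod.stdAddChar (ξ i * x i) : ℂ)

/-- support of a frequency -/
def spt (ξ : ∀ i, ZMod (N i)) : Finset ι := univ.filter (fun i => ξ i ≠ 0)

/-- the point of the product group given by an integer -/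
def toX (N : ι → ℕ) (n : ℤ) : ∀ i, ZMod (N i) := fun i => (n : ZMod (N i))

/-- normalised Fourier coefficient of `φ`, supported on `[u, v)` and on a progression mod `R` -/
noncomputable def fco (R : ℕ) (ν : ℝ) (u v : ℤ) (φ : ℤ → ℝ) (ξ : ∀ i, ZMod (N i)) : ℂ :=
  ((R / ν : ℝ) : ℂ) * ∑ n ∈ Ico u v, (φ n : ℂ) * (starRingEnd ℂ) (chi ξ (toX N n))

end prod

/-- balanced function of `A` in `[0, N)` -/
noncomputable def balf (A : Finset ℤ) (α : ℝ) (N : ℕ) (x : ℤ) : ℝ :=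
  (if x ∈ A then (1 : ℝ) else 0) - (if 0 ≤ x ∧ x < N then α else 0)

/-- all fractions in `[0,1)` with denominator at most `Q` -/
def farey (Q : ℕ) : Finset ℚ :=
  (Icc 1 Q).biUnion (fun q => (range q).image (fun a : ℕ => (a : ℚ) / q))

/-- index type: primes up to `Q` -/
abbrev PI (Q : ℕ) : Type := {p : ℕ // p ∈ (range (Q + 1)).filter Nat.Prime}

/-- modulus at `p`: the largest power of `p` that is at most `Q` -/
def pN (Q : ℕ) (p : PI Q) : ℕ := (p : ℕ) ^ (Nat.log (p : ℕ) Q)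

/-- system of auxiliary polynomials -/
structure Sys (k G Cc : ℕ) where
  c : ℕ → ℕ → ℤ
  lam : ℕ → ℕ
  lam_pos : ∀ q, 1 ≤ q → 1 ≤ lam q
  dvd_lam : ∀ q, 1 ≤ q → q ∣ lam q
  lam_le : ∀ q, 1 ≤ q → lam q ≤ q ^ k
  lead : ∀ d, 1 ≤ d → 0 < c d k
  bd : ∀ d, 1 ≤ d → ∀ j ≤ k, |c d j| ≤ Cc * (d : ℤ) ^ k
  cont : ∀ d, 1 ≤ d → ∀ B : ℕ, (∀ j, 1 ≤ j → j ≤ k → (B : ℤ) ∣ c d j) → B ≤ G
  shift : ∀ d q, 1 ≤ d → 1 ≤ q → ∃ s : ℕ, s < q ∧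
    ∀ n : ℤ, pv k (c d) (s + q * n) = lam q * pv k (c (d * q)) n

/-- `A` has no difference `H(n)`, `n ≥ n₀` -/
def Avoid (k : ℕ) (c : ℕ → ℤ) (n₀ : ℕ) (A : Finset ℤ) : Prop :=
  ∀ x ∈ A, ∀ n : ℕ, n₀ ≤ n → 0 < pv k c n → x + pv k c n ∉ A

/-- Weyl inverse property with constant `C` for real polynomials of degree `k` -/
def WeylInv (k C : ℕ) : Prop :=
  ∀ (α : ℕ → ℝ) (Y s t : ℕ) (δ : ℝ), 1 ≤ Y → 0 < δ → δ ≤ 1 / 2 → t ≤ Y →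
      δ * Y ≤ ‖∑ n ∈ Ico s t, ee (∑ j ∈ range (k + 1), α j * (n : ℝ) ^ j)‖ →
      ∃ q : ℕ, 1 ≤ q ∧ (q : ℝ) ≤ (1 / δ) ^ C ∧
        ∀ j, 1 ≤ j → j ≤ k → ∃ a : ℤ, |(q : ℝ) * α j - a| ≤ (1 / δ) ^ C / (Y : ℝ) ^ j

/-- Weyl inverse property with constant `C` for integer polynomials of degree `k` -/
def WeylC (k C : ℕ) : Prop :=
  ∀ (c : ℕ → ℤ) (G Y : ℕ) (δ θ : ℝ), 1 ≤ Y → 0 < c k →
    (∀ B : ℕ, (∀ j, 1 ≤ j → j ≤ k → (B : ℤ) ∣ c j) → B ≤ G) →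
    (∀ j, 1 ≤ j → j ≤ k → (c j) ^ 2 ≤ (Y : ℤ)) → 0 < δ → δ ≤ 1 / 2 → (1 / δ) ^ C ≤ (Y : ℝ) →
    δ * Y ≤ ‖∑ n ∈ Ioc Y (2 * Y), ee (θ * (pv k c n : ℝ))‖ →
    ∃ (q : ℕ) (a : ℤ), 1 ≤ q ∧ (q : ℝ) ≤ G * (1 / δ) ^ C ∧
      |θ - a / q| ≤ (1 / δ) ^ C / ((c k : ℝ) * (Y : ℝ) ^ k)

/-- parameters of one step: largest denominator at level `i` -/
def Qi (C G i : ℕ) : ℕ := G * 2 ^ (C * (i + 1))

/-- smoothness parameter -/
def y0 (C G L : ℕ) : ℕ := G ^ 2 * (10 ^ 7 * L) ^ (2 * C)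

/-- bound for the number of primes -/
def DD (C G L : ℕ) : ℕ := C * (2 * L + 5) + G

/-- window length at level `i` -/
def Hi (C k : ℕ) (c : ℕ → ℤ) (Y i : ℕ) : ℕ := ((c k).toNat * Y ^ k) / (8 * 2 ^ (C * (i + 1)))

/-- size of one step -/
def PP (C G L : ℕ) : ℕ :=
  (y0 C G L).factorial * (Qi C G (2 * L + 4)) ^ (10 * L * DD C G L + 20)

/-- modulus belonging to a set of primes -/
def modS (Q y₀ : ℕ) (S : Finset (PI Q)) : ℕ := y₀.factorial * ∏ p ∈ S, pN Q p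

/-- `A` is dense on no short progression: windows of length `H`, moduli `modS Q y₀ S`, `|S| ≤ D` -/
def NIw (Q y₀ D H : ℕ) (a : ℝ) (A : Finset ℤ) : Prop :=
  ∀ S : Finset (PI Q), S.card ≤ D → ∀ u z : ℤ,
    ((A.filter (fun x => u ≤ x ∧ x < u + H ∧ x ≡ z [ZMOD (modS Q y₀ S)])).card : ℝ) ≤
      2 ^ S.card * a * H / (modS Q y₀ S)

end Vale.Agent.P042.FS
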