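import Vale.Agent.P042.FS.SysC

namespace Vale.Agent.P042.FS

open Polynomial

/-- `pv` as evaluation -/
theorem sg_pv (H : ℤ[X]) (k : ℕ) (hk : H.natDegree < k + 1) (n : ℤ) :
    pv k (fun j => H.coeff j) n = H.eval n := by
  unfold pv
  rw [eval_eq_sum_range' hk]

/-- divisibility of the coefficients of `h(r+dX)` by `lambda(d)` -/
theorem sg_lam_dvd (h : ℤ[X]) (z : ∀ (p : ℕ) (_ : Fact p.Prime), ℤ_[p]) (M : ℕ → ℕ)
    (hM : ∀ (p : ℕ) (hp : Fact p.Prime), ∀ j < M p, aeval (z p hp) (hasseDeriv j h) = 0)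
    (d r : ℕ) (hr : SgRes z d r) :
    ∃ H : ℤ[X], h.comp (C (r : ℤ) + C (d : ℤ) * X) = C (sgLam M d : ℤ) * H := by
  have h1 : C (sgLam M d : ℤ) ∣ h.comp (C (r : ℤ) + C (d : ℤ) * X) := by
    rw [C_dvd_iff_dvd_coeff]
    intro i
    apply sg_dvd_of (sgLam M d) _ _ (sgLam_pos M d).ne'
    intro p hp
    have : Fact p.Prime := ⟨hp⟩
    rw [sgLam_fac, ← PadicInt.pow_p_dvd_int_iff, mul_comm, pow_mul]
    have h2 := sg_dvd (h.map (Int.castRingHom ℤ_[p])) (z p ⟨hp⟩) (M p) (by
      intro j hj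
      rw [sg_hasse_map, sg_aeval]
      exact hM p ⟨hp⟩ j hj) (r : ℤ_[p]) (d : ℤ_[p]) ((p : ℤ_[p]) ^ (d.factorization p))
      (hr p ⟨hp⟩) (by
        have h3 : p ^ (d.factorization p) ∣ d := Nat.ordProj_dvd d p
        have h4 := (Nat.cast_dvd_cast (α := ℤ_[p]) h3)
        exact_mod_cast h4) i
    have h5 : (h.map (Int.castRingHom ℤ_[p])).comp (C (r : ℤ_[p]) + C (d : ℤ_[p]) * X) =
        (h.comp (C (r : ℤ) + C (d : ℤ) * X)).map (Int.castRingHom ℤ_[p]) := by
      rw [Polynomial.map_comp]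
      simp
    rw [h5, coeff_map] at h2
    exact h2
  obtain ⟨H, hH⟩ := h1
  exact ⟨H, hH⟩

/-- the content argument at `p` -/
theorem sg_cont_p (h : ℤ[X]) (z : ∀ (p : ℕ) (_ : Fact p.Prime), ℤ_[p]) (M : ℕ → ℕ)
    (hM1 : ∀ p, 1 ≤ M p)
    (hM : ∀ (p : ℕ) (hp : Fact p.Prime), ∀ j < M p, aeval (z p hp) (hasseDeriv j h) = 0)
    (d r : ℕ) (hd : 1 ≤ d) (hr : SgRes z d r) (H : ℤ[X])
    (hH : h.comp (C (r : ℤ) + C (d : ℤ) * X) = C (sgLam M d : ℤ) * H)
    (p b : ℕ) (hp : Fact p.Prime) (hb : ∀ j, 1 ≤ j → ((p : ℤ) ^ b) ∣ H.coeff j) :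
    (p : ℤ_[p]) ^ b ∣ aeval (z p hp) (hasseDeriv (M p) h) := by
  set v := d.factorization p with hv
  obtain ⟨w, hw⟩ := hr p hp
  -- the cofactor of d
  have hpd : p ^ v ∣ d := Nat.ordProj_dvd d p
  obtain ⟨e, he⟩ := hpd
  have hpe : ¬ p ∣ e := by
    intro hdv
    have h1 : p ^ (v + 1) ∣ d := by
      rw [he, pow_succ]
      exact Nat.mul_dvd_mul_left _ hdv
    have h2 := (hp.out.pow_dvd_iff_le_factorization (by omega)).1 h1
    omega
  have hunit : IsUnit (e : ℤ_[p]) := by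
    rw [PadicInt.isUnit_iff]
    by_contra hne
    have h1 : ‖((e : ℤ) : ℤ_[p])‖ < 1 := by
      have := PadicInt.norm_le_one (e : ℤ_[p])
      rw [Int.cast_natCast]
      exact lt_of_le_of_ne this hne
    rw [PadicInt.norm_int_lt_one_iff_dvd] at h1
    exact hpe (by exact_mod_cast h1)
  obtain ⟨e', he'⟩ := hunit.exists_right_inv
  -- the cofactor of lambda
  have hpl : p ^ (M p * v) ∣ sgLam M d := by
    have := Nat.ordProj_dvd (sgLam M d) p
    rwa [sgLam_fac] at this
  obtain ⟨l', hl'⟩ := hpl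
  have hmain := sg_cont (h.map (Int.castRingHom ℤ_[p])) (z p hp) (M p) (hM1 p) (by
      intro j hj
      rw [sg_hasse_map, sg_aeval]
      exact hM p hp j hj) (r : ℤ_[p]) ((p : ℤ_[p]) ^ v) (e : ℤ_[p]) w e' (l' : ℤ_[p])
      ((p : ℤ_[p]) ^ b) (pow_ne_zero _ (by exact_mod_cast hp.out.ne_zero))
      (H.map (Int.castRingHom ℤ_[p])) hw he' (by
        have h1 := congrArg (fun q : ℤ[X] => q.map (Int.castRingHom ℤ_[p])) hH
        simp only [Polynomial.map_comp, Polynomial.map_mul, Polynomial.map_add, Polynomial.map_C,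
          Polynomial.map_X] at h1
        simp only [eq_intCast, Int.cast_natCast] at h1
        have h2 : ((d : ℕ) : ℤ_[p]) = (p : ℤ_[p]) ^ v * (e : ℤ_[p]) := by
          rw [he]; push_cast; ring
        have h3 : ((sgLam M d : ℕ) : ℤ_[p]) = ((p : ℤ_[p]) ^ v) ^ (M p) * (l' : ℤ_[p]) := by
          rw [hl']; push_cast; ring
        rw [h2, h3] at h1
        exact h1.symm) (by
        intro j hj
        rw [coeff_map, eq_intCast, PadicInt.pow_p_dvd_int_iff]
        exact hb j hj)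
  rw [sg_hasse_map, sg_aeval] at hmain
  exact hmain

/-- every intersective polynomial with positive leading coefficient starts a system -/
theorem sys_exists (k : ℕ) (hk : 1 ≤ k) (h : ℤ[X]) (hdeg : h.natDegree = k)
    (hlead : 0 < h.leadingCoeff)
    (hint : ∀ q : ℕ, 1 ≤ q → ∃ t : ℤ, (q : ℤ) ∣ h.eval t) :
    ∃ (G Cc : ℕ) (sys : Sys k G Cc), ∀ j, sys.c 1 j = h.coeff j := by
  classical
  have hh : h ≠ 0 := by
    rintro rfl
    simp at hlead
  -- roots
  choose z hz using fun (p : ℕ) (hp : Fact p.Prime) => padic_root h hint p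
  choose m hm1 hmk hmz hmne using fun (p : ℕ) (hp : Fact p.Prime) =>
    sg_mult h k hdeg hlead p (z p hp) (hz p hp)
  let M : ℕ → ℕ := fun p => if hp : p.Prime then m p ⟨hp⟩ else 1
  have hMm : ∀ (p : ℕ) (hp : Fact p.Prime), M p = m p hp := by
    intro p hp
    simp only [M]
    rw [dif_pos hp.out]
  have hM1 : ∀ p, 1 ≤ M p := by
    intro p
    simp only [M]
    split_ifs with hp
    · exact hm1 p ⟨hp⟩
    · exact le_refl _
  have hMk : ∀ p, M p ≤ k := by
    intro p
    simp only [M]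
    split_ifs with hp
    · exact hmk p ⟨hp⟩
    · exact hk
  have hMz : ∀ (p : ℕ) (hp : Fact p.Prime), ∀ j < M p, aeval (z p hp) (hasseDeriv j h) = 0 := by
    intro p hp j hj
    rw [hMm p hp] at hj
    exact hmz p hp j hj
  -- residues
  have hr0 : ∀ d : ℕ, ∃ r, 1 ≤ d → r < d ∧ SgRes z d r := by
    intro d
    by_cases hd : 1 ≤ d
    · obtain ⟨r, hr⟩ := sgRes_exists z d hd
      exact ⟨r, fun _ => hr⟩
    · exact ⟨0, fun h => absurd h hd⟩
  choose r hr using hr0
  have hH0 : ∀ d : ℕ, ∃ H : ℤ[X], 1 ≤ d →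
      h.comp (C (r d : ℤ) + C (d : ℤ) * X) = C (sgLam M d : ℤ) * H := by
    intro d
    by_cases hd : 1 ≤ d
    · obtain ⟨H, hH⟩ := sg_lam_dvd h z M hMz d (r d) (hr d hd).2
      exact ⟨H, fun _ => hH⟩
    · exact ⟨0, fun h => absurd h hd⟩
  choose H hH using hH0
  have hlpos : ∀ d, (0 : ℤ) < (sgLam M d : ℤ) := fun d => by exact_mod_cast sgLam_pos M d
  have hcoef : ∀ d, 1 ≤ d → ∀ j, (h.comp (C (r d : ℤ) + C (d : ℤ) * X)).coeff j =
      (sgLam M d : ℤ) * (H d).coeff j := by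
    intro d hd j
    rw [hH d hd, coeff_C_mul]
  have hdegH : ∀ d, 1 ≤ d → (H d).natDegree < k + 1 := by
    intro d hd
    have h1 := (sg_lead_comp h k hdeg (r d) d (by positivity)).1
    rw [hH d hd, natDegree_C_mul (hlpos d).ne'] at h1
    omega
  have heval : ∀ d, 1 ≤ d → ∀ n : ℤ,
      h.eval ((r d : ℤ) + d * n) = (sgLam M d : ℤ) * pv k (fun j => (H d).coeff j) n := by
    intro d hd n
    rw [sg_pv (H d) k (hdegH d hd) n]
    have h1 := congrArg (fun q : ℤ[X] => q.eval n) (hH d hd)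
    simp only [eval_comp, eval_add, eval_C, eval_mul, eval_X] at h1
    exact h1
  -- the bezout constant
  choose Rm hRm0 hRm using fun m : ℕ => bezout_bound h (hasseDeriv m h) hh
  let R : ℤ := ∏ i ∈ Finset.range (k + 1), Rm i
  have hR0 : R ≠ 0 := Finset.prod_ne_zero_iff.2 (fun i _ => hRm0 i)
  refine ⟨R.natAbs, 2 ^ k * ∑ i ∈ Finset.range (k + 1), (h.coeff i).natAbs,
    { c := fun d j => (H d).coeff j
      lam := sgLam M
      lam_pos := fun q _ => sgLam_pos M q
      dvd_lam := fun q hq => sgLam_dvd M hM1 q hq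
      lam_le := fun q hq => sgLam_le M k hMk q hq
      lead := ?_
      bd := ?_
      cont := ?_
      shift := ?_ }, ?_⟩
  · -- lead
    intro d hd
    have h1 := (sg_lead_comp h k hdeg (r d) d (by positivity)).2
    rw [hcoef d hd] at h1
    have h2 : 0 < h.leadingCoeff * (d : ℤ) ^ k := by positivity
    rw [← h1] at h2
    exact pos_of_mul_pos_right h2 (hlpos d).le
  · -- bd
    intro d hd j _
    have h1 := sg_coeff_comp h k hdeg (r d) d (hr d hd).1 j
    rw [hcoef d hd, abs_mul, abs_of_pos (hlpos d)] at h1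
    refine le_trans ?_ h1
    have h2 : (1 : ℤ) ≤ (sgLam M d : ℤ) := hlpos d
    nlinarith [abs_nonneg ((H d).coeff j)]
  · -- cont
    intro d hd B hB
    have hB0 : B ≠ 0 := by
      rintro rfl
      have h1 := hB k hk le_rfl
      have h2 := (sg_lead_comp h k hdeg (r d) d (by positivity)).2
      rw [hcoef d hd] at h2
      simp only [Nat.cast_zero, zero_dvd_iff] at h1
      rw [h1, mul_zero] at h2
      have h3 : 0 < h.leadingCoeff * (d : ℤ) ^ k := by positivity
      omega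
    have hdvd : (B : ℤ) ∣ R := by
      apply sg_dvd_of B _ _ hB0
      intro p hp
      have hpf : Fact p.Prime := ⟨hp⟩
      have h1 := sg_cont_p h z M hM1 hMz d (r d) hd (hr d hd).2 (H d) (hH d hd) p
        (B.factorization p) ⟨hp⟩ (by
          intro j hj
          by_cases hjk : j ≤ k
          · refine dvd_trans ?_ (hB j hj hjk)
            exact_mod_cast Nat.ordProj_dvd B p
          · rw [coeff_eq_zero_of_natDegree_lt (by have := hdegH d hd; omega)]
            exact dvd_zero _)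
      rw [hMm p ⟨hp⟩] at h1
      have h2 := hRm (m p ⟨hp⟩) p (z p ⟨hp⟩) (hz p ⟨hp⟩) (hmne p ⟨hp⟩)
      have h3 := h1.trans h2
      rw [PadicInt.pow_p_dvd_int_iff] at h3
      refine h3.trans ?_
      exact Finset.dvd_prod_of_mem Rm (Finset.mem_range.2 (by have := hmk p ⟨hp⟩; omega))
    have h4 := Int.natAbs_dvd_natAbs.2 hdvd
    rw [Int.natAbs_natCast] at h4
    exact Nat.le_of_dvd (Int.natAbs_pos.2 hR0) h4
  · -- shift
    intro d q hd hq
    have hdq : 1 ≤ d * q := Nat.mul_pos hd hq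
    have h1 : SgRes z d (r (d * q)) := sgRes_of_dvd z d q _ hd hq (hr (d * q) hdq).2
    have h2 := sgRes_congr z d (r (d * q)) (r d) hd h1 (hr d hd).2
    have h3 : r (d * q) % d = r d := by
      rw [h2]
      exact Nat.mod_eq_of_lt (hr d hd).1
    have h4 := Nat.div_add_mod (r (d * q)) d
    rw [h3] at h4
    refine ⟨r (d * q) / d, ?_, ?_⟩
    · rw [Nat.div_lt_iff_lt_mul (by omega)]
      exact (hr (d * q) hdq).1.trans_eq (mul_comm _ _)
    · intro n
      have h5 := heval d hd ((r (d * q) / d : ℕ) + q * n)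
      have h6 := heval (d * q) hdq n
      have h7 : ((r d : ℕ) : ℤ) + d * (((r (d * q) / d : ℕ) : ℤ) + q * n) =
          ((r (d * q) : ℕ) : ℤ) + ((d * q : ℕ) : ℤ) * n := by
        have h9 : ((r (d * q) : ℕ) : ℤ) = (d : ℤ) * ((r (d * q) / d : ℕ) : ℤ) + (r d : ℤ) := by
          exact_mod_cast h4.symm
        rw [h9]
        push_cast
        ring
      rw [h7, h6, sgLam_mul M d q hd hq] at h5
      push_cast at h5
      rw [mul_assoc] at h5
      exact (mul_left_cancel₀ (hlpos d).ne' h5).symm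
  · -- start
    intro j
    have h1 := hcoef 1 le_rfl j
    have h2 : r 1 = 0 := by
      have := (hr 1 le_rfl).1
      omega
    rw [sgLam_one, h2] at h1
    simp at h1
    exact h1.symm

end Vale.Agent.P042.FS
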