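import Vale.Agent.P042.FS.Iterate
import Vale.Agent.P042.FS.SysGen
import Vale.Agent.P042.Defs

namespace Vale.Agent.P042.FS

open Polynomial Finset

theorem pv_coeff (k : ℕ) (h : ℤ[X]) (hdeg : h.natDegree = k) (n : ℤ) :
    pv k (fun j => h.coeff j) n = h.eval n := by
  rw [pv, Polynomial.eval_eq_sum_range, hdeg]

/-- the maximum in the definition of `rmax` is attained -/
theorem rmax_attained (h : ℤ[X]) (N : ℕ) : ∃ A : Finset ℤ, (∀ a ∈ A, 1 ≤ a ∧ a ≤ (N : ℤ)) ∧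
    (∀ a ∈ A, ∀ b ∈ A, ∀ n : ℕ, 1 ≤ n → a - b = h.eval (n : ℤ) → a - b = 0) ∧
    A.card = rmax h N := by
  have hne : {k : ℕ | ∃ A : Finset ℤ, (∀ a ∈ A, 1 ≤ a ∧ a ≤ (N : ℤ)) ∧
    (∀ a ∈ A, ∀ b ∈ A, ∀ n : ℕ, 1 ≤ n → a - b = h.eval (n : ℤ) → a - b = 0) ∧
    A.card = k}.Nonempty := ⟨0, ∅, by simp, by simp, by simp⟩
  have hbd : BddAbove {k : ℕ | ∃ A : Finset ℤ, (∀ a ∈ A, 1 ≤ a ∧ a ≤ (N : ℤ)) ∧
    (∀ a ∈ A, ∀ b ∈ A, ∀ n : ℕ, 1 ≤ n → a - b = h.eval (n : ℤ) → a - b = 0) ∧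
    A.card = k} := by
    refine ⟨N, ?_⟩
    rintro k ⟨A, hA, _, rfl⟩
    have : A ⊆ Finset.Icc 1 (N : ℤ) := fun a ha => by
      rw [Finset.mem_Icc]; exact hA a ha
    have := Finset.card_le_card this
    simpa using this
  exact Nat.sSup_mem hne hbd

/-- the asymptotic step -/
theorem eventually_rpow (B : ℕ) (hB : 1 ≤ B) (C₀ : ℝ) (hC₀ : 0 < C₀) :
    ∃ x₀ : ℝ, ∀ x : ℝ, x₀ ≤ x → 1 ≤ x ∧ 2 * C₀ ≤ x ∧
      x ^ (1 / ((B : ℝ) + 1)) + 2 ≤ (x / (2 * C₀)) ^ (1 / (B : ℝ)) := by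
  have hB0 : (0 : ℝ) < B := by exact_mod_cast hB
  set c : ℝ := 1 / ((B : ℝ) + 1) with hc
  set γ : ℝ := 1 / (B : ℝ) - c with hγ
  have hc0 : 0 < c := by positivity
  have hγ0 : 0 < γ := by
    rw [hγ, hc, sub_pos]
    apply one_div_lt_one_div_of_lt hB0
    linarith
  have h1 : Filter.Tendsto (fun x : ℝ => x ^ γ) Filter.atTop Filter.atTop :=
    tendsto_rpow_atTop hγ0
  have h2 : Filter.Tendsto (fun x : ℝ => x ^ c) Filter.atTop Filter.atTop :=
    tendsto_rpow_atTop hc0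
  have e1 := h1.eventually (Filter.eventually_ge_atTop (3 * (2 * C₀) ^ (1 / (B : ℝ))))
  have e2 := h2.eventually (Filter.eventually_ge_atTop 1)
  have e3 := (e1.and e2).and ((Filter.eventually_ge_atTop (1 : ℝ)).and
    (Filter.eventually_ge_atTop (2 * C₀)))
  obtain ⟨x₀, hx₀⟩ := Filter.eventually_atTop.mp e3
  refine ⟨x₀, fun x hx => ?_⟩
  obtain ⟨⟨g1, g2⟩, g3, g4⟩ := hx₀ x hx
  refine ⟨g3, g4, ?_⟩
  have hx0 : 0 < x := by linarith
  have hsplit : x ^ (1 / (B : ℝ)) = x ^ c * x ^ γ := by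
    rw [← Real.rpow_add hx0]
    congr 1
    rw [hγ]; ring
  rw [Real.div_rpow hx0.le (by positivity), hsplit]
  have hpos : 0 < (2 * C₀) ^ (1 / (B : ℝ)) := by positivity
  rw [le_div_iff₀ hpos]
  have hxc : 0 < x ^ c := by positivity
  calc (x ^ c + 2) * (2 * C₀) ^ (1 / (B : ℝ)) ≤ (3 * x ^ c) * (2 * C₀) ^ (1 / (B : ℝ)) := by
        apply mul_le_mul_of_nonneg_right _ hpos.le
        linarith
    _ = x ^ c * (3 * (2 * C₀) ^ (1 / (B : ℝ))) := by ring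
    _ ≤ x ^ c * x ^ γ := mul_le_mul_of_nonneg_left g1 hxc.le

/-- bound for `rmax` from the main theorem for systems -/
theorem final_rmax (k : ℕ) (hk : 1 ≤ k) : ∃ c : ℝ, 0 < c ∧ ∀ h : ℤ[X], h.natDegree = k →
    0 < h.leadingCoeff → (∀ q : ℕ, 1 ≤ q → ∃ t : ℤ, (q : ℤ) ∣ h.eval t) →
    ∃ N₀ : ℕ, ∀ N : ℕ, N₀ ≤ N → (rmax h N : ℝ) ≤ N * Real.exp (-(Real.log N) ^ c) := by
  obtain ⟨B, hB, hmain⟩ := main_sys k hk
  have hB0 : (0 : ℝ) < B := by exact_mod_cast hB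
  refine ⟨1 / ((B : ℝ) + 1), by positivity, ?_⟩
  intro h hdeg hlead hint
  obtain ⟨G, Cc, sys, hsys⟩ := sys_exists k hk h hdeg hlead hint
  obtain ⟨C₀, hC₀, hN⟩ := hmain G Cc 1 sys
  obtain ⟨x₀, hx₀⟩ := eventually_rpow B hB C₀ hC₀
  refine ⟨Nat.ceil (Real.exp x₀) + 1, ?_⟩
  intro N hN0
  have hN1 : 1 ≤ N := by omega
  have hNR : (0 : ℝ) < N := by exact_mod_cast hN1
  have hlogN : x₀ ≤ Real.log N := by
    rw [Real.le_log_iff_exp_le hNR]
    calc Real.exp x₀ ≤ Nat.ceil (Real.exp x₀) := Nat.le_ceil _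
      _ ≤ N := by exact_mod_cast (by omega : Nat.ceil (Real.exp x₀) ≤ N)
  set ℓ := Real.log ((N : ℝ) + 1) with hℓ
  have hℓN : Real.log N ≤ ℓ := Real.log_le_log hNR (by linarith)
  obtain ⟨g1, g2, g3⟩ := hx₀ (Real.log N) hlogN
  set y : ℝ := (Real.log N / (2 * C₀)) ^ (1 / (B : ℝ)) with hy
  set L := Nat.floor y with hL
  have hxc : 0 ≤ (Real.log N) ^ (1 / ((B : ℝ) + 1)) := by positivity
  have hy2 : 2 ≤ y := by linarith
  have hL1 : 1 ≤ L := by
    rw [hL]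
    apply Nat.le_floor
    push_cast
    linarith
  have hLy : (L : ℝ) ≤ y := Nat.floor_le (by linarith)
  have hyL : y < L + 1 := Nat.lt_floor_add_one y
  obtain ⟨A, hA1, hA2, hA3⟩ := rmax_attained h N
  have hCL : C₀ * (L : ℝ) ^ B ≤ Real.log N / 2 := by
    have e1 : (L : ℝ) ^ B ≤ y ^ B := pow_le_pow_left₀ (Nat.cast_nonneg _) hLy B
    have e2 : y ^ B = Real.log N / (2 * C₀) := by
      rw [hy, ← Real.rpow_natCast, ← Real.rpow_mul (by positivity)]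
      rw [one_div, inv_mul_cancel₀ hB0.ne', Real.rpow_one]
    calc C₀ * (L : ℝ) ^ B ≤ C₀ * (Real.log N / (2 * C₀)) := by
          rw [← e2]
          exact mul_le_mul_of_nonneg_left e1 hC₀.le
      _ = Real.log N / 2 := by field_simp
  have hnot : ¬ (Real.exp (-(L : ℝ)) * ((N + 1 : ℕ) : ℝ) ≤ A.card) := by
    intro hcon
    have := hN (N + 1) A
      (by
        intro x hx
        have := hA1 x hx
        push_cast
        constructor <;> omega)
      (by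
        intro x hx n hn hpos hmem
        have hpv : pv k (sys.c 1) n = h.eval (n : ℤ) := by
          rw [← pv_coeff k h hdeg]
          unfold pv
          apply Finset.sum_congr rfl
          intro j _
          rw [hsys j]
        rw [hpv] at hpos hmem
        have := hA2 _ hmem x hx n hn (by ring)
        have h5 : h.eval (n : ℤ) = 0 := by linarith
        omega)
      L hL1 hcon
    push_cast at this
    rw [← hℓ] at this
    linarith
  push Not at hnot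
  rw [← hA3]
  refine le_trans hnot.le ?_
  have hN2 : (((N + 1 : ℕ) : ℝ)) ≤ 2 * N := by
    push_cast
    have : (1 : ℝ) ≤ N := by exact_mod_cast hN1
    linarith
  calc Real.exp (-(L : ℝ)) * ((N + 1 : ℕ) : ℝ) ≤ Real.exp (-(L : ℝ)) * (2 * N) :=
        mul_le_mul_of_nonneg_left hN2 (Real.exp_pos _).le
    _ ≤ Real.exp (-(L : ℝ)) * (Real.exp 1 * N) := by
        apply mul_le_mul_of_nonneg_left _ (Real.exp_pos _).le
        apply mul_le_mul_of_nonneg_right _ hNR.le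
        have := Real.exp_one_gt_d9
        linarith
    _ = N * Real.exp (1 - (L : ℝ)) := by
        rw [sub_eq_add_neg, Real.exp_add]; ring
    _ ≤ N * Real.exp (-(Real.log N) ^ (1 / ((B : ℝ) + 1))) := by
        apply mul_le_mul_of_nonneg_left _ hNR.le
        apply Real.exp_le_exp.mpr
        linarith

end Vale.Agent.P042.FS
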