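import Vale.Agent.P042.FS.Defs

namespace Vale.Agent.P042.FS

open Finset

theorem fq_prime {Q : ℕ} (p : PI Q) : Nat.Prime (p : ℕ) := (mem_filter.1 p.2).2

theorem fq_le {Q : ℕ} (p : PI Q) : (p : ℕ) ≤ Q :=
  Nat.lt_succ_iff.1 (mem_range.1 (mem_filter.1 p.2).1)

instance pN_neZero (Q : ℕ) (p : PI Q) : NeZero (pN Q p) :=
  ⟨pow_ne_zero _ (fq_prime p).ne_zero⟩

theorem pN_coprime (Q : ℕ) (p p' : PI Q) (h : p ≠ p') : Nat.Coprime (pN Q p) (pN Q p') := by
  apply Nat.Coprime.pow
  rw [Nat.coprime_primes (fq_prime p) (fq_prime p')]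
  exact fun h' => h (Subtype.ext h')

theorem pN_le (Q : ℕ) (p : PI Q) : pN Q p ≤ Q := by
  apply Nat.pow_log_le_self
  have h1 := fq_le p
  have h2 := (fq_prime p).pos
  omega

theorem pN_two (Q : ℕ) (p : PI Q) : 2 ≤ pN Q p := by
  have h1 : 1 ≤ Nat.log (p : ℕ) Q := by
    have := Nat.log_pos (fq_prime p).one_lt (fq_le p)
    exact this
  calc 2 ≤ (p : ℕ) := (fq_prime p).two_le
    _ = (p : ℕ) ^ 1 := (pow_one _).symm
    _ ≤ (p : ℕ) ^ (Nat.log (p : ℕ) Q) := Nat.pow_le_pow_right (fq_prime p).pos h1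

theorem card_PI (Q : ℕ) : Fintype.card (PI Q) ≤ Q := by
  rw [Fintype.card_coe]
  have h : (range (Q + 1)).filter Nat.Prime ⊆ Icc 1 Q := by
    intro p hp
    rw [mem_filter, mem_range] at hp
    rw [mem_Icc]
    exact ⟨hp.2.pos, by omega⟩
  calc ((range (Q + 1)).filter Nat.Prime).card ≤ (Icc 1 Q).card := card_le_card h
    _ = Q := by simp

/-- a prime power dividing `q ≤ Q` divides the local modulus -/
theorem fq_pow_dvd_pN {Q : ℕ} (p : PI Q) {v : ℕ} (hv : (p : ℕ) ^ v ≤ Q) : (p : ℕ) ^ v ∣ pN Q p := by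
  apply pow_dvd_pow
  exact Nat.le_log_of_pow_le (fq_prime p).one_lt hv

theorem fq_dvd_prod {Q q : ℕ} (hq : 1 ≤ q) (hqQ : q ≤ Q) : q ∣ ∏ p : PI Q, pN Q p := by
  rw [Nat.dvd_iff_prime_pow_dvd_dvd]
  intro p k hp hk
  have h1 : p ^ k ≤ q := Nat.le_of_dvd hq hk
  rcases Nat.eq_zero_or_pos k with rfl | hk0
  · simp
  have h2 : p ≤ Q := by
    calc p = p ^ 1 := (pow_one _).symm
      _ ≤ p ^ k := Nat.pow_le_pow_right hp.pos hk0
      _ ≤ Q := h1.trans hqQ
  let P : PI Q := ⟨p, mem_filter.2 ⟨mem_range.2 (by omega), hp⟩⟩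
  have h3 : p ^ k ∣ pN Q P := fq_pow_dvd_pN P (h1.trans hqQ)
  exact h3.trans (dvd_prod_of_mem _ (mem_univ P))

theorem fq_ee_add (x y : ℝ) : ee (x + y) = ee x * ee y := by
  unfold ee
  rw [← Complex.exp_add]
  congr 1
  push_cast
  ring

theorem fq_ee_sum {ι : Type*} (s : Finset ι) (f : ι → ℝ) : ee (∑ i ∈ s, f i) = ∏ i ∈ s, ee (f i) := by
  classical
  induction s using Finset.induction_on with
  | empty => simp [ee]
  | insert a s ha ih => rw [sum_insert ha, prod_insert ha, fq_ee_add, ih]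

theorem fq_std_ee {N : ℕ} [NeZero N] (b n : ℤ) :
    (ZMod.stdAddChar ((b : ZMod N) * (n : ZMod N)) : ℂ) = ee ((b : ℝ) / N * n) := by
  rw [← Int.cast_mul, ZMod.stdAddChar_coe]
  unfold ee
  congr 1
  push_cast
  ring

theorem fq_ee_int (n : ℤ) : ee (n : ℝ) = 1 := by
  unfold ee
  rw [show (2 * Real.pi * Complex.I * ((n : ℝ) : ℂ) : ℂ) = (n : ℂ) * (2 * Real.pi * Complex.I) by
    push_cast; ring]
  exact Complex.exp_int_mul_two_pi_mul_I n

/-- if the exact power of `p` in `q` is at most `y`, the local modulus divides `y! P / q` -/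
theorem fq_dvd_aux {Q y q : ℕ} (hq : 1 ≤ q) (hqQ : q ≤ Q) (p : PI Q)
    (hy : (p : ℕ) ^ (q.factorization p) ≤ y) :
    pN Q p ∣ y.factorial * ((∏ p : PI Q, pN Q p) / q) := by
  set P := ∏ p : PI Q, pN Q p with hP
  obtain ⟨R, hR⟩ := fq_dvd_prod hq hqQ
  rw [← hP] at hR
  have h1 : P / q = R := by
    rw [hR]; exact Nat.mul_div_cancel_left _ hq
  rw [h1]
  have h2 : (p : ℕ) ^ (q.factorization p) ∣ y.factorial :=
    Nat.dvd_factorial (pow_pos (fq_prime p).pos _) hy
  obtain ⟨w, hw⟩ := h2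
  have h3 : pN Q p ∣ (p : ℕ) ^ (q.factorization p) * R := by
    have h4 : pN Q p ∣ q * R := by
      rw [← hR]; exact dvd_prod_of_mem _ (mem_univ p)
    have h5 : q = (p : ℕ) ^ (q.factorization p) * (q / (p : ℕ) ^ (q.factorization p)) :=
      (Nat.ordProj_mul_ordCompl_eq_self q p).symm
    have h6 : Nat.Coprime (pN Q p) (q / (p : ℕ) ^ (q.factorization p)) :=
      Nat.Coprime.pow_left _ (Nat.coprime_ordCompl (fq_prime p) (by omega))
    rw [h5] at h4
    have h7 : pN Q p ∣ (q / (p : ℕ) ^ (q.factorization p)) * ((p : ℕ) ^ (q.factorization p) * R) := by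
      convert h4 using 1
      ring
    exact h6.dvd_of_dvd_mul_left h7
  rw [hw, mul_assoc, mul_comm w, ← mul_assoc]
  exact h3.mul_right _

/-- the frequency `y! a / q` on the product group; its support is small -/
theorem freq_exists (Q y q : ℕ) (a : ℤ) (hq : 1 ≤ q) (hqQ : q ≤ Q) :
    ∃ ξ : ∀ p, ZMod (pN Q p), (∀ n : ℤ, ee ((y.factorial : ℝ) * (a / q) * n) =
      chi ξ (toX (pN Q) n)) ∧ y ^ (spt ξ).card ≤ q := by
  classical
  rcases isEmpty_or_nonempty (PI Q) with hE | hE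
  · have hq1 : q = 1 := by
      have := fq_dvd_prod hq hqQ
      rw [Fintype.prod_empty] at this
      exact Nat.dvd_one.1 this
    refine ⟨fun p => 0, ?_, ?_⟩
    · intro n
      have h1 : (y.factorial : ℝ) * (a / q) * n = ((y.factorial * a * n : ℤ) : ℝ) := by
        rw [hq1]; push_cast; ring
      rw [h1, fq_ee_int]
      unfold chi
      rw [Fintype.prod_empty]
    · have h2 : spt (fun p : PI Q => (0 : ZMod (pN Q p))) = ∅ := by
        unfold spt
        rw [filter_eq_empty_iff]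
        simp
      rw [h2, card_empty, pow_zero]
      exact hq
  obtain ⟨μ, hμ⟩ := (exists_sum_eq_one_iff_pairwise_coprime' (I := PI Q) (R := ℤ)
    (s := fun p => (pN Q p : ℤ))).2 (fun p p' h => by
      show IsCoprime _ _
      rw [Nat.isCoprime_iff_coprime]
      exact pN_coprime Q p p' h)
  set P : ℕ := ∏ p : PI Q, pN Q p with hP
  set m : ℤ := (y.factorial * (P / q) : ℕ) * a with hm
  have hPpos : 0 < P := prod_pos (fun p _ => Nat.pos_of_ne_zero (NeZero.ne _))
  have hqP : q ∣ P := fq_dvd_prod hq hqQ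
  refine ⟨fun p => ((m * μ p : ℤ) : ZMod (pN Q p)), ?_, ?_⟩
  · intro n
    have h1 : (y.factorial : ℝ) * (a / q) * n =
        ∑ p : PI Q, ((m * μ p : ℤ) : ℝ) / (pN Q p) * n := by
      rw [← Finset.sum_mul]
      congr 1
      have h2 : ∀ p : PI Q, ((m * μ p : ℤ) : ℝ) / (pN Q p) =
          (m : ℝ) / P * ((μ p * ∏ j ∈ {p}ᶜ, (pN Q j : ℤ) : ℤ) : ℝ) := by
        intro p
        have h3 : (P : ℝ) = (pN Q p : ℝ) * ∏ j ∈ {p}ᶜ, (pN Q j : ℝ) := by
          rw [hP]
          push_cast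
          exact (Fintype.prod_eq_mul_prod_compl p _)
        have h4 : (pN Q p : ℝ) ≠ 0 := by exact_mod_cast NeZero.ne (pN Q p)
        have h5 : ∏ j ∈ ({p}ᶜ : Finset (PI Q)), (pN Q j : ℝ) ≠ 0 :=
          prod_ne_zero_iff.2 (fun j _ => by exact_mod_cast NeZero.ne (pN Q j))
        rw [h3]
        push_cast
        field_simp
      rw [sum_congr rfl (fun p _ => h2 p), ← Finset.mul_sum]
      have h6 : ∑ p : PI Q, ((μ p * ∏ j ∈ {p}ᶜ, (pN Q j : ℤ) : ℤ) : ℝ) = 1 := by
        have := congrArg (Int.cast : ℤ → ℝ) hμ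
        push_cast at this ⊢
        exact this
      rw [h6, mul_one, hm]
      obtain ⟨R, hR⟩ := hqP
      have h7 : P / q = R := by rw [hR]; exact Nat.mul_div_cancel_left _ hq
      rw [h7]
      have hq' : (q : ℝ) ≠ 0 := by positivity
      have hR' : (R : ℝ) ≠ 0 := by
        intro h
        have : R = 0 := by exact_mod_cast h
        rw [this] at hR
        omega
      rw [hR]
      push_cast
      field_simp
    rw [h1, fq_ee_sum]
    unfold chi toX
    apply prod_congr rfl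
    intro p _
    rw [fq_std_ee]
  · have h1 : ∀ p ∈ spt (fun p : PI Q => ((m * μ p : ℤ) : ZMod (pN Q p))),
        y ≤ (p : ℕ) ^ (q.factorization p) := by
      intro p hp
      by_contra hcon
      push Not at hcon
      have h2 := fq_dvd_aux hq hqQ p hcon.le
      have h3 : ((m * μ p : ℤ) : ZMod (pN Q p)) = 0 := by
        rw [ZMod.intCast_zmod_eq_zero_iff_dvd]
        apply Dvd.dvd.mul_right
        rw [hm]
        apply Dvd.dvd.mul_right
        exact_mod_cast h2
      unfold spt at hp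
      rw [mem_filter] at hp
      exact hp.2 h3
    calc y ^ (spt (fun p : PI Q => ((m * μ p : ℤ) : ZMod (pN Q p)))).card
        = ∏ _p ∈ spt (fun p : PI Q => ((m * μ p : ℤ) : ZMod (pN Q p))), y := by
          rw [prod_const]
      _ ≤ ∏ p ∈ spt (fun p : PI Q => ((m * μ p : ℤ) : ZMod (pN Q p))),
          (p : ℕ) ^ (q.factorization p) := prod_le_prod' h1
      _ ≤ q := by
          apply Nat.le_of_dvd hq
          apply Finset.prod_dvd_of_isRelPrime
          · intro p _ p' _ hpp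
            show IsRelPrime _ _
            rw [← Nat.coprime_iff_isRelPrime]
            apply Nat.Coprime.pow
            rw [Nat.coprime_primes (fq_prime p) (fq_prime p')]
            exact fun h' => hpp (Subtype.ext h')
          · intro p _
            exact Nat.ordProj_dvd q p

end Vale.Agent.P042.FS
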