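import Vale.Agent.P042.FS.Defs

namespace Vale.Agent.P042.FS

open Finset

theorem hc_bern (s y : ℝ) (hs : 0 ≤ s) (hy : 0 ≤ y) (n : ℕ) :
    s ^ (n + 1) + (n + 1) * s ^ n * y ≤ (s + y) ^ (n + 1) := by
  induction n with
  | zero => simp
  | succ n ih =>
    have h1 : (s + y) ^ (n + 1 + 1) = (s + y) * (s + y) ^ (n + 1) := by ring
    rw [h1]
    have h2 : (s + y) * (s ^ (n + 1) + (n + 1) * s ^ n * y) ≤ (s + y) * (s + y) ^ (n + 1) :=
      mul_le_mul_of_nonneg_left ih (by positivity)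
    refine le_trans ?_ h2
    have h3 : (s + y) * (s ^ (n + 1) + (n + 1) * s ^ n * y) =
      s ^ (n + 1 + 1) + ((n + 1 : ℕ) + 1) * s ^ (n + 1) * y + (n + 1) * s ^ n * y ^ 2 := by
      push_cast
      ring
    rw [h3]
    have : 0 ≤ (n + 1) * s ^ n * y ^ 2 := by positivity
    linarith

/-- pointwise inequality -/
theorem hc_point (n : ℕ) (s T P : ℝ) (hs : 0 ≤ s) (hT : 0 ≤ T) (hP : P ^ 2 ≤ s * T) :
    (s + 2 * (1 / (48 * ((n : ℝ) + 1))) * P + (1 / (48 * ((n : ℝ) + 1))) ^ 2 * T) ^ (n + 1) ≤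
      s ^ (n + 1) + 1 / 24 * s ^ n * P + 1 / 256 * s ^ n * T + (T / 64) ^ (n + 1) := by
  set m : ℝ := (n : ℝ) + 1 with hm
  have hm1 : 1 ≤ m := by
    have : (0 : ℝ) ≤ n := Nat.cast_nonneg n
    linarith
  have hm0 : 0 < m := by linarith
  set ρ : ℝ := 1 / (48 * m) with hρ
  have hρ0 : 0 < ρ := by positivity
  have hρm : ρ * m = 1 / 48 := by
    rw [hρ]; field_simp
  have hρ1 : ρ ≤ 1 / 48 := by
    rw [hρ]
    apply one_div_le_one_div_of_le (by norm_num)
    linarith
  -- nonnegativity of the base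
  have hbase : 0 ≤ s + 2 * ρ * P + ρ ^ 2 * T := by
    have h1 : |P| ≤ Real.sqrt s * Real.sqrt T := by
      rw [← Real.sqrt_mul hs]
      exact Real.abs_le_sqrt hP
    have h2 : s = Real.sqrt s ^ 2 := (Real.sq_sqrt hs).symm
    have h3 : T = Real.sqrt T ^ 2 := (Real.sq_sqrt hT).symm
    have h4 : -(Real.sqrt s * Real.sqrt T) ≤ P := by
      have := neg_abs_le P
      linarith
    have h5 : 0 ≤ (Real.sqrt s - ρ * Real.sqrt T) ^ 2 := sq_nonneg _
    nlinarith [mul_le_mul_of_nonneg_left h4 hρ0.le]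
  by_cases hcase : T ≤ 256 * s
  · rcases eq_or_lt_of_le hs with hs0 | hs0
    · have hT0 : T = 0 := by
        rw [← hs0] at hcase; linarith
      have hP0 : P = 0 := by
        rw [← hs0] at hP
        have : P ^ 2 ≤ 0 := by linarith
        exact pow_eq_zero_iff (two_ne_zero) |>.mp (le_antisymm this (sq_nonneg P))
      rw [← hs0, hT0, hP0]
      simp
    · set v : ℝ := (2 * ρ * P + ρ ^ 2 * T) / s with hv
      have hsv : s + 2 * ρ * P + ρ ^ 2 * T = s * (1 + v) := by
        rw [hv]; field_simp; ring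
      have h1v : 0 ≤ 1 + v := by
        have : 0 ≤ s * (1 + v) := by rw [← hsv]; exact hbase
        exact nonneg_of_mul_nonneg_right this hs0
      set τ : ℝ := Real.sqrt (T / s) with hτ
      have hτ0 : 0 ≤ τ := Real.sqrt_nonneg _
      have hτ2 : τ ^ 2 = T / s := Real.sq_sqrt (by positivity)
      have hT' : T = s * τ ^ 2 := by rw [hτ2]; field_simp
      have hτ16 : τ ≤ 16 := by
        rw [hτ]
        apply Real.sqrt_le_iff.mpr
        refine ⟨by norm_num, ?_⟩
        rw [div_le_iff₀ hs0]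
        linarith
      set π' : ℝ := P / s with hπ
      have hP' : P = s * π' := by rw [hπ]; field_simp
      have hπτ : |π'| ≤ τ := by
        rw [hτ]
        apply Real.abs_le_sqrt
        rw [hπ, div_pow, div_le_div_iff₀ (by positivity) hs0]
        nlinarith
      have hmv : m * v = π' / 24 + τ ^ 2 * (ρ / 48) := by
        rw [hv, hP', hT']
        have : (2 * ρ * (s * π') + ρ ^ 2 * (s * τ ^ 2)) / s = 2 * ρ * π' + ρ ^ 2 * τ ^ 2 := by
          field_simp
        rw [this]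
        have h2 : m * (2 * ρ * π' + ρ ^ 2 * τ ^ 2) = 2 * (ρ * m) * π' + (ρ * m) * ρ * τ ^ 2 := by ring
        rw [h2, hρm]
        ring
      have hτ' : τ ^ 2 * (ρ / 48) ≤ τ * (16 / 2304) := by
        have e1 : τ ^ 2 * (ρ / 48) ≤ τ ^ 2 * (1 / 48 / 48) := by
          apply mul_le_mul_of_nonneg_left _ (sq_nonneg τ)
          linarith
        have e2 : τ ^ 2 * (1 / 48 / 48) ≤ (16 * τ) * (1 / 48 / 48) := by
          apply mul_le_mul_of_nonneg_right _ (by norm_num)
          nlinarith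
        linarith
      have hτ'0 : 0 ≤ τ ^ 2 * (ρ / 48) := by positivity
      have habs : |m * v| ≤ τ * (7 / 144) := by
        rw [hmv]
        calc |π' / 24 + τ ^ 2 * (ρ / 48)| ≤ |π' / 24| + |τ ^ 2 * (ρ / 48)| := abs_add_le _ _
          _ ≤ τ / 24 + τ * (16 / 2304) := by
              rw [abs_of_nonneg hτ'0, abs_div]
              have : |(24 : ℝ)| = 24 := by norm_num
              rw [this]
              have := hπτ
              linarith
          _ = τ * (7 / 144) := by ring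
      have habs1 : |m * v| ≤ 1 := by
        refine le_trans habs ?_
        linarith
      have hexp : Real.exp (m * v) ≤ 1 + m * v + (m * v) ^ 2 := by
        have := Real.abs_exp_sub_one_sub_id_le habs1
        have := (abs_le.mp this).2
        linarith
      have hpow : (1 + v) ^ (n + 1) ≤ Real.exp (m * v) := by
        have h2 : 1 + v ≤ Real.exp v := by linarith [Real.add_one_le_exp v]
        calc (1 + v) ^ (n + 1) ≤ (Real.exp v) ^ (n + 1) := pow_le_pow_left₀ h1v h2 _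
          _ = Real.exp (m * v) := by
              rw [← Real.exp_nat_mul]
              congr 1
              rw [hm]; push_cast; ring
      have hsq : (m * v) ^ 2 ≤ τ ^ 2 * (49 / 20736) := by
        have h3 : |m * v| ^ 2 ≤ (τ * (7 / 144)) ^ 2 := pow_le_pow_left₀ (abs_nonneg _) habs 2
        rw [sq_abs] at h3
        nlinarith
      have hfin : (1 + v) ^ (n + 1) ≤ 1 + π' / 24 + τ ^ 2 / 256 := by
        have h4 : τ ^ 2 * (ρ / 48) ≤ τ ^ 2 * (1 / 2304) := by
          apply mul_le_mul_of_nonneg_left _ (sq_nonneg τ)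
          linarith
        have h5 : 0 ≤ τ ^ 2 := sq_nonneg τ
        calc (1 + v) ^ (n + 1) ≤ 1 + m * v + (m * v) ^ 2 := le_trans hpow hexp
          _ ≤ 1 + (π' / 24 + τ ^ 2 * (1 / 2304)) + τ ^ 2 * (49 / 20736) := by
              rw [hmv] at *
              linarith
          _ ≤ 1 + π' / 24 + τ ^ 2 / 256 := by nlinarith
      rw [hsv, mul_pow]
      have h6 : s ^ (n + 1) * (1 + v) ^ (n + 1) ≤ s ^ (n + 1) * (1 + π' / 24 + τ ^ 2 / 256) :=
        mul_le_mul_of_nonneg_left hfin (by positivity)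
      have h7 : s ^ (n + 1) * (1 + π' / 24 + τ ^ 2 / 256) =
        s ^ (n + 1) + 1 / 24 * s ^ n * P + 1 / 256 * s ^ n * T := by
        rw [hP', hT']; ring
      have h8 : 0 ≤ (T / 64) ^ (n + 1) := by positivity
      linarith
  · push Not at hcase
    have hT0 : 0 < T := by linarith
    have hPT : |P| ≤ T / 16 := by
      have h1 : P ^ 2 ≤ (T / 16) ^ 2 := by
        calc P ^ 2 ≤ s * T := hP
          _ ≤ (T / 256) * T := by
              apply mul_le_mul_of_nonneg_right _ hT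
              linarith
          _ = (T / 16) ^ 2 := by ring
      exact abs_le_of_sq_le_sq h1 (by positivity)
    have hP1 := (abs_le.mp hPT).1
    have hP2 := (abs_le.mp hPT).2
    have hb : s + 2 * ρ * P + ρ ^ 2 * T ≤ T / 64 := by
      have e1 : 2 * ρ * P ≤ 2 * (1 / 48) * (T / 16) := by
        calc 2 * ρ * P ≤ 2 * ρ * (T / 16) := by
              apply mul_le_mul_of_nonneg_left hP2 (by positivity)
          _ ≤ 2 * (1 / 48) * (T / 16) := by
              apply mul_le_mul_of_nonneg_right _ (by positivity)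
              linarith
      have e2 : ρ ^ 2 * T ≤ (1 / 48) ^ 2 * T := by
        apply mul_le_mul_of_nonneg_right _ hT
        exact pow_le_pow_left₀ hρ0.le hρ1 2
      have e3 : s ≤ T / 256 := by linarith
      nlinarith
    have h1 : (s + 2 * ρ * P + ρ ^ 2 * T) ^ (n + 1) ≤ (T / 64) ^ (n + 1) :=
      pow_le_pow_left₀ hbase hb _
    have h2 : 0 ≤ s ^ n * (1 / 24 * P + 1 / 256 * T) := by
      apply mul_nonneg (by positivity)
      linarith
    have h3 : 0 ≤ s ^ (n + 1) := by positivity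
    nlinarith

/-- one-coordinate inequality, vector valued (vectors = functions on a finite type `κ`) -/
theorem hc_one {κ Ω : Type} [Fintype κ] [Fintype Ω] [Nonempty Ω] (m : ℕ) (hm : 1 ≤ m)
    (a : κ → ℝ) (X : Ω → κ → ℝ) (hX : ∀ j, ∑ t, X t j = 0) :
    (∑ t, (∑ j, (a j + 1 / (48 * m) * X t j) ^ 2) ^ m) / Fintype.card Ω ≤
      (∑ j, a j ^ 2 + 1 / (256 * m) * ((∑ t, ∑ j, X t j ^ 2) / Fintype.card Ω)) ^ m +
        (1 / 8) ^ (2 * m) * ((∑ t, (∑ j, X t j ^ 2) ^ m) / Fintype.card Ω) := by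
  obtain ⟨n, rfl⟩ : ∃ n, m = n + 1 := ⟨m - 1, by omega⟩
  set c : ℝ := (Fintype.card Ω : ℝ) with hc
  have hc0 : 0 < c := by
    rw [hc]
    exact_mod_cast Fintype.card_pos
  set s : ℝ := ∑ j, a j ^ 2 with hs
  have hs0 : 0 ≤ s := Finset.sum_nonneg fun j _ => sq_nonneg _
  set T : Ω → ℝ := fun t => ∑ j, X t j ^ 2 with hT
  have hT0 : ∀ t, 0 ≤ T t := fun t => Finset.sum_nonneg fun j _ => sq_nonneg _
  set P : Ω → ℝ := fun t => ∑ j, a j * X t j with hP
  have hPs : ∀ t, P t ^ 2 ≤ s * T t := fun t => Finset.sum_mul_sq_le_sq_mul_sq _ _ _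
  have hPsum : ∑ t, P t = 0 := by
    rw [hP]
    simp only
    rw [Finset.sum_comm]
    apply Finset.sum_eq_zero
    intro j _
    rw [← Finset.mul_sum, hX j, mul_zero]
  have hexp : ∀ t, ∑ j, (a j + 1 / (48 * ((n + 1 : ℕ) : ℝ)) * X t j) ^ 2 =
      s + 2 * (1 / (48 * ((n : ℝ) + 1))) * P t + (1 / (48 * ((n : ℝ) + 1))) ^ 2 * T t := by
    intro t
    rw [hs, hP, hT]
    simp only
    rw [Finset.mul_sum, Finset.mul_sum, ← Finset.sum_add_distrib, ← Finset.sum_add_distrib]
    apply Finset.sum_congr rfl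
    intro j _
    push_cast
    ring
  have hpt : ∀ t, (∑ j, (a j + 1 / (48 * ((n + 1 : ℕ) : ℝ)) * X t j) ^ 2) ^ (n + 1) ≤
      s ^ (n + 1) + 1 / 24 * s ^ n * P t + 1 / 256 * s ^ n * T t + (T t / 64) ^ (n + 1) := by
    intro t
    rw [hexp t]
    exact hc_point n s (T t) (P t) hs0 (hT0 t) (hPs t)
  have hsum : (∑ t, (∑ j, (a j + 1 / (48 * ((n + 1 : ℕ) : ℝ)) * X t j) ^ 2) ^ (n + 1)) ≤
      c * s ^ (n + 1) + 1 / 256 * s ^ n * (∑ t, T t) + (1 / 64) ^ (n + 1) * ∑ t, T t ^ (n + 1) := by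
    calc _ ≤ ∑ t, (s ^ (n + 1) + 1 / 24 * s ^ n * P t + 1 / 256 * s ^ n * T t +
          (T t / 64) ^ (n + 1)) := Finset.sum_le_sum fun t _ => hpt t
      _ = c * s ^ (n + 1) + 1 / 24 * s ^ n * (∑ t, P t) + 1 / 256 * s ^ n * (∑ t, T t) +
          (1 / 64) ^ (n + 1) * ∑ t, T t ^ (n + 1) := by
          rw [Finset.sum_add_distrib, Finset.sum_add_distrib, Finset.sum_add_distrib,
            ← Finset.mul_sum, ← Finset.mul_sum, Finset.sum_const, Finset.card_univ, nsmul_eq_mul]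
          congr 1
          rw [Finset.mul_sum]
          apply Finset.sum_congr rfl
          intro t _
          rw [← mul_pow]
          congr 1
          ring
      _ = _ := by rw [hPsum]; ring
  have hTbar : 0 ≤ (∑ t, T t) / c := div_nonneg (Finset.sum_nonneg fun t _ => hT0 t) hc0.le
  have hb := hc_bern s (1 / (256 * ((n + 1 : ℕ) : ℝ)) * ((∑ t, T t) / c)) hs0
    (mul_nonneg (by positivity) hTbar) n
  have h8 : (1 / 8 : ℝ) ^ (2 * (n + 1)) = (1 / 64) ^ (n + 1) := by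
    rw [pow_mul]; norm_num
  rw [h8, div_le_iff₀ hc0]
  refine le_trans hsum ?_
  have e1 : (((n : ℝ) + 1) * s ^ n * (1 / (256 * ((n + 1 : ℕ) : ℝ)) * ((∑ t, T t) / c))) * c =
      1 / 256 * s ^ n * (∑ t, T t) := by
    have : ((n : ℝ) + 1) ≠ 0 := by positivity
    push_cast
    field_simp
  have e2 : (1 / 64 : ℝ) ^ (n + 1) * ((∑ t, T t ^ (n + 1)) / c) * c =
      (1 / 64) ^ (n + 1) * ∑ t, T t ^ (n + 1) := by
    field_simp
  calc c * s ^ (n + 1) + 1 / 256 * s ^ n * (∑ t, T t) + (1 / 64) ^ (n + 1) * ∑ t, T t ^ (n + 1)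
      = (s ^ (n + 1) + ((n : ℝ) + 1) * s ^ n * (1 / (256 * ((n + 1 : ℕ) : ℝ)) *
          ((∑ t, T t) / c))) * c + (1 / 64 : ℝ) ^ (n + 1) * ((∑ t, T t ^ (n + 1)) / c) * c := by
        rw [add_mul, e1, e2]; ring
    _ ≤ (s + 1 / (256 * ((n + 1 : ℕ) : ℝ)) * ((∑ t, T t) / c)) ^ (n + 1) * c +
          (1 / 64 : ℝ) ^ (n + 1) * ((∑ t, T t ^ (n + 1)) / c) * c := by
        have := mul_le_mul_of_nonneg_right hb hc0.le
        linarith
    _ = _ := by ring

end Vale.Agent.P042.FS
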