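import Vale.Agent.P042.FS.Weyl

namespace Vale.Agent.P042.FS

open Finset

private lemma wi_three (D : ℝ) (hD : 2 ≤ D) (n : ℕ) : (3 * D) ^ n ≤ D ^ (3 * n) := by
  rw [pow_mul]
  refine pow_le_pow_left₀ (by linarith) ?_ n
  have h4 : 4 ≤ D ^ 2 := by nlinarith
  have : D ^ 3 = D ^ 2 * D := by ring
  rw [this]
  nlinarith

private lemma wi_arith (k : ℕ) (hk : 1 ≤ k) (c : ℕ → ℤ) (G Y : ℕ) (E β : ℝ) (hY : 1 ≤ Y)
    (hck : 0 < c k) (hG : ∀ B : ℕ, (∀ j, 1 ≤ j → j ≤ k → (B : ℤ) ∣ c j) → B ≤ G)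
    (hcY : ∀ j, 1 ≤ j → j ≤ k → (c j) ^ 2 ≤ (Y : ℤ)) (hE : 0 ≤ E) (hEY : 4 * E ^ 2 < Y)
    (h : ∀ j, 1 ≤ j → j ≤ k → ∃ a : ℤ, |β * c j - a| ≤ E / (Y : ℝ) ^ j) :
    ∃ (A : ℤ) (B : ℕ), 1 ≤ B ∧ B ≤ G ∧ |β - (A : ℝ) / B| ≤ E / ((c k : ℝ) * (Y : ℝ) ^ k) := by
  have hY1 : (1 : ℝ) ≤ Y := by exact_mod_cast hY
  have hY0 : (0 : ℝ) < Y := by linarith
  set s : ℝ := Real.sqrt Y with hs
  have hs2 : s * s = Y := Real.mul_self_sqrt hY0.le
  have hs0 : 0 < s := Real.sqrt_pos.mpr hY0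
  have hEs : 2 * E < s := by
    have h1 : (2 * E) ^ 2 < s ^ 2 := by nlinarith
    exact lt_of_pow_lt_pow_left₀ 2 hs0.le h1
  have hcs : ∀ j, 1 ≤ j → j ≤ k → |(c j : ℝ)| ≤ s := by
    intro j h1 h2
    have h3 : ((c j : ℝ)) ^ 2 ≤ (Y : ℝ) := by exact_mod_cast hcY j h1 h2
    exact Real.abs_le_sqrt h3
  have hpow : ∀ j, 1 ≤ j → E / (Y : ℝ) ^ j ≤ E / Y := by
    intro j hj
    apply div_le_div_of_nonneg_left hE hY0
    calc (Y : ℝ) = (Y : ℝ) ^ 1 := (pow_one _).symm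
      _ ≤ (Y : ℝ) ^ j := pow_le_pow_right₀ hY1 hj
  choose! a ha using h
  have hck' : (0 : ℝ) < (c k : ℝ) := by exact_mod_cast hck
  have hprop : ∀ j, 1 ≤ j → j ≤ k → c k * a j = c j * a k := by
    intro j h1 h2
    have e1 := (ha j h1 h2).trans (hpow j h1)
    have e2 := (ha k hk le_rfl).trans (hpow k hk)
    have hlt : |((c k * a j - c j * a k : ℤ) : ℝ)| < 1 := by
      have hid : ((c k * a j - c j * a k : ℤ) : ℝ) =
          (c j : ℝ) * (β * c k - a k) - (c k : ℝ) * (β * c j - a j) := by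
        push_cast; ring
      rw [hid]
      have h3 : |(c j : ℝ) * (β * c k - a k)| ≤ s * (E / Y) := by
        rw [abs_mul]
        exact mul_le_mul (hcs j h1 h2) e2 (abs_nonneg _) hs0.le
      have h4 : |(c k : ℝ) * (β * c j - a j)| ≤ s * (E / Y) := by
        rw [abs_mul]
        exact mul_le_mul (hcs k hk le_rfl) e1 (abs_nonneg _) hs0.le
      have h5 : s * (E / Y) + s * (E / Y) < 1 := by
        have : s * (E / Y) + s * (E / Y) = 2 * E / s := by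
          rw [← hs2]; field_simp; ring
        rw [this, div_lt_one hs0]
        exact hEs
      calc _ ≤ |(c j : ℝ) * (β * c k - a k)| + |(c k : ℝ) * (β * c j - a j)| := abs_sub _ _
        _ < 1 := by linarith
    have hz : |c k * a j - c j * a k| < 1 := by exact_mod_cast hlt
    have : c k * a j - c j * a k = 0 := Int.abs_lt_one_iff.mp hz
    linarith
  -- lowest terms
  set g : ℕ := Int.gcd (a k) (c k) with hg
  have hg0 : 0 < g := Int.gcd_pos_of_ne_zero_right _ hck.ne'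
  obtain ⟨A, hA⟩ : (g : ℤ) ∣ a k := Int.gcd_dvd_left _ _
  obtain ⟨B, hB⟩ : (g : ℤ) ∣ c k := Int.gcd_dvd_right _ _
  have hgz : (0 : ℤ) < g := by exact_mod_cast hg0
  have hBpos : 0 < B := by
    rw [hB] at hck
    exact (mul_pos_iff_of_pos_left hgz).mp hck
  have hcop : IsCoprime B A := by
    have h1 : Int.gcd A B = 1 := by
      have h2 : Int.gcd (a k) (c k) = g * Int.gcd A B := by
        rw [hA, hB, Int.gcd_mul_left]
        simp
      rw [← hg] at h2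
      have h3 : g * 1 = g * Int.gcd A B := by rw [mul_one]; exact h2
      exact (Nat.eq_of_mul_eq_mul_left hg0 h3).symm
    exact (Int.isCoprime_iff_gcd_eq_one.mpr h1).symm
  have hdiv : ∀ j, 1 ≤ j → j ≤ k → B ∣ c j := by
    intro j h1 h2
    have h3 := hprop j h1 h2
    have h4 : B * a j = A * c j := by
      have h5 : (g : ℤ) * (B * a j) = g * (A * c j) := by
        calc (g : ℤ) * (B * a j) = (g * B) * a j := by ring
          _ = c k * a j := by rw [← hB]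
          _ = c j * a k := h3
          _ = c j * (g * A) := by rw [← hA]
          _ = g * (A * c j) := by ring
      exact mul_left_cancel₀ hgz.ne' h5
    have h6 : B ∣ A * c j := ⟨a j, h4.symm⟩
    exact hcop.dvd_of_dvd_mul_left h6
  have hBnat : ((B.toNat : ℕ) : ℤ) = B := Int.toNat_of_nonneg hBpos.le
  refine ⟨A, B.toNat, ?_, ?_, ?_⟩
  · have : (1 : ℤ) ≤ (B.toNat : ℤ) := by rw [hBnat]; exact hBpos
    exact_mod_cast this
  · apply hG
    intro j h1 h2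
    rw [hBnat]
    exact hdiv j h1 h2
  · have hBR : ((B.toNat : ℕ) : ℝ) = (B : ℝ) := by
      have h7 : (((B.toNat : ℕ) : ℤ) : ℝ) = (B : ℝ) := congrArg (fun z : ℤ => (z : ℝ)) hBnat
      rw [← h7, Int.cast_natCast]
    rw [hBR]
    have hBR0 : (0 : ℝ) < B := by exact_mod_cast hBpos
    have hgR : (0 : ℝ) < (g : ℝ) := by exact_mod_cast hg0
    have hAk : (a k : ℝ) = (g : ℝ) * A := by
      have : ((a k : ℤ) : ℝ) = (((g : ℤ) * A : ℤ) : ℝ) := by rw [hA]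
      rw [this]; push_cast; ring
    have hCk : (c k : ℝ) = (g : ℝ) * B := by
      have : ((c k : ℤ) : ℝ) = (((g : ℤ) * B : ℤ) : ℝ) := by rw [hB]
      rw [this]; push_cast; ring
    have hfrac : (A : ℝ) / B = (a k : ℝ) / c k := by
      rw [hAk, hCk]; field_simp
    rw [hfrac]
    have h1 : β - (a k : ℝ) / c k = (β * c k - a k) / c k := by field_simp
    rw [h1, abs_div, abs_of_pos hck']
    have h2 := ha k hk le_rfl
    rw [div_le_div_iff₀ hck' (mul_pos hck' (pow_pos hY0 k))]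
    rw [le_div_iff₀ (pow_pos hY0 k)] at h2
    nlinarith

theorem weyl_int (k : ℕ) (hk : 1 ≤ k) : ∃ C : ℕ, 8 ≤ C ∧ WeylC k C := by
  obtain ⟨C₀, hC₀, hW⟩ := weyl_inverse k hk
  refine ⟨6 * C₀ + 8, by omega, ?_⟩
  intro c G Y δ θ hY hck hG hcY hδ hδ2 hCY hsum
  have hY1 : (1 : ℝ) ≤ Y := by exact_mod_cast hY
  have hY0 : (0 : ℝ) < Y := by linarith
  have hD : 2 ≤ 1 / δ := by
    rw [le_div_iff₀ hδ]; linarith
  have hD0 : (0 : ℝ) < 1 / δ := by linarith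
  have hD1 : (1 : ℝ) ≤ 1 / δ := by linarith
  -- apply the real inverse theorem
  have hsum' : δ / 3 * ((3 * Y : ℕ) : ℝ) ≤
      ‖∑ n ∈ Ico (Y + 1) (2 * Y + 1), ee (∑ j ∈ range (k + 1), (θ * c j) * (n : ℝ) ^ j)‖ := by
    have h1 : δ / 3 * ((3 * Y : ℕ) : ℝ) = δ * Y := by push_cast; ring
    rw [h1]
    refine hsum.trans (le_of_eq ?_)
    congr 1
    have hset : Ioc Y (2 * Y) = Ico (Y + 1) (2 * Y + 1) := by
      ext n; simp only [mem_Ioc, mem_Ico]; omega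
    rw [hset]
    refine sum_congr rfl (fun n _ => ?_)
    congr 1
    unfold pv
    push_cast
    rw [mul_sum]
    exact sum_congr rfl (fun j _ => by ring)
  obtain ⟨q', hq1, hqE, hj⟩ := hW (fun j => θ * c j) (3 * Y) (Y + 1) (2 * Y + 1) (δ / 3)
    (by omega) (by linarith) (by linarith) (by omega) hsum'
  have h3D : 1 / (δ / 3) = 3 * (1 / δ) := by field_simp
  rw [h3D] at hqE
  set E : ℝ := (3 * (1 / δ)) ^ C₀ with hE
  have hE1 : 1 ≤ E := one_le_pow₀ (by linarith)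
  have hE0 : 0 ≤ E := by linarith
  have hED : E ≤ (1 / δ) ^ (3 * C₀) := wi_three _ hD _
  have hEC : E ≤ (1 / δ) ^ (6 * C₀ + 8) := hED.trans (pow_le_pow_right₀ hD1 (by omega))
  have hEY : 4 * E ^ 2 < Y := by
    have h1 : E ^ 2 ≤ (1 / δ) ^ (6 * C₀) := by
      calc E ^ 2 ≤ ((1 / δ) ^ (3 * C₀)) ^ 2 := pow_le_pow_left₀ hE0 hED 2
        _ = (1 / δ) ^ (6 * C₀) := by rw [← pow_mul]; congr 1; ring
    have h2 : (2 : ℝ) ^ 8 ≤ (1 / δ) ^ 8 := pow_le_pow_left₀ (by norm_num) hD 8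
    have h3 : (1 / δ) ^ (6 * C₀ + 8) = (1 / δ) ^ (6 * C₀) * (1 / δ) ^ 8 := pow_add _ _ _
    have h4 : (1 : ℝ) ≤ (1 / δ) ^ (6 * C₀) := one_le_pow₀ hD1
    rw [h3] at hCY
    have h5 : (1 / δ) ^ (6 * C₀) * 2 ^ 8 ≤ (1 / δ) ^ (6 * C₀) * (1 / δ) ^ 8 :=
      mul_le_mul_of_nonneg_left h2 (by linarith)
    have h6 : (1 / δ) ^ (6 * C₀) * 2 ^ 8 ≤ Y := h5.trans hCY
    linarith
  have hj' : ∀ j, 1 ≤ j → j ≤ k → ∃ a : ℤ, |((q' : ℝ) * θ) * c j - a| ≤ E / (Y : ℝ) ^ j := by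
    intro j h1 h2
    obtain ⟨a, ha⟩ := hj j h1 h2
    refine ⟨a, ?_⟩
    rw [h3D] at ha
    have h3 : (q' : ℝ) * θ * c j = (q' : ℝ) * (θ * c j) := by ring
    rw [h3]
    refine ha.trans ?_
    apply div_le_div_of_nonneg_left hE0 (pow_pos hY0 j)
    refine pow_le_pow_left₀ hY0.le ?_ j
    push_cast
    linarith
  obtain ⟨A, B, hB1, hBG, hAB⟩ := wi_arith k hk c G Y E ((q' : ℝ) * θ) hY hck hG hcY hE0 hEY hj'
  have hq0 : (0 : ℝ) < q' := by exact_mod_cast hq1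
  have hq1' : (1 : ℝ) ≤ q' := by exact_mod_cast hq1
  have hB0 : (0 : ℝ) < B := by exact_mod_cast hB1
  have hck' : (0 : ℝ) < (c k : ℝ) := by exact_mod_cast hck
  refine ⟨B * q', A, Nat.mul_pos hB1 hq1, ?_, ?_⟩
  · push_cast
    exact mul_le_mul (by exact_mod_cast hBG) (hqE.trans hEC) hq0.le (by positivity)
  · push_cast
    have h1 : θ - (A : ℝ) / (B * q') = ((q' : ℝ) * θ - A / B) / q' := by field_simp
    rw [h1, abs_div, abs_of_pos hq0]
    have h2 : |(q' : ℝ) * θ - A / B| / q' ≤ |(q' : ℝ) * θ - A / B| :=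
      div_le_self (abs_nonneg _) hq1'
    refine h2.trans (hAB.trans ?_)
    exact div_le_div_of_nonneg_right hEC (mul_pos hck' (pow_pos hY0 k)).le

end Vale.Agent.P042.FS
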