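import Vale.Agent.P042.FS.OneStep
import Vale.Agent.P042.FS.WeylInt

namespace Vale.Agent.P042.FS

open Finset

theorem it_log_fac (y : ℕ) (hy : 1 ≤ y) : Real.log (y.factorial : ℝ) ≤ (y : ℝ) ^ 2 := by
  have hy0 : (0 : ℝ) < y := by exact_mod_cast hy
  have h1 : ((y.factorial : ℕ) : ℝ) ≤ ((y ^ y : ℕ) : ℝ) := by
    exact_mod_cast Nat.factorial_le_pow y
  have h2 : Real.log (y.factorial : ℝ) ≤ Real.log ((y ^ y : ℕ) : ℝ) :=
    Real.log_le_log (by exact_mod_cast Nat.factorial_pos y) h1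
  refine le_trans h2 ?_
  rw [Nat.cast_pow, Real.log_pow, sq]
  apply mul_le_mul_of_nonneg_left _ hy0.le
  have := Real.log_le_sub_one_of_pos hy0
  linarith

theorem it_log_Q (C G L : ℕ) (hG : 1 ≤ G) (hL : 1 ≤ L) :
    Real.log (Qi C G (2 * L + 4)) ≤ ((G : ℝ) + 7 * C) * L := by
  have hG0 : (0 : ℝ) < G := by exact_mod_cast hG
  have hL1 : (1 : ℝ) ≤ L := by exact_mod_cast hL
  have hC0 : (0 : ℝ) ≤ C := Nat.cast_nonneg C
  unfold Qi
  rw [Nat.cast_mul, Real.log_mul hG0.ne' (by positivity), Nat.cast_pow, Real.log_pow]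
  have h1 : Real.log G ≤ G := by
    have := Real.log_le_sub_one_of_pos hG0
    linarith
  have h2 : Real.log ((2 : ℕ) : ℝ) ≤ 1 := by
    have := Real.log_two_lt_d9
    push_cast
    linarith
  have h3 : ((C * (2 * L + 4 + 1) : ℕ) : ℝ) * Real.log ((2 : ℕ) : ℝ) ≤
      ((C * (2 * L + 4 + 1) : ℕ) : ℝ) * 1 := mul_le_mul_of_nonneg_left h2 (Nat.cast_nonneg _)
  push_cast at h3 ⊢
  have h4 : (G : ℝ) ≤ G * L := by nlinarith
  have h5 : (C : ℝ) ≤ C * L := by nlinarith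
  nlinarith

/-- the size of one step is quasi-polynomial -/
theorem log_PP (C : ℕ) (hC : 8 ≤ C) (G : ℕ) (hG : 1 ≤ G) : ∃ C₁ : ℝ, 0 < C₁ ∧
    ∀ L : ℕ, 1 ≤ L → Real.log (PP C G L) ≤ C₁ * (L : ℝ) ^ (4 * C + 4) := by
  have hG0 : (0 : ℝ) < G := by exact_mod_cast hG
  have hC8 : (8 : ℝ) ≤ C := by exact_mod_cast hC
  refine ⟨((G : ℝ) ^ 2 * (10 ^ 7) ^ (2 * C)) ^ 2 +
    ((70 : ℝ) * C + 10 * G + 20) * (G + 7 * C), by positivity, ?_⟩
  intro L hL
  have hL1 : (1 : ℝ) ≤ L := by exact_mod_cast hL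
  have hL0 : (0 : ℝ) < L := by linarith
  have hQ1 := os_Q_pos C G (2 * L + 4) hG
  have hQ0 : (0 : ℝ) < Qi C G (2 * L + 4) := by exact_mod_cast hQ1
  have hy1 : 1 ≤ y0 C G L := by
    unfold y0
    apply Nat.mul_pos (by positivity)
    positivity
  have h1 := it_log_fac (y0 C G L) hy1
  have h2 := it_log_Q C G L hG hL
  have hfac0 : (0 : ℝ) < ((y0 C G L).factorial : ℝ) := by exact_mod_cast Nat.factorial_pos _
  have hPP : Real.log (PP C G L) = Real.log ((y0 C G L).factorial : ℝ) +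
      ((10 * L * DD C G L + 20 : ℕ) : ℝ) * Real.log (Qi C G (2 * L + 4)) := by
    unfold PP
    rw [Nat.cast_mul, Real.log_mul hfac0.ne' (by positivity), Nat.cast_pow, Real.log_pow]
  rw [hPP]
  have hexp : ((10 * L * DD C G L + 20 : ℕ) : ℝ) ≤ ((70 : ℝ) * C + 10 * G + 20) * L ^ 2 := by
    unfold DD
    push_cast
    have h4 : (G : ℝ) * L ≤ G * L ^ 2 := by
      apply mul_le_mul_of_nonneg_left _ hG0.le
      nlinarith
    have h5 : (C : ℝ) * L ≤ C * L ^ 2 := by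
      apply mul_le_mul_of_nonneg_left _ (by linarith)
      nlinarith
    have h6 : (1 : ℝ) ≤ L ^ 2 := one_le_pow₀ hL1
    nlinarith
  have hlogQ0 : 0 ≤ Real.log (Qi C G (2 * L + 4)) :=
    Real.log_nonneg (by exact_mod_cast hQ1)
  have h3 : ((10 * L * DD C G L + 20 : ℕ) : ℝ) * Real.log (Qi C G (2 * L + 4)) ≤
      (((70 : ℝ) * C + 10 * G + 20) * L ^ 2) * (((G : ℝ) + 7 * C) * L) :=
    mul_le_mul hexp h2 hlogQ0 (by positivity)
  have hy : ((y0 C G L : ℕ) : ℝ) ^ 2 = ((G : ℝ) ^ 2 * (10 ^ 7) ^ (2 * C)) ^ 2 * L ^ (4 * C) := by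
    unfold y0
    push_cast
    ring
  rw [hy] at h1
  have h7 : (L : ℝ) ^ (4 * C) ≤ L ^ (4 * C + 4) := pow_le_pow_right₀ hL1 (by omega)
  have h8 : (L : ℝ) ^ 3 ≤ L ^ (4 * C + 4) := pow_le_pow_right₀ hL1 (by omega)
  have h9 : ((G : ℝ) ^ 2 * (10 ^ 7) ^ (2 * C)) ^ 2 * L ^ (4 * C) ≤
      ((G : ℝ) ^ 2 * (10 ^ 7) ^ (2 * C)) ^ 2 * L ^ (4 * C + 4) :=
    mul_le_mul_of_nonneg_left h7 (by positivity)
  have h10 : ((70 : ℝ) * C + 10 * G + 20) * (G + 7 * C) * L ^ 3 ≤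
      ((70 : ℝ) * C + 10 * G + 20) * (G + 7 * C) * L ^ (4 * C + 4) :=
    mul_le_mul_of_nonneg_left h8 (by positivity)
  have e : (((70 : ℝ) * C + 10 * G + 20) * L ^ 2) * (((G : ℝ) + 7 * C) * L) =
      ((70 : ℝ) * C + 10 * G + 20) * (G + 7 * C) * L ^ 3 := by ring
  rw [e] at h3
  linarith

theorem it_growth (L : ℕ) : Real.exp (L : ℝ) ≤ (1 + 1 / 3000 : ℝ) ^ (3001 * L) := by
  have h1 : Real.exp (1 / 3001 : ℝ) ≤ 1 + 1 / 3000 := by
    have h2 := Real.add_one_le_exp (-(1 / 3001) : ℝ)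
    rw [Real.exp_neg] at h2
    have h3 : (3000 / 3001 : ℝ) ≤ (Real.exp (1 / 3001))⁻¹ := by linarith
    have h4 := inv_anti₀ (by norm_num) h3
    rw [inv_inv] at h4
    refine le_trans h4 ?_
    norm_num
  calc Real.exp (L : ℝ) = Real.exp (1 / 3001 : ℝ) ^ (3001 * L) := by
        rw [← Real.exp_nat_mul]
        congr 1
        push_cast
        ring
    _ ≤ _ := pow_le_pow_left₀ (Real.exp_pos _).le h1 _

/-- iteration -/
theorem it_iter (k G Cc n₀ : ℕ) (sys : Sys k G Cc) (P E L T : ℕ) (hP : 1 ≤ P)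
    (hstep : ∀ (d N : ℕ) (_ : 1 ≤ d) (A : Finset ℤ) (α : ℝ),
      (∀ x ∈ A, 0 ≤ x ∧ x < N) → Avoid k (sys.c d) n₀ A → Real.exp (-(L : ℝ)) ≤ α →
      (A.card : ℝ) = α * N → (E * d * P) ^ E ≤ N →
      ∃ (q N' : ℕ) (A' : Finset ℤ), 1 ≤ q ∧ q ≤ P ∧ 1 ≤ N' ∧ N ≤ N' * P ^ E ∧
        (∀ x ∈ A', 0 ≤ x ∧ x < N') ∧ Avoid k (sys.c (d * q)) n₀ A' ∧
        (1 + 1 / 3000) * α * N' ≤ A'.card)
    (N : ℕ) (A : Finset ℤ) (hN : 1 ≤ N) (hA : ∀ x ∈ A, 0 ≤ x ∧ x < N)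
    (hav : Avoid k (sys.c 1) n₀ A) (hd : Real.exp (-(L : ℝ)) * N ≤ A.card)
    (hbig : (E * P ^ (T + 1)) ^ E * P ^ (E * T) ≤ N) (t : ℕ) (ht : t ≤ T + 1) :
    ∃ (d N' : ℕ) (A' : Finset ℤ), 1 ≤ d ∧ d ≤ P ^ t ∧ 1 ≤ N' ∧ N ≤ N' * P ^ (E * t) ∧
      (∀ x ∈ A', 0 ≤ x ∧ x < N') ∧ Avoid k (sys.c d) n₀ A' ∧
      (1 + 1 / 3000) ^ t * Real.exp (-(L : ℝ)) * N' ≤ A'.card := by
  induction t with
  | zero =>
    refine ⟨1, N, A, le_rfl, by simp, hN, by simp, hA, hav, ?_⟩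
    rw [pow_zero, one_mul]
    exact hd
  | succ t ih =>
    obtain ⟨d, N', A', hd1, hdP, hN1, hNN, hA', hav', hc'⟩ := ih (by omega)
    have hN0 : (0 : ℝ) < N' := by exact_mod_cast hN1
    have hpowpos : 0 < P ^ (E * t) := pow_pos hP _
    have hbig' : (E * d * P) ^ E ≤ N' := by
      have h1 : (E * P ^ (T + 1)) ^ E * P ^ (E * t) ≤ N' * P ^ (E * t) := by
        refine le_trans ?_ hNN
        refine le_trans ?_ hbig
        apply Nat.mul_le_mul_left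
        exact Nat.pow_le_pow_right hP (Nat.mul_le_mul_left _ (by omega))
      have h2 := Nat.le_of_mul_le_mul_right h1 hpowpos
      refine le_trans ?_ h2
      apply Nat.pow_le_pow_left
      calc E * d * P = E * (d * P) := by ring
        _ ≤ E * (P ^ T * P) := by
          apply Nat.mul_le_mul_left
          apply Nat.mul_le_mul_right
          exact le_trans hdP (Nat.pow_le_pow_right hP (by omega))
        _ = E * P ^ (T + 1) := by ring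
    have hα : (A'.card : ℝ) = (A'.card / N') * N' := by field_simp
    have hg : (1 : ℝ) ≤ (1 + 1 / 3000) ^ t := one_le_pow₀ (by norm_num)
    have hαL' : (1 + 1 / 3000) ^ t * Real.exp (-(L : ℝ)) ≤ (A'.card : ℝ) / N' := by
      rw [le_div_iff₀ hN0]
      exact hc'
    have hαL : Real.exp (-(L : ℝ)) ≤ (A'.card : ℝ) / N' := by
      refine le_trans ?_ hαL'
      have := Real.exp_pos (-(L : ℝ))
      nlinarith
    obtain ⟨q, N'', A'', hq1, hqP, hN1', hNN', hA'', hav'', hc''⟩ :=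
      hstep d N' hd1 A' _ hA' hav' hαL hα hbig'
    refine ⟨d * q, N'', A'', Nat.mul_pos hd1 hq1, ?_, hN1', ?_, hA'', hav'', ?_⟩
    · rw [pow_succ]
      exact Nat.mul_le_mul hdP hqP
    · calc N ≤ N' * P ^ (E * t) := hNN
        _ ≤ N'' * P ^ E * P ^ (E * t) := Nat.mul_le_mul_right _ hNN'
        _ = N'' * P ^ (E * (t + 1)) := by ring
    · refine le_trans ?_ hc''
      have hN0' : (0 : ℝ) ≤ N'' := Nat.cast_nonneg _
      calc (1 + 1 / 3000 : ℝ) ^ (t + 1) * Real.exp (-(L : ℝ)) * N''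
          = (1 + 1 / 3000) * ((1 + 1 / 3000) ^ t * Real.exp (-(L : ℝ))) * N'' := by ring
        _ ≤ _ := by
          apply mul_le_mul_of_nonneg_right _ hN0'
          exact mul_le_mul_of_nonneg_left hαL' (by norm_num)

theorem it_card (N : ℕ) (A : Finset ℤ) (hA : ∀ x ∈ A, 0 ≤ x ∧ x < N) : A.card ≤ N := by
  have h1 : A ⊆ Ico (0 : ℤ) N := by
    intro x hx
    rw [mem_Ico]
    exact hA x hx
  have h2 := card_le_card h1
  simpa using h2

/-- main theorem for systems of auxiliary polynomials -/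
theorem main_sys (k : ℕ) (hk : 1 ≤ k) : ∃ B : ℕ, 1 ≤ B ∧ ∀ (G Cc n₀ : ℕ) (sys : Sys k G Cc),
    ∃ C₀ : ℝ, 0 < C₀ ∧ ∀ (N : ℕ) (A : Finset ℤ), (∀ x ∈ A, 0 ≤ x ∧ x < N) →
      Avoid k (sys.c 1) n₀ A → ∀ L : ℕ, 1 ≤ L →
      Real.exp (-(L : ℝ)) * N ≤ A.card → Real.log N ≤ C₀ * (L : ℝ) ^ B := by
  obtain ⟨C, hC, hW⟩ := weyl_int k hk
  refine ⟨4 * C + 5, by omega, ?_⟩
  intro G Cc n₀ sys
  have hG : 1 ≤ G := sys.cont 1 le_rfl 1 (fun j _ _ => by simp)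
  obtain ⟨E, hE, hone⟩ := one_step k hk C hC hW G Cc n₀ hG sys
  obtain ⟨C₁, hC₁, hlog⟩ := log_PP C hC G hG
  have hE0 : (0 : ℝ) < E := by exact_mod_cast hE
  refine ⟨(E : ℝ) ^ 2 + 6003 * E * C₁, by positivity, ?_⟩
  intro N A hA hav L hL hd
  have hL1 : (1 : ℝ) ≤ L := by exact_mod_cast hL
  rcases Nat.eq_zero_or_pos N with h0 | hN
  · subst h0
    simp only [Nat.cast_zero, Real.log_zero]
    positivity
  obtain ⟨P, hP⟩ : ∃ P, P = PP C G L := ⟨_, rfl⟩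
  have hP2 : 2 ≤ P := hP ▸ os_two_le_PP C G L hC hG
  have hstep := hone L hL
  have hlogP := hlog L hL
  rw [← hP] at hstep hlogP
  have hlt : N < (E * P ^ (3001 * L + 1)) ^ E * P ^ (E * (3001 * L)) := by
    by_contra hcon
    push Not at hcon
    obtain ⟨d, N', A', _, _, hN1, _, hA', _, hc'⟩ := it_iter k G Cc n₀ sys P E L (3001 * L)
      (by omega) hstep N A hN hA hav hd hcon (3001 * L + 1) le_rfl
    have h1 : ((A'.card : ℕ) : ℝ) ≤ (N' : ℝ) := by exact_mod_cast it_card N' A' hA'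
    have hN0 : (0 : ℝ) < N' := by exact_mod_cast hN1
    have h2 := it_growth L
    have h3 : (1 : ℝ) ≤ (1 + 1 / 3000) ^ (3001 * L) * Real.exp (-(L : ℝ)) := by
      rw [Real.exp_neg, ← div_eq_mul_inv, le_div_iff₀ (Real.exp_pos _), one_mul]
      exact h2
    have h4 : (1 + 1 / 3000 : ℝ) * N' ≤
        (1 + 1 / 3000) ^ (3001 * L + 1) * Real.exp (-(L : ℝ)) * N' := by
      have e : (1 + 1 / 3000 : ℝ) ^ (3001 * L + 1) * Real.exp (-(L : ℝ)) * N' =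
        ((1 + 1 / 3000) * ((1 + 1 / 3000 : ℝ) ^ (3001 * L) * Real.exp (-(L : ℝ)))) * N' := by
        ring
      rw [e]
      apply mul_le_mul_of_nonneg_right _ hN0.le
      linarith
    have h5 : (1 + 1 / 3000 : ℝ) * N' ≤ N' := le_trans h4 (le_trans hc' h1)
    linarith
  have hN0 : (0 : ℝ) < N := by exact_mod_cast hN
  have hP0 : (0 : ℝ) < P := by
    have : 0 < P := by omega
    exact_mod_cast this
  have hlt' : (N : ℝ) ≤ ((E : ℝ) * (P : ℝ) ^ (3001 * L + 1)) ^ E * (P : ℝ) ^ (E * (3001 * L)) := by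
    exact_mod_cast hlt.le
  have h1 := Real.log_le_log hN0 hlt'
  rw [Real.log_mul (by positivity) (by positivity), Real.log_pow, Real.log_pow,
    Real.log_mul hE0.ne' (by positivity), Real.log_pow] at h1
  have h2 : Real.log E ≤ E := by
    have := Real.log_le_sub_one_of_pos hE0
    linarith
  have hpow : (L : ℝ) ^ (4 * C + 5) = L * L ^ (4 * C + 4) := by ring
  have hpow1 : (1 : ℝ) ≤ (L : ℝ) ^ (4 * C + 5) := one_le_pow₀ hL1
  have hpow2 : (1 : ℝ) ≤ (L : ℝ) ^ (4 * C + 4) := one_le_pow₀ hL1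
  refine le_trans h1 ?_
  push_cast
  have h3 : (E : ℝ) * ((Real.log E) + (3001 * L + 1) * Real.log P) +
      E * (3001 * L) * Real.log P = E * Real.log E + (E * (6002 * L + 1)) * Real.log P := by ring
  rw [h3]
  have h4 : (E * (6002 * L + 1)) * Real.log P ≤
      (E * (6002 * L + 1)) * (C₁ * (L : ℝ) ^ (4 * C + 4)) :=
    mul_le_mul_of_nonneg_left hlogP (by positivity)
  have h5 : (E * (6002 * L + 1)) * (C₁ * (L : ℝ) ^ (4 * C + 4)) ≤
      (E * (6003 * L)) * (C₁ * (L : ℝ) ^ (4 * C + 4)) := by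
    apply mul_le_mul_of_nonneg_right _ (by positivity)
    apply mul_le_mul_of_nonneg_left _ hE0.le
    linarith
  have h6 : (E : ℝ) * Real.log E ≤ E ^ 2 * (L : ℝ) ^ (4 * C + 5) := by
    have h7 : (E : ℝ) * Real.log E ≤ E * E := mul_le_mul_of_nonneg_left h2 hE0.le
    have h8 : (E : ℝ) ^ 2 * 1 ≤ E ^ 2 * (L : ℝ) ^ (4 * C + 5) :=
      mul_le_mul_of_nonneg_left hpow1 (by positivity)
    nlinarith
  calc (E : ℝ) * Real.log E + (E * (6002 * L + 1)) * Real.log P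
      ≤ E ^ 2 * (L : ℝ) ^ (4 * C + 5) + (E * (6003 * L)) * (C₁ * (L : ℝ) ^ (4 * C + 4)) := by
        linarith
    _ = ((E : ℝ) ^ 2 + 6003 * E * C₁) * (L : ℝ) ^ (4 * C + 5) := by rw [hpow]; ring

end Vale.Agent.P042.FS
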