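import Vale.Agent.P042.FS.Step

namespace Vale.Agent.P042.FS

open Finset

/-- choice of the scale `Y` -/
theorem os_scale (k W N Y₀ : ℕ) (hk : 1 ≤ k) (hW : 1 ≤ W) (hY₀ : 1 ≤ Y₀) (h : W * Y₀ ^ k ≤ N) :
    ∃ Y : ℕ, Y₀ ≤ Y ∧ W * Y ^ k ≤ N ∧ N < W * (2 ^ k * Y ^ k) := by
  classical
  have hle : ∀ Y : ℕ, W * Y ^ k ≤ N → Y ≤ N := by
    intro Y hY
    calc Y = 1 * Y ^ 1 := by ring
      _ ≤ W * Y ^ k := by
        rcases Nat.eq_zero_or_pos Y with h0 | h0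
        · subst h0; simp
        · exact Nat.mul_le_mul hW (Nat.pow_le_pow_right h0 hk)
      _ ≤ N := hY
  set Y := Nat.findGreatest (fun Y => W * Y ^ k ≤ N) N with hYdef
  have h1 : W * Y ^ k ≤ N := by
    have := Nat.findGreatest_spec (P := fun Y => W * Y ^ k ≤ N) (hle Y₀ h) h
    exact this
  have h2 : Y₀ ≤ Y := Nat.le_findGreatest (hle Y₀ h) h
  refine ⟨Y, h2, h1, ?_⟩
  by_contra hcon
  push Not at hcon
  have h3 : W * (Y + 1) ^ k ≤ N := by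
    refine le_trans ?_ hcon
    rw [← mul_pow]
    exact Nat.mul_le_mul_left _ (Nat.pow_le_pow_left (by omega) k)
  have h4 : Y + 1 ≤ Y := Nat.le_findGreatest (P := fun Y => W * Y ^ k ≤ N) (hle _ h3) h3
  omega

/-- best class modulo a multiple -/
theorem os_class (q lam : ℕ) (hq : 1 ≤ q) (hlam : 1 ≤ lam) (hdvd : q ∣ lam) (B : Finset ℤ) (z : ℤ)
    (hB : ∀ x ∈ B, x ≡ z [ZMOD q]) :
    ∃ z' : ℤ, q * B.card ≤ lam * (B.filter (fun x => x ≡ z' [ZMOD lam])).card := by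
  classical
  by_contra hcon
  push Not at hcon
  obtain ⟨r, rfl⟩ := hdvd
  have hr : 1 ≤ r := by
    rcases Nat.eq_zero_or_pos r with h | h
    · subst h; simp at hlam
    · exact h
  set T : Finset ℤ := (range r).image (fun j : ℕ => z % q + q * (j : ℤ)) with hT
  have hTc : T.card ≤ r := by
    refine le_trans card_image_le ?_
    rw [card_range]
  have hmaps : ∀ x ∈ B, x % ((q * r : ℕ) : ℤ) ∈ T := by
    intro x hx
    have h1 := hB x hx
    have hq0 : (0 : ℤ) < q := by exact_mod_cast hq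
    have hr0 : (0 : ℤ) < r := by exact_mod_cast hr
    have h2 : 0 ≤ x % ((q * r : ℕ) : ℤ) := Int.emod_nonneg _ (by positivity)
    have h3 : x % ((q * r : ℕ) : ℤ) < (q * r : ℕ) := Int.emod_lt_of_pos _ (by positivity)
    have h4 : (x % ((q * r : ℕ) : ℤ)) % q = z % q := by
      rw [Int.emod_emod_of_dvd _ (by push_cast; exact Dvd.intro _ rfl)]
      exact h1
    rw [hT, mem_image]
    refine ⟨((x % ((q * r : ℕ) : ℤ)) / q).toNat, ?_, ?_⟩
    · rw [mem_range]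
      have h5 : (x % ((q * r : ℕ) : ℤ)) / q < r := by
        apply Int.ediv_lt_of_lt_mul hq0
        push_cast at h3 ⊢
        linarith [mul_comm (q : ℤ) r]
      have h6 : 0 ≤ (x % ((q * r : ℕ) : ℤ)) / q := Int.ediv_nonneg h2 hq0.le
      omega
    · have h6 : 0 ≤ (x % ((q * r : ℕ) : ℤ)) / q := Int.ediv_nonneg h2 hq0.le
      rw [Int.toNat_of_nonneg h6, ← h4]
      exact Int.emod_add_mul_ediv _ _
  have hBpos : 0 < B.card := by
    by_contra h0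
    have h0' : B.card = 0 := by omega
    have := hcon 0
    rw [h0'] at this
    simp at this
  have hsum : B.card = ∑ b ∈ T, (B.filter (fun x => x % ((q * r : ℕ) : ℤ) = b)).card :=
    card_eq_sum_card_fiberwise hmaps
  have hfib : ∀ b ∈ T, q * r * (B.filter (fun x => x % ((q * r : ℕ) : ℤ) = b)).card <
      q * B.card := by
    intro b _
    refine lt_of_le_of_lt ?_ (hcon b)
    apply Nat.mul_le_mul_left
    apply card_le_card
    intro x hx
    rw [mem_filter] at hx ⊢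
    refine ⟨hx.1, ?_⟩
    show x % ((q * r : ℕ) : ℤ) = b % ((q * r : ℕ) : ℤ)
    rw [← hx.2, Int.emod_emod_of_dvd _ (dvd_refl _)]
  have hTne : T.Nonempty := by
    obtain ⟨x, hx⟩ := card_pos.mp hBpos
    exact ⟨_, hmaps x hx⟩
  have h7 : q * r * B.card < T.card * (q * B.card) := by
    calc q * r * B.card
        = ∑ b ∈ T, q * r * (B.filter (fun x => x % ((q * r : ℕ) : ℤ) = b)).card := by
          rw [← mul_sum, ← hsum]
      _ < ∑ b ∈ T, q * B.card := sum_lt_sum_of_nonempty hTne hfib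
      _ = T.card * (q * B.card) := by rw [sum_const, smul_eq_mul]
  have h8 : T.card * (q * B.card) ≤ q * r * B.card := by
    calc T.card * (q * B.card) ≤ r * (q * B.card) := Nat.mul_le_mul_right _ hTc
      _ = q * r * B.card := by ring
  omega

/-- rescaling of a class inside a window -/
theorem os_rescale (lam H : ℕ) (hlam : 1 ≤ lam) (B : Finset ℤ) (u z' : ℤ)
    (hB : ∀ x ∈ B, u ≤ x ∧ x < u + H) :
    ∃ (x₀ : ℤ) (A' : Finset ℤ), A'.card = (B.filter (fun x => x ≡ z' [ZMOD lam])).card ∧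
      (∀ m ∈ A', 0 ≤ m ∧ m < ((H / lam + 1 : ℕ) : ℤ)) ∧ ∀ m, m ∈ A' → x₀ + lam * m ∈ B := by
  classical
  have hl0 : (0 : ℤ) < lam := by exact_mod_cast hlam
  set x₀ : ℤ := u + (z' - u) % lam with hx₀
  have hx1 : u ≤ x₀ := by
    have := Int.emod_nonneg (z' - u) hl0.ne'
    omega
  have hx2 : x₀ < u + lam := by
    have := Int.emod_lt_of_pos (z' - u) hl0
    omega
  have hx3 : x₀ ≡ z' [ZMOD lam] := by
    have h1 : (z' - u) % lam ≡ z' - u [ZMOD lam] := Int.mod_modEq _ _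
    have h2 := (Int.ModEq.refl u).add h1 (n := (lam : ℤ))
    have h3 : u + (z' - u) = z' := by ring
    rw [h3] at h2
    exact h2
  set F := B.filter (fun x => x ≡ z' [ZMOD lam]) with hF
  have hdiv : ∀ x ∈ F, (lam : ℤ) ∣ x - x₀ := by
    intro x hx
    rw [hF, mem_filter] at hx
    exact (hx3.trans hx.2.symm).dvd
  have hback : ∀ x ∈ F, x₀ + lam * ((x - x₀) / lam) = x := by
    intro x hx
    rw [Int.mul_ediv_cancel' (hdiv x hx)]
    ring
  refine ⟨x₀, F.image (fun x => (x - x₀) / lam), ?_, ?_, ?_⟩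
  · apply card_image_of_injOn
    intro x hx y hy hxy
    have h1 := hback x hx
    have h2 := hback y hy
    simp only at hxy
    rw [hxy] at h1
    rw [← h1, h2]
  · intro m hm
    rw [mem_image] at hm
    obtain ⟨x, hx, rfl⟩ := hm
    have h1 := hB x (mem_of_mem_filter x hx)
    have h2 := hback x hx
    have h3 : x₀ ≤ x := by
      by_contra hlt
      push Not at hlt
      obtain ⟨t, ht⟩ := hdiv x hx
      have h4 : t < 0 := by
        by_contra h5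
        push Not at h5
        have : 0 ≤ (lam : ℤ) * t := by positivity
        omega
      have h5 : (lam : ℤ) * t ≤ lam * (-1) := by
        apply mul_le_mul_of_nonneg_left _ hl0.le
        omega
      omega
    refine ⟨Int.ediv_nonneg (by omega) hl0.le, ?_⟩
    have h4 : (x - x₀) / (lam : ℤ) ≤ (H : ℤ) / lam := Int.ediv_le_ediv hl0 (by omega)
    push_cast
    omega
  · intro m hm
    rw [mem_image] at hm
    obtain ⟨x, hx, rfl⟩ := hm
    rw [hback x hx]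
    exact mem_of_mem_filter x hx

theorem os_modS_pos (Q y₀ : ℕ) (S : Finset (PI Q)) : 1 ≤ modS Q y₀ S := by
  unfold modS
  have h1 : 0 < y₀.factorial := Nat.factorial_pos _
  have h2 : 0 < ∏ p ∈ S, pN Q p := by
    apply prod_pos
    intro p _
    unfold pN
    have hp := p.2
    rw [mem_filter] at hp
    exact pow_pos hp.2.pos _
  exact Nat.mul_pos h1 h2

theorem os_modS_le (Q y₀ D : ℕ) (hQ : 1 ≤ Q) (S : Finset (PI Q)) (hS : S.card ≤ D) :
    modS Q y₀ S ≤ y₀.factorial * Q ^ D := by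
  unfold modS
  apply Nat.mul_le_mul_left
  calc ∏ p ∈ S, pN Q p ≤ ∏ _p ∈ S, Q := prod_le_prod' fun p _ => pN_le Q p
    _ = Q ^ S.card := by rw [prod_const]
    _ ≤ Q ^ D := Nat.pow_le_pow_right hQ hS

theorem os_Q_pos (C G i : ℕ) (hG : 1 ≤ G) : 1 ≤ Qi C G i := by
  unfold Qi
  exact Nat.mul_pos hG (Nat.pos_of_ne_zero (by positivity))

theorem os_Q_le_PP (C G L : ℕ) (hG : 1 ≤ G) : Qi C G (2 * L + 4) ≤ PP C G L := by
  unfold PP
  calc Qi C G (2 * L + 4) = 1 * Qi C G (2 * L + 4) ^ 1 := by ring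
    _ ≤ _ := Nat.mul_le_mul (Nat.factorial_pos _)
      (Nat.pow_le_pow_right (os_Q_pos C G _ hG) (by omega))

theorem os_two_le_PP (C G L : ℕ) (hC : 8 ≤ C) (hG : 1 ≤ G) : 2 ≤ PP C G L := by
  refine le_trans ?_ (os_Q_le_PP C G L hG)
  unfold Qi
  calc 2 = 1 * 2 ^ 1 := by norm_num
    _ ≤ G * 2 ^ (C * (2 * L + 4 + 1)) := Nat.mul_le_mul hG
      (Nat.pow_le_pow_right (by norm_num) (Nat.mul_pos (by omega) (by omega)))

theorem os_mod_le_PP (C G L : ℕ) (hG : 1 ≤ G) (hL : 1 ≤ L)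
    (S : Finset (PI (Qi C G (2 * L + 4)))) (hS : S.card ≤ DD C G L) :
    modS (Qi C G (2 * L + 4)) (y0 C G L) S ≤ PP C G L := by
  refine le_trans (os_modS_le _ _ _ (os_Q_pos C G _ hG) S hS) ?_
  unfold PP
  apply Nat.mul_le_mul_left
  apply Nat.pow_le_pow_right (os_Q_pos C G _ hG)
  have : DD C G L ≤ 10 * L * DD C G L := by
    calc DD C G L = 1 * DD C G L := by ring
      _ ≤ 10 * L * DD C G L := Nat.mul_le_mul_right _ (by omega)
  omega

theorem os_two_pow_le (C G L i : ℕ) (hG : 1 ≤ G) (hi : i ≤ 2 * L + 4) :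
    2 ^ (C * (i + 1)) ≤ PP C G L := by
  refine le_trans ?_ (os_Q_le_PP C G L hG)
  unfold Qi
  calc 2 ^ (C * (i + 1)) = 1 * 2 ^ (C * (i + 1)) := by ring
    _ ≤ _ := Nat.mul_le_mul hG (Nat.pow_le_pow_right (by norm_num)
      (Nat.mul_le_mul_left _ (by omega)))

/-- the Avoid property is inherited -/
theorem os_avoid (k G Cc n₀ d q : ℕ) (sys : Sys k G Cc) (hd : 1 ≤ d) (hq : 1 ≤ q)
    (A A' : Finset ℤ) (x₀ : ℤ) (hav : Avoid k (sys.c d) n₀ A)
    (h : ∀ m, m ∈ A' → x₀ + sys.lam q * m ∈ A) : Avoid k (sys.c (d * q)) n₀ A' := by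
  intro x hx n hn hpos hmem
  obtain ⟨s, _, hs⟩ := sys.shift d q hd hq
  have h1 := hs n
  have hl : (0 : ℤ) < sys.lam q := by exact_mod_cast sys.lam_pos q hq
  have h2 := hav _ (h x hx) (s + q * n) (by
    calc n₀ ≤ n := hn
      _ = 1 * n := by ring
      _ ≤ q * n := Nat.mul_le_mul_right _ hq
      _ ≤ s + q * n := by omega)
  have e : ((s + q * n : ℕ) : ℤ) = (s : ℤ) + q * n := by push_cast; ring
  rw [e, h1] at h2
  have h3 := h2 (mul_pos hl hpos)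
  apply h3
  have h4 := h _ hmem
  have e2 : x₀ + (sys.lam q : ℤ) * (x + pv k (sys.c (d * q)) n) =
      x₀ + sys.lam q * x + sys.lam q * pv k (sys.c (d * q)) n := by ring
  rw [e2] at h4
  exact h4

/-- density computation -/
theorem os_density (α : ℝ) (q lam H b a' s : ℕ) (hα : 0 ≤ α) (hq : 1 ≤ q) (hlam : 1 ≤ lam)
    (hH : 1502 * lam ≤ H) (h1 : (2 : ℝ) ^ s * ((1 + 1 / 1000) * α) * H / q < b)
    (h2 : q * b ≤ lam * a') :
    (1 + 1 / 3000) * α * ((H / lam + 1 : ℕ) : ℝ) ≤ a' := by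
  have hq0 : (0 : ℝ) < q := by exact_mod_cast hq
  have hl0 : (0 : ℝ) < lam := by exact_mod_cast hlam
  have h2' : (q : ℝ) * b ≤ lam * a' := by exact_mod_cast h2
  have hH' : (1502 : ℝ) * lam ≤ H := by exact_mod_cast hH
  have h3 : (2 : ℝ) ^ s * ((1 + 1 / 1000) * α) * H < b * q := by
    rwa [div_lt_iff₀ hq0] at h1
  have h4 : (1 : ℝ) ≤ 2 ^ s := one_le_pow₀ (by norm_num)
  have h5 : ((1 + 1 / 1000) * α) * H ≤ (2 : ℝ) ^ s * ((1 + 1 / 1000) * α) * H := by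
    have : 0 ≤ ((1 + 1 / 1000) * α) * (H : ℝ) := by positivity
    nlinarith
  have h6 : ((1 + 1 / 1000) * α) * H ≤ lam * a' := by linarith
  have h7 : ((H / lam + 1 : ℕ) : ℝ) ≤ H / lam + 1 := by
    push_cast
    have := @Nat.cast_div_le ℝ _ _ _ H lam
    linarith
  have h8 : (1 + 1 / 3000) * α * ((H / lam + 1 : ℕ) : ℝ) ≤ (1 + 1 / 3000) * α * (H / lam + 1) :=
    mul_le_mul_of_nonneg_left h7 (by positivity)
  refine le_trans h8 ?_
  have h9 : (1 + 1 / 3000) * α * ((H : ℝ) / lam + 1) * lam ≤ a' * lam := by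
    have e : (1 + 1 / 3000) * α * ((H : ℝ) / lam + 1) * lam =
        (1 + 1 / 3000) * α * (H + lam) := by
      field_simp
    rw [e]
    have : α * (1502 * lam) ≤ α * H := mul_le_mul_of_nonneg_left hH' hα
    nlinarith
  exact le_of_mul_le_mul_right h9 hl0

/-- some window and some modulus carry too much of `A` -/
theorem os_fail (k : ℕ) (hk : 1 ≤ k) (C : ℕ) (hC : 8 ≤ C) (hW : WeylC k C) (G Cc n₀ : ℕ)
    (hG : 1 ≤ G) (sys : Sys k G Cc) (L : ℕ) (hL : 1 ≤ L) (d N Y : ℕ) (hd : 1 ≤ d)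
    (A : Finset ℤ) (α : ℝ) (hA : ∀ x ∈ A, 0 ≤ x ∧ x < N) (hav : Avoid k (sys.c d) n₀ A)
    (hαL : Real.exp (-(L : ℝ)) ≤ α) (hα : (A.card : ℝ) = α * N)
    (hn₀ : n₀ ≤ Y) (hYc : (Cc * d ^ k) ^ 2 ≤ Y) (hYk : 16 * k ^ 2 ≤ Y)
    (hYN : (sys.c d k).toNat * 2 ^ (k + 4) * Y ^ k ≤ N) (hbig : PP C G L ≤ Y) :
    ∃ (i : ℕ) (S : Finset (PI (Qi C G (2 * L + 4)))) (u z : ℤ), i ≤ 2 * L + 4 ∧
      S.card ≤ DD C G L ∧
      (2 : ℝ) ^ S.card * ((1 + 1 / 1000) * α) * (Hi C k (sys.c d) Y i : ℝ) /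
          (modS (Qi C G (2 * L + 4)) (y0 C G L) S : ℝ) <
        ((A.filter (fun x => u ≤ x ∧ x < u + Hi C k (sys.c d) Y i ∧
          x ≡ z [ZMOD (modS (Qi C G (2 * L + 4)) (y0 C G L) S)])).card : ℝ) := by
  by_contra hcon
  push Not at hcon
  apply step_contra k C hk hC hW G hG L hL (sys.c d) (sys.lead d hd) (sys.cont d hd) N Y n₀ A α
    hA hα hαL hav hn₀ ?_ hYk ?_ hbig ?_
  · intro j hj
    have h1 := sys.bd d hd j hj
    have h2 : (sys.c d j) ^ 2 ≤ ((Cc : ℤ) * (d : ℤ) ^ k) ^ 2 := by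
      rw [← sq_abs]
      exact pow_le_pow_left₀ (abs_nonneg _) h1 2
    have h3 : (((Cc * d ^ k) ^ 2 : ℕ) : ℤ) ≤ (Y : ℤ) := by exact_mod_cast hYc
    push_cast at h3
    linarith
  · have h1 : ((sys.c d k).toNat : ℤ) = sys.c d k := Int.toNat_of_nonneg (sys.lead d hd).le
    have h2 : (((sys.c d k).toNat * 2 ^ (k + 4) * Y ^ k : ℕ) : ℤ) ≤ (N : ℤ) := by
      exact_mod_cast hYN
    push_cast at h2
    rw [h1] at h2
    exact h2
  · intro i hi S hS u z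
    exact hcon i S u z hi hS

/-- sizes -/
theorem os_sizes (k Cc n₀ a d P K E : ℕ) (hk : 1 ≤ k) (hP : 2 ≤ P) (hd : 1 ≤ d)
    (ha : a ≤ Cc * d ^ k) (hK : K = n₀ + 16 * k ^ 2 + Cc ^ 2 + 1)
    (hE : E = Cc * 2 ^ (k + 4) * K ^ k + 1503 * 2 ^ (2 * k + 7) + 2 * k ^ 2 + 4 * k + 9) :
    a * 2 ^ (k + 4) * (K * d ^ (2 * k) * P) ^ k ≤ (E * d * P) ^ E ∧
      1503 * 2 ^ (2 * k + 7) * P ^ (k + 1) ≤ (E * d * P) ^ E ∧ 1 ≤ E ∧ 3 * k + 8 ≤ E := by
  have hE1 : 1 ≤ E := by omega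
  have hEE : E ≤ E ^ E := by
    calc E = E ^ 1 := (pow_one E).symm
      _ ≤ E ^ E := Nat.pow_le_pow_right hE1 hE1
  have hexp : (E * d * P) ^ E = E ^ E * d ^ E * P ^ E := by rw [mul_pow, mul_pow]
  have hkE : k + 1 ≤ E := by omega
  have hk2 : k + 2 * k * k ≤ E := by
    have : 2 * k * k = 2 * k ^ 2 := by ring
    omega
  refine ⟨?_, ?_, hE1, by omega⟩
  · rw [hexp]
    calc a * 2 ^ (k + 4) * (K * d ^ (2 * k) * P) ^ k
        ≤ (Cc * d ^ k) * 2 ^ (k + 4) * (K * d ^ (2 * k) * P) ^ k := by gcongr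
      _ = (Cc * 2 ^ (k + 4) * K ^ k) * d ^ (k + 2 * k * k) * P ^ k := by ring
      _ ≤ E ^ E * d ^ E * P ^ E :=
        Nat.mul_le_mul (Nat.mul_le_mul (le_trans (by omega) hEE)
          (Nat.pow_le_pow_right hd hk2)) (Nat.pow_le_pow_right (by omega) (by omega))
  · rw [hexp]
    calc 1503 * 2 ^ (2 * k + 7) * P ^ (k + 1)
        = (1503 * 2 ^ (2 * k + 7)) * 1 * P ^ (k + 1) := by ring
      _ ≤ E ^ E * d ^ E * P ^ E :=
        Nat.mul_le_mul (Nat.mul_le_mul (le_trans (by omega) hEE)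
          (Nat.one_le_pow _ _ hd)) (Nat.pow_le_pow_right (by omega) hkE)

/-- density increment -/
theorem one_step (k : ℕ) (hk : 1 ≤ k) (C : ℕ) (hC : 8 ≤ C) (hW : WeylC k C) (G Cc n₀ : ℕ)
    (hG : 1 ≤ G) (sys : Sys k G Cc) :
    ∃ E : ℕ, 1 ≤ E ∧ ∀ (L : ℕ) (_ : 1 ≤ L) (d N : ℕ) (_ : 1 ≤ d) (A : Finset ℤ) (α : ℝ),
      (∀ x ∈ A, 0 ≤ x ∧ x < N) → Avoid k (sys.c d) n₀ A → Real.exp (-(L : ℝ)) ≤ α →
      (A.card : ℝ) = α * N → (E * d * PP C G L) ^ E ≤ N →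
      ∃ (q N' : ℕ) (A' : Finset ℤ), 1 ≤ q ∧ q ≤ PP C G L ∧ 1 ≤ N' ∧ N ≤ N' * (PP C G L) ^ E ∧
        (∀ x ∈ A', 0 ≤ x ∧ x < N') ∧ Avoid k (sys.c (d * q)) n₀ A' ∧
        (1 + 1 / 3000) * α * N' ≤ A'.card := by
  classical
  obtain ⟨K, hK⟩ : ∃ K, K = n₀ + 16 * k ^ 2 + Cc ^ 2 + 1 := ⟨_, rfl⟩
  obtain ⟨E, hE⟩ : ∃ E, E = Cc * 2 ^ (k + 4) * K ^ k + 1503 * 2 ^ (2 * k + 7) + 2 * k ^ 2 +
    4 * k + 9 := ⟨_, rfl⟩
  refine ⟨E, by omega, ?_⟩
  intro L hL d N hd A α hA hav hαL hα hN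
  obtain ⟨P, hP⟩ : ∃ P, P = PP C G L := ⟨_, rfl⟩
  have hP2 : 2 ≤ P := hP ▸ os_two_le_PP C G L hC hG
  have hα0 : 0 < α := lt_of_lt_of_le (Real.exp_pos _) hαL
  obtain ⟨a, ha⟩ : ∃ a, a = (sys.c d k).toNat := ⟨_, rfl⟩
  have hlead := sys.lead d hd
  have haz : (a : ℤ) = sys.c d k := by rw [ha]; exact Int.toNat_of_nonneg hlead.le
  have ha1 : 1 ≤ a := by omega
  have haC : a ≤ Cc * d ^ k := by
    have h1 := sys.bd d hd k le_rfl
    rw [abs_of_pos hlead, ← haz] at h1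
    exact_mod_cast h1
  rw [← hP] at hN
  obtain ⟨hs1, hs2, _, hs4⟩ := os_sizes k Cc n₀ a d P K E hk hP2 hd haC hK hE
  have hK1 : 1 ≤ K := by omega
  obtain ⟨Y, hY0, hY1, hY2⟩ := os_scale k (a * 2 ^ (k + 4)) N (K * d ^ (2 * k) * P) hk
    (Nat.mul_pos ha1 (by positivity))
    (Nat.mul_pos (Nat.mul_pos hK1 (by positivity)) (by omega)) (le_trans hs1 hN)
  have hd1 : 1 ≤ d ^ (2 * k) := Nat.one_le_pow _ _ hd
  have hP1 : 1 ≤ P := by omega
  have hKY : K ≤ Y := by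
    refine le_trans ?_ hY0
    calc K = K * 1 * 1 := by ring
      _ ≤ K * d ^ (2 * k) * P := by gcongr
  have hPY : P ≤ Y := by
    refine le_trans ?_ hY0
    calc P = 1 * 1 * P := by ring
      _ ≤ K * d ^ (2 * k) * P := by gcongr
  have hcY : (Cc * d ^ k) ^ 2 ≤ Y := by
    refine le_trans ?_ hY0
    calc (Cc * d ^ k) ^ 2 = Cc ^ 2 * d ^ (2 * k) * 1 := by ring
      _ ≤ K * d ^ (2 * k) * P := by
        gcongr
        omega
  obtain ⟨i, S, u, z, hi, hS, hfail⟩ := os_fail k hk C hC hW G Cc n₀ hG sys L hL d N Y hd A α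
    hA hav hαL hα (by omega) hcY (by omega) (by rw [← ha]; exact hY1) (by rw [← hP]; exact hPY)
  obtain ⟨q, hq⟩ : ∃ q, q = modS (Qi C G (2 * L + 4)) (y0 C G L) S := ⟨_, rfl⟩
  obtain ⟨H, hH⟩ : ∃ H, H = Hi C k (sys.c d) Y i := ⟨_, rfl⟩
  rw [← hq, ← hH] at hfail
  have hq1 : 1 ≤ q := hq ▸ os_modS_pos _ _ _
  have hqP : q ≤ P := by
    rw [hq, hP]
    exact os_mod_le_PP C G L hG hL S hS
  obtain ⟨lam, hlam⟩ : ∃ lam, lam = sys.lam q := ⟨_, rfl⟩
  have hlam1 : 1 ≤ lam := hlam ▸ sys.lam_pos q hq1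
  have hlamP : lam ≤ P ^ k := by
    rw [hlam]
    exact le_trans (sys.lam_le q hq1) (Nat.pow_le_pow_left hqP k)
  have hdvd : q ∣ lam := hlam ▸ sys.dvd_lam q hq1
  -- size of the window
  have hHY : a * Y ^ k < (H + 1) * (8 * P) := by
    have h2 : 2 ^ (C * (i + 1)) ≤ P := hP ▸ os_two_pow_le C G L i hG hi
    have h3 : a * Y ^ k < (H + 1) * (8 * 2 ^ (C * (i + 1))) := by
      rw [hH]
      unfold Hi
      rw [← ha]
      have hpos : 0 < 8 * 2 ^ (C * (i + 1)) := by positivity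
      have h4 := Nat.lt_div_mul_add (a := a * Y ^ k) hpos
      calc a * Y ^ k < a * Y ^ k / (8 * 2 ^ (C * (i + 1))) * (8 * 2 ^ (C * (i + 1))) +
            8 * 2 ^ (C * (i + 1)) := h4
        _ = _ := by ring
    refine lt_of_lt_of_le h3 ?_
    gcongr
  have hNH : N < (H + 1) * (2 ^ (2 * k + 7) * P) := by
    calc N < a * 2 ^ (k + 4) * (2 ^ k * Y ^ k) := hY2
      _ = a * Y ^ k * 2 ^ (2 * k + 4) := by ring
      _ ≤ (H + 1) * (8 * P) * 2 ^ (2 * k + 4) := by gcongr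
      _ = (H + 1) * (2 ^ (2 * k + 7) * P) := by ring
  have hHbig : 1503 * P ^ k < H + 1 := by
    have h1 : 1503 * 2 ^ (2 * k + 7) * P ^ (k + 1) < (H + 1) * (2 ^ (2 * k + 7) * P) :=
      lt_of_le_of_lt (le_trans hs2 hN) hNH
    have h2 : 1503 * 2 ^ (2 * k + 7) * P ^ (k + 1) = 1503 * P ^ k * (2 ^ (2 * k + 7) * P) := by
      ring
    rw [h2] at h1
    exact lt_of_mul_lt_mul_right h1 (by positivity)
  have hHlam : 1502 * lam ≤ H := by
    calc 1502 * lam ≤ 1502 * P ^ k := by gcongr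
      _ ≤ H := by omega
  -- the dense class
  obtain ⟨B, hB⟩ : ∃ B, B = A.filter (fun x => u ≤ x ∧ x < u + H ∧ x ≡ z [ZMOD q]) := ⟨_, rfl⟩
  rw [← hB] at hfail
  have hBA : ∀ x ∈ B, x ∈ A := by
    intro x hx
    rw [hB] at hx
    exact mem_of_mem_filter x hx
  obtain ⟨z', hz'⟩ := os_class q lam hq1 hlam1 hdvd B z (by
    intro x hx
    rw [hB, mem_filter] at hx
    exact hx.2.2.2)
  obtain ⟨x₀, A', hcard, hrange, hback⟩ := os_rescale lam H hlam1 B u z' (by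
    intro x hx
    rw [hB, mem_filter] at hx
    exact ⟨hx.2.1, hx.2.2.1⟩)
  rw [← hcard] at hz'
  refine ⟨q, H / lam + 1, A', hq1, hP ▸ hqP, Nat.le_add_left 1 _, ?_, ?_, ?_, ?_⟩
  · rw [← hP]
    have h1 : H + 1 ≤ (H / lam + 1) * lam := by
      have := Nat.lt_div_mul_add (a := H) (b := lam) hlam1
      have e : (H / lam + 1) * lam = H / lam * lam + lam := by ring
      omega
    calc N ≤ (H + 1) * (2 ^ (2 * k + 7) * P) := hNH.le
      _ ≤ (H / lam + 1) * lam * (2 ^ (2 * k + 7) * P) := by gcongr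
      _ ≤ (H / lam + 1) * P ^ k * (P ^ (2 * k + 7) * P) := by gcongr
      _ = (H / lam + 1) * P ^ (3 * k + 8) := by ring
      _ ≤ (H / lam + 1) * P ^ E := by gcongr
  · intro x hx
    exact hrange x hx
  · exact os_avoid k G Cc n₀ d q sys hd hq1 A A' x₀ hav (fun m hm => by
      rw [← hlam]
      exact hBA _ (hback m hm))
  · exact os_density α q lam H B.card A'.card S.card hα0.le hq1 hlam1 hHlam hfail hz'

end Vale.Agent.P042.FS
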