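import Vale.Agent.P042.FS.Defs

namespace Vale.Agent.P042.FS

open Polynomial

/-- an intersective polynomial has a `p`-adic integer root -/
theorem padic_root (h : ℤ[X]) (hint : ∀ q : ℕ, 1 ≤ q → ∃ t : ℤ, (q : ℤ) ∣ h.eval t)
    (p : ℕ) [Fact p.Prime] : ∃ z : ℤ_[p], aeval z h = 0 := by
  have hp : 1 < p := (Fact.out : p.Prime).one_lt
  choose t ht using fun n : ℕ => hint (p ^ n) (Nat.one_le_pow _ _ (by omega))
  obtain ⟨z, -, φ, hφ, hz⟩ := isCompact_univ.tendsto_subseq (x := fun n => ((t n : ℤ) : ℤ_[p]))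
    (fun n => Set.mem_univ _)
  refine ⟨z, ?_⟩
  have hcont : Continuous fun x : ℤ_[p] => aeval x h := Polynomial.continuous_aeval h
  have h1 : Filter.Tendsto (fun n => aeval ((t (φ n) : ℤ) : ℤ_[p]) h) Filter.atTop
      (nhds (aeval z h)) := (hcont.tendsto z).comp hz
  have h2 : Filter.Tendsto (fun n => aeval ((t (φ n) : ℤ) : ℤ_[p]) h) Filter.atTop (nhds 0) := by
    rw [tendsto_zero_iff_norm_tendsto_zero]
    have h3 : ∀ n, ‖aeval ((t (φ n) : ℤ) : ℤ_[p]) h‖ ≤ ((p : ℝ)⁻¹) ^ (φ n) := by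
      intro n
      have e : aeval ((t (φ n) : ℤ) : ℤ_[p]) h = ((h.eval (t (φ n)) : ℤ) : ℤ_[p]) := by
        have := Polynomial.aeval_algebraMap_apply ℤ_[p] (t (φ n)) h
        simpa using this
      rw [e]
      obtain ⟨c, hc⟩ := ht (φ n)
      rw [hc]
      push_cast
      rw [norm_mul, norm_pow, PadicInt.norm_p]
      exact mul_le_of_le_one_right (by positivity) (PadicInt.norm_le_one _)
    refine squeeze_zero (fun n => norm_nonneg _) h3 ?_
    have h4 : Filter.Tendsto (fun n : ℕ => ((p : ℝ)⁻¹) ^ n) Filter.atTop (nhds 0) :=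
      tendsto_pow_atTop_nhds_zero_of_lt_one (by positivity)
        (inv_lt_one_of_one_lt₀ (by exact_mod_cast hp))
    exact h4.comp hφ.tendsto_atTop
  exact tendsto_nhds_unique h1 h2

theorem proot_aux (f : ℤ[X]) (n : ℕ) : ∀ h : ℚ[X], h ≠ 0 → h.natDegree ≤ n → ∃ R : ℤ, R ≠ 0 ∧
    ∀ (p : ℕ) [Fact p.Prime] (z : ℤ_[p]), aeval (z : ℚ_[p]) h = 0 → aeval z f ≠ 0 →
      aeval z f ∣ (R : ℤ_[p]) := by
  induction n with
  | zero =>
    intro h hh hn
    refine ⟨1, one_ne_zero, ?_⟩
    intro p _ z hz _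
    exfalso
    rw [Polynomial.eq_C_of_natDegree_le_zero hn] at hz hh
    rw [aeval_C] at hz
    apply hh
    have := (algebraMap ℚ ℚ_[p]).injective (hz.trans (map_zero _).symm)
    rw [this, map_zero]
  | succ n ih =>
    intro h hh hn
    by_cases hc : IsCoprime h (f.map (Int.castRingHom ℚ))
    · obtain ⟨A, B, hAB⟩ := hc
      obtain ⟨b, hbM, hb⟩ := IsLocalization.integerNormalization_spec (nonZeroDivisors ℤ) B
      refine ⟨b, nonZeroDivisors.ne_zero hbM, ?_⟩
      intro p _ z hz _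
      set B' := IsLocalization.integerNormalization (nonZeroDivisors ℤ) B with hB'
      have h1 : aeval (z : ℚ_[p]) B * aeval (z : ℚ_[p]) (f.map (Int.castRingHom ℚ)) = 1 := by
        have := congrArg (aeval (z : ℚ_[p])) hAB
        simpa [hz] using this
      have h2 : aeval (z : ℚ_[p]) (f.map (Int.castRingHom ℚ)) = ((aeval z f : ℤ_[p]) : ℚ_[p]) := by
        have e1 : aeval (z : ℚ_[p]) (f.map (Int.castRingHom ℚ)) = aeval (z : ℚ_[p]) f := by
          have := Polynomial.aeval_map_algebraMap ℚ (z : ℚ_[p]) f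
          simpa using this
        rw [e1]
        have := Polynomial.aeval_algebraMap_apply ℚ_[p] z f
        simpa using this
      have h3 : aeval (z : ℚ_[p]) (B'.map (algebraMap ℤ ℚ)) = ((aeval z B' : ℤ_[p]) : ℚ_[p]) := by
        rw [Polynomial.aeval_map_algebraMap]
        have := Polynomial.aeval_algebraMap_apply ℚ_[p] z B'
        simpa using this
      rw [hb] at h3
      have h4 : aeval (z : ℚ_[p]) (b • B) = (b : ℚ_[p]) * aeval (z : ℚ_[p]) B := by
        rw [zsmul_eq_mul, map_mul, map_intCast]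
      refine ⟨aeval z B', PadicInt.ext ?_⟩
      rw [PadicInt.coe_mul, ← h3, h4, ← h2, PadicInt.coe_intCast]
      linear_combination (-(b : ℚ_[p])) * h1
    · have hg : ¬ IsUnit (EuclideanDomain.gcd h (f.map (Int.castRingHom ℚ))) := by
        rw [EuclideanDomain.gcd_isUnit_iff]
        exact hc
      set g := EuclideanDomain.gcd h (f.map (Int.castRingHom ℚ)) with hgdef
      obtain ⟨h1, hh1⟩ := EuclideanDomain.gcd_dvd_left h (f.map (Int.castRingHom ℚ))
      obtain ⟨f1, hf1⟩ := EuclideanDomain.gcd_dvd_right h (f.map (Int.castRingHom ℚ))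
      rw [← hgdef] at hh1 hf1
      have hg0 : g ≠ 0 := by
        rintro h0
        rw [h0, zero_mul] at hh1
        exact hh hh1
      have hh10 : h1 ≠ 0 := by
        rintro h0
        rw [h0, mul_zero] at hh1
        exact hh hh1
      have hgdeg : 0 < g.natDegree := by
        rw [Nat.pos_iff_ne_zero]
        intro h0
        apply hg
        rw [Polynomial.isUnit_iff_degree_eq_zero, Polynomial.degree_eq_natDegree hg0, h0]
        rfl
      have hdeg : h1.natDegree ≤ n := by
        have := Polynomial.natDegree_mul hg0 hh10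
        rw [← hh1] at this
        omega
      obtain ⟨R, hR, hRR⟩ := ih h1 hh10 hdeg
      refine ⟨R, hR, ?_⟩
      intro p _ z hz hfz
      refine hRR p z ?_ hfz
      have h2 : aeval (z : ℚ_[p]) (f.map (Int.castRingHom ℚ)) = ((aeval z f : ℤ_[p]) : ℚ_[p]) := by
        have e1 : aeval (z : ℚ_[p]) (f.map (Int.castRingHom ℚ)) = aeval (z : ℚ_[p]) f := by
          have := Polynomial.aeval_map_algebraMap ℚ (z : ℚ_[p]) f
          simpa using this
        rw [e1]
        have := Polynomial.aeval_algebraMap_apply ℚ_[p] z f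
        simpa using this
      have h3 : aeval (z : ℚ_[p]) g ≠ 0 := by
        intro h0
        apply hfz
        apply PadicInt.ext
        rw [← h2, hf1, map_mul, h0, zero_mul]
        rfl
      rw [hh1, map_mul] at hz
      rcases mul_eq_zero.1 hz with h4 | h4
      · exact absurd h4 h3
      · exact h4

/-- nonvanishing values of `f` at `p`-adic roots of `h` divide a fixed integer -/
theorem bezout_bound (h f : ℤ[X]) (hh : h ≠ 0) : ∃ R : ℤ, R ≠ 0 ∧
    ∀ (p : ℕ) [Fact p.Prime] (z : ℤ_[p]), aeval z h = 0 → aeval z f ≠ 0 →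
      aeval z f ∣ (R : ℤ_[p]) := by
  have h0 : h.map (Int.castRingHom ℚ) ≠ 0 :=
    (Polynomial.map_ne_zero_iff (RingHom.injective_int _)).2 hh
  obtain ⟨R, hR, hRR⟩ := proot_aux f _ (h.map (Int.castRingHom ℚ)) h0 le_rfl
  refine ⟨R, hR, ?_⟩
  intro p _ z hz hfz
  refine hRR p z ?_ hfz
  have e1 : aeval (z : ℚ_[p]) (h.map (Int.castRingHom ℚ)) = aeval (z : ℚ_[p]) h := by
    have := Polynomial.aeval_map_algebraMap ℚ (z : ℚ_[p]) h
    simpa using this
  rw [e1]
  have := Polynomial.aeval_algebraMap_apply ℚ_[p] z h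
  rw [hz] at this
  simpa using this

end Vale.Agent.P042.FS
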