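import Vale.Agent.P042.FS.Defs

namespace Vale.Agent.P042.FS

open Finset

theorem modS_empty (Q y₀ : ℕ) : modS Q y₀ ∅ = y₀.factorial := by
  simp [modS]

/-- a window contains few elements -/
theorem ni_window (Q y₀ D H : ℕ) (a : ℝ) (A : Finset ℤ) (h : NIw Q y₀ D H a A) (u : ℤ) :
    ((A.filter (fun x => u ≤ x ∧ x < u + H)).card : ℝ) ≤ a * H := by
  set M := y₀.factorial with hM
  have hM0 : 0 < M := Nat.factorial_pos _
  have h1 : ∀ z : ℤ, ((A.filter (fun x => u ≤ x ∧ x < u + H ∧ x ≡ z [ZMOD M])).card : ℝ) ≤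
      a * H / M := by
    intro z
    have := h ∅ (by simp) u z
    rw [modS_empty] at this
    simpa using this
  have h2 : A.filter (fun x => u ≤ x ∧ x < u + H) ⊆ (range M).biUnion (fun z =>
      A.filter (fun x => u ≤ x ∧ x < u + H ∧ x ≡ (z : ℤ) [ZMOD M])) := by
    intro x hx
    rw [Finset.mem_filter] at hx
    rw [Finset.mem_biUnion]
    have hm : 0 ≤ x % (M : ℤ) := Int.emod_nonneg _ (by exact_mod_cast hM0.ne')
    have hm2 : x % (M : ℤ) < M := Int.emod_lt_of_pos _ (by exact_mod_cast hM0)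
    refine ⟨(x % (M : ℤ)).toNat, ?_, ?_⟩
    · rw [Finset.mem_range]
      omega
    · rw [Finset.mem_filter]
      refine ⟨hx.1, hx.2.1, hx.2.2, ?_⟩
      rw [Int.toNat_of_nonneg hm]
      exact (Int.mod_modEq x M).symm
  calc ((A.filter (fun x => u ≤ x ∧ x < u + H)).card : ℝ) ≤
      (((range M).biUnion (fun z =>
      A.filter (fun x => u ≤ x ∧ x < u + H ∧ x ≡ (z : ℤ) [ZMOD M]))).card : ℝ) := by
        exact_mod_cast Finset.card_le_card h2
    _ ≤ ((∑ z ∈ range M, (A.filter (fun x => u ≤ x ∧ x < u + H ∧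
          x ≡ (z : ℤ) [ZMOD M])).card : ℕ) : ℝ) := by
        exact_mod_cast Finset.card_biUnion_le
    _ ≤ ∑ z ∈ range M, a * H / M := by
        push_cast
        exact Finset.sum_le_sum fun z _ => h1 z
    _ = a * H := by
        rw [Finset.sum_const, Finset.card_range, nsmul_eq_mul]
        have : (M : ℝ) ≠ 0 := by exact_mod_cast hM0.ne'
        field_simp

/-- an interval contains few elements -/
theorem ni_interval (Q y₀ D H : ℕ) (hH : 1 ≤ H) (a : ℝ) (ha : 0 ≤ a) (A : Finset ℤ)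
    (h : NIw Q y₀ D H a A) (u : ℤ) (W : ℕ) :
    ((A.filter (fun x => u ≤ x ∧ x < u + W)).card : ℝ) ≤ a * (W + H) := by
  set J := W / H + 1 with hJ
  have h2 : A.filter (fun x => u ≤ x ∧ x < u + W) ⊆ (range J).biUnion (fun j =>
      A.filter (fun x => u + j * H ≤ x ∧ x < u + j * H + H)) := by
    intro x hx
    rw [Finset.mem_filter] at hx
    obtain ⟨hxA, hx1, hx2⟩ := hx
    rw [Finset.mem_biUnion]
    obtain ⟨n, hn⟩ : ∃ n : ℕ, x = u + n := ⟨(x - u).toNat, by omega⟩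
    have hnW : n < W := by omega
    refine ⟨n / H, ?_, ?_⟩
    · rw [Finset.mem_range, hJ]
      exact Nat.lt_succ_of_le (Nat.div_le_div_right hnW.le)
    · rw [Finset.mem_filter]
      refine ⟨hxA, ?_, ?_⟩
      · have := Nat.div_mul_le_self n H
        have : ((n / H : ℕ) : ℤ) * H ≤ n := by exact_mod_cast this
        omega
      · have := Nat.lt_div_mul_add (a := n) hH
        have : (n : ℤ) < ((n / H : ℕ) : ℤ) * H + H := by exact_mod_cast this
        omega
  have h3 : ((A.filter (fun x => u ≤ x ∧ x < u + W)).card : ℝ) ≤ J * (a * H) := by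
    calc ((A.filter (fun x => u ≤ x ∧ x < u + W)).card : ℝ) ≤
        (((range J).biUnion (fun j : ℕ =>
        A.filter (fun x => u + j * H ≤ x ∧ x < u + j * H + H))).card : ℝ) := by
          exact_mod_cast Finset.card_le_card h2
      _ ≤ ((∑ j ∈ range J, (A.filter (fun x => u + (j : ℤ) * H ≤ x ∧
            x < u + (j : ℤ) * H + H)).card : ℕ) : ℝ) := by
          exact_mod_cast Finset.card_biUnion_le
      _ ≤ ∑ j ∈ range J, a * H := by
          push_cast
          exact Finset.sum_le_sum fun j _ => ni_window Q y₀ D H a A h _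
      _ = J * (a * H) := by
          rw [Finset.sum_const, Finset.card_range, nsmul_eq_mul]
  refine le_trans h3 ?_
  have h4 : (J : ℝ) * H ≤ W + H := by
    rw [hJ]
    have := Nat.div_mul_le_self W H
    have h5 : ((W / H : ℕ) : ℝ) * H ≤ W := by exact_mod_cast this
    push_cast
    linarith
  calc (J : ℝ) * (a * H) = a * (J * H) := by ring
    _ ≤ a * (W + H) := mul_le_mul_of_nonneg_left h4 ha

/-- size of the polynomial -/
theorem pv_bounds (k : ℕ) (hk : 1 ≤ k) (c : ℕ → ℤ) (hck : 0 < c k) (Y : ℕ) (hY : 1 ≤ Y)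
    (hYc : ∀ j ≤ k, (c j) ^ 2 ≤ (Y : ℤ)) (hYk : 16 * k ^ 2 ≤ Y) (n : ℕ) (hn : Y < n) :
    (3 / 4 : ℝ) * ((c k : ℝ) * (n : ℝ) ^ k) ≤ (pv k c n : ℝ) ∧
      (pv k c n : ℝ) ≤ 5 / 4 * ((c k : ℝ) * (n : ℝ) ^ k) := by
  have hn0 : (0 : ℝ) < n := by
    have : 0 < n := by omega
    exact_mod_cast this
  have hYR : (0 : ℝ) < Y := by exact_mod_cast hY
  set r : ℝ := Real.sqrt Y with hr
  have hr0 : 0 < r := Real.sqrt_pos.mpr hYR
  have hr2 : r ^ 2 = Y := Real.sq_sqrt hYR.le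
  have hrk : 4 * (k : ℝ) ≤ r := by
    apply Real.le_sqrt_of_sq_le
    have : ((16 * k ^ 2 : ℕ) : ℝ) ≤ Y := by exact_mod_cast hYk
    push_cast at this
    nlinarith
  have hcr : ∀ j ≤ k, |(c j : ℝ)| ≤ r := by
    intro j hj
    apply Real.abs_le_sqrt
    have := hYc j hj
    exact_mod_cast this
  have hsplit : (pv k c n : ℝ) = ∑ j ∈ range k, (c j : ℝ) * (n : ℝ) ^ j + (c k : ℝ) * (n : ℝ) ^ k := by
    rw [pv, Finset.sum_range_succ]
    push_cast
    rfl
  have hck1 : (1 : ℝ) ≤ c k := by exact_mod_cast hck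
  have hnY : (Y : ℝ) ≤ n := by exact_mod_cast hn.le
  obtain ⟨k', rfl⟩ : ∃ k', k = k' + 1 := ⟨k - 1, by omega⟩
  have hlow : |∑ j ∈ range (k' + 1), (c j : ℝ) * (n : ℝ) ^ j| ≤ 1 / 4 * (n : ℝ) ^ (k' + 1) := by
    calc |∑ j ∈ range (k' + 1), (c j : ℝ) * (n : ℝ) ^ j|
        ≤ ∑ j ∈ range (k' + 1), |(c j : ℝ) * (n : ℝ) ^ j| := Finset.abs_sum_le_sum_abs _ _
      _ ≤ ∑ j ∈ range (k' + 1), r * (n : ℝ) ^ k' := by
          apply Finset.sum_le_sum
          intro j hj
          rw [Finset.mem_range] at hj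
          rw [abs_mul, abs_of_nonneg (pow_nonneg hn0.le j)]
          apply mul_le_mul (hcr j (by omega)) _ (by positivity) hr0.le
          apply pow_le_pow_right₀ _ (by omega)
          have : 1 ≤ n := by omega
          exact_mod_cast this
      _ = ((k' + 1 : ℕ) : ℝ) * r * (n : ℝ) ^ k' := by
          rw [Finset.sum_const, Finset.card_range, nsmul_eq_mul]; ring
      _ ≤ 1 / 4 * (n : ℝ) ^ (k' + 1) := by
          have h1 : ((k' + 1 : ℕ) : ℝ) * r ≤ 1 / 4 * n := by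
            have : ((k' + 1 : ℕ) : ℝ) * r ≤ (r / 4) * r := by
              apply mul_le_mul_of_nonneg_right _ hr0.le
              linarith
            nlinarith
          calc ((k' + 1 : ℕ) : ℝ) * r * (n : ℝ) ^ k' ≤ (1 / 4 * n) * (n : ℝ) ^ k' :=
                mul_le_mul_of_nonneg_right h1 (by positivity)
            _ = 1 / 4 * (n : ℝ) ^ (k' + 1) := by ring
  have hlow' : |∑ j ∈ range (k' + 1), (c j : ℝ) * (n : ℝ) ^ j| ≤
      1 / 4 * ((c (k' + 1) : ℝ) * (n : ℝ) ^ (k' + 1)) := by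
    refine le_trans hlow ?_
    have : (1 : ℝ) * (n : ℝ) ^ (k' + 1) ≤ (c (k' + 1) : ℝ) * (n : ℝ) ^ (k' + 1) :=
      mul_le_mul_of_nonneg_right hck1 (by positivity)
    linarith
  rw [hsplit]
  have h1 := (abs_le.mp hlow').1
  have h2 := (abs_le.mp hlow').2
  constructor <;> linarith

theorem geo_half (n : ℕ) : ∑ i ∈ range n, (1 / 2 : ℝ) ^ i ≤ 2 := by
  have h : ∑ i ∈ range n, (1 / 2 : ℝ) ^ i = 2 - 2 * (1 / 2) ^ n := by
    induction n with
    | zero => simp
    | succ n ih => rw [Finset.sum_range_succ, ih]; ring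
  rw [h]
  have : (0 : ℝ) ≤ 2 * (1 / 2) ^ n := by positivity
  linarith

theorem geo_34 (n : ℕ) : ∑ i ∈ range n, (3 / 4 : ℝ) ^ i ≤ 4 := by
  have h : ∑ i ∈ range n, (3 / 4 : ℝ) ^ i = 4 - 4 * (3 / 4) ^ n := by
    induction n with
    | zero => simp
    | succ n ih => rw [Finset.sum_range_succ, ih]; ring
  rw [h]
  have : (0 : ℝ) ≤ 4 * (3 / 4) ^ n := by positivity
  linarith

theorem farey_mem (Q : ℕ) (θ : ℚ) (h : θ ∈ farey Q) : 0 ≤ θ ∧ θ < 1 := by
  rw [farey, Finset.mem_biUnion] at h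
  obtain ⟨q, hq, h2⟩ := h
  rw [Finset.mem_image] at h2
  obtain ⟨a, ha, rfl⟩ := h2
  rw [Finset.mem_range] at ha
  rw [Finset.mem_Icc] at hq
  have hq0 : (0 : ℚ) < q := by exact_mod_cast hq.1
  constructor
  · positivity
  · rw [div_lt_one hq0]
    exact_mod_cast ha

end Vale.Agent.P042.FS
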