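import Vale.Agent.P042.FS.Defs

namespace Vale.Agent.P042.FS

open Finset

theorem Qi_pos (C G i : ℕ) (hG : 1 ≤ G) : 1 ≤ Qi C G i := by
  unfold Qi
  exact Nat.mul_pos hG (by positivity)

theorem Qi_mono (C G i j : ℕ) (h : i ≤ j) : Qi C G i ≤ Qi C G j := by
  unfold Qi
  apply Nat.mul_le_mul_left
  apply Nat.pow_le_pow_right (by norm_num)
  apply Nat.mul_le_mul_left
  omega

theorem Qi_big (C G L : ℕ) (hC : 8 ≤ C) (hG : 1 ≤ G) (hL : 1 ≤ L) :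
    2 ^ 56 ≤ Qi C G (2 * L + 4) := by
  unfold Qi
  have h1 : 56 ≤ C * (2 * L + 4 + 1) := by nlinarith
  calc 2 ^ 56 ≤ 2 ^ (C * (2 * L + 4 + 1)) := Nat.pow_le_pow_right (by norm_num) h1
    _ = 1 * 2 ^ (C * (2 * L + 4 + 1)) := by ring
    _ ≤ _ := Nat.mul_le_mul_right _ hG

theorem two_pow_le_Qi (C G i : ℕ) (hG : 1 ≤ G) : 2 ^ (C * (i + 1)) ≤ Qi C G i := by
  unfold Qi
  calc 2 ^ (C * (i + 1)) = 1 * 2 ^ (C * (i + 1)) := by ring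
    _ ≤ _ := Nat.mul_le_mul_right _ hG

theorem y0_two (C G L : ℕ) (hC : 8 ≤ C) (hG : 1 ≤ G) (hL : 1 ≤ L) : 2 ≤ y0 C G L := by
  unfold y0
  have h1 : 1 ≤ G ^ 2 := Nat.one_le_pow _ _ hG
  have h2 : 2 ≤ (10 ^ 7 * L) ^ (2 * C) := by
    calc 2 ≤ 10 ^ 7 * L := by omega
      _ = (10 ^ 7 * L) ^ 1 := by ring
      _ ≤ (10 ^ 7 * L) ^ (2 * C) := Nat.pow_le_pow_right (by omega) (by omega)
  nlinarith

/-- bound for the number of prime powers above `y0` -/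
theorem hD_bound (C G L i t : ℕ) (hC : 8 ≤ C) (hG : 1 ≤ G) (hL : 1 ≤ L) (hi : i ≤ 2 * L + 4)
    (h : y0 C G L ^ t ≤ Qi C G i) : t ≤ DD C G L := by
  have h1 : 2 ^ t ≤ 2 ^ (G + C * (2 * L + 5)) := by
    calc 2 ^ t ≤ y0 C G L ^ t := Nat.pow_le_pow_left (y0_two C G L hC hG hL) t
      _ ≤ Qi C G i := h
      _ ≤ Qi C G (2 * L + 4) := Qi_mono C G i _ hi
      _ = G * 2 ^ (C * (2 * L + 5)) := by unfold Qi; rfl
      _ ≤ 2 ^ G * 2 ^ (C * (2 * L + 5)) := Nat.mul_le_mul_right _ Nat.lt_two_pow_self.le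
      _ = 2 ^ (G + C * (2 * L + 5)) := by rw [pow_add]
  have h2 := (Nat.pow_le_pow_iff_right (by norm_num : 1 < 2)).mp h1
  unfold DD
  omega

/-- the weight `(48 L)^t` is small -/
theorem hB_bound (C G L i t : ℕ) (hC : 8 ≤ C) (hG : 1 ≤ G) (hL : 1 ≤ L) (ht : 1 ≤ t)
    (h : y0 C G L ^ t ≤ Qi C G i) :
    (48 * (L : ℝ)) ^ t ≤ 1 / 10 ^ 5 * (3 / 2 : ℝ) ^ i := by
  -- first `(10^7 L)^{2t} ≤ 2^{i+1}`
  have h1 : (10 ^ 7 * L) ^ (2 * t) ≤ 2 ^ (i + 1) := by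
    by_contra hcon
    push Not at hcon
    have e1 : (2 ^ (i + 1)) ^ C < ((10 ^ 7 * L) ^ (2 * t)) ^ C :=
      Nat.pow_lt_pow_left hcon (by omega)
    have e2 : G ≤ G ^ (2 * t) := by
      calc G = G ^ 1 := by ring
        _ ≤ G ^ (2 * t) := Nat.pow_le_pow_right hG (by omega)
    have e3 : G * (2 ^ (i + 1)) ^ C < G ^ (2 * t) * ((10 ^ 7 * L) ^ (2 * t)) ^ C :=
      Nat.mul_lt_mul_of_le_of_lt e2 e1 (by positivity)
    have e4 : y0 C G L ^ t = G ^ (2 * t) * ((10 ^ 7 * L) ^ (2 * t)) ^ C := by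
      unfold y0
      rw [mul_pow, ← pow_mul, ← pow_mul, ← pow_mul]
      congr 2
      ring
    have e5 : Qi C G i = G * (2 ^ (i + 1)) ^ C := by
      unfold Qi
      rw [← pow_mul]
      congr 2
      ring
    rw [e4, e5] at h
    omega
  have h2 : ((10 ^ 7 * (L : ℝ)) ^ t) ^ 2 ≤ 2 ^ (i + 1) := by
    rw [← pow_mul, mul_comm t 2]
    exact_mod_cast h1
  have h3 : (48 * (L : ℝ)) ^ t = (48 / 10 ^ 7 : ℝ) ^ t * (10 ^ 7 * (L : ℝ)) ^ t := by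
    rw [← mul_pow]
    congr 1
    field_simp
  have h4 : (48 / 10 ^ 7 : ℝ) ^ t ≤ 48 / 10 ^ 7 := by
    calc (48 / 10 ^ 7 : ℝ) ^ t ≤ (48 / 10 ^ 7 : ℝ) ^ 1 :=
          pow_le_pow_of_le_one (by norm_num) (by norm_num) ht
      _ = _ := by ring
  have h5 : (48 * (L : ℝ)) ^ t ≤ 48 / 10 ^ 7 * (10 ^ 7 * (L : ℝ)) ^ t := by
    rw [h3]
    exact mul_le_mul_of_nonneg_right h4 (by positivity)
  refine le_trans h5 ?_
  apply le_of_sq_le_sq _ (by positivity)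
  have h6 : (2 : ℝ) ^ (i + 1) ≤ 2 * ((3 / 2 : ℝ) ^ i) ^ 2 := by
    rw [← pow_mul, mul_comm i 2, pow_mul, pow_succ, mul_comm]
    have : (2 : ℝ) ^ i ≤ ((3 / 2 : ℝ) ^ 2) ^ i := by
      apply pow_le_pow_left₀ (by norm_num)
      norm_num
    linarith
  calc (48 / 10 ^ 7 * (10 ^ 7 * (L : ℝ)) ^ t) ^ 2 =
      (48 / 10 ^ 7 : ℝ) ^ 2 * ((10 ^ 7 * (L : ℝ)) ^ t) ^ 2 := by rw [mul_pow (48 / 10 ^ 7 : ℝ)]
    _ ≤ (48 / 10 ^ 7 : ℝ) ^ 2 * (2 * ((3 / 2 : ℝ) ^ i) ^ 2) := by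
        exact mul_le_mul_of_nonneg_left (h2.trans h6) (by positivity)
    _ ≤ (1 / 10 ^ 5) ^ 2 * ((3 / 2 : ℝ) ^ i) ^ 2 := by
        have : (0 : ℝ) ≤ ((3 / 2 : ℝ) ^ i) ^ 2 := by positivity
        nlinarith
    _ = (1 / 10 ^ 5 * (3 / 2 : ℝ) ^ i) ^ 2 := by rw [mul_pow]

/-- upper bound for the window length -/
theorem Hi_upper (C k : ℕ) (c : ℕ → ℤ) (hck : 0 < c k) (Y i : ℕ) :
    8 * 2 ^ (C * (i + 1)) * (Hi C k c Y i : ℝ) ≤ (c k : ℝ) * (Y : ℝ) ^ k := by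
  have h1 : Hi C k c Y i * (8 * 2 ^ (C * (i + 1))) ≤ (c k).toNat * Y ^ k := by
    unfold Hi
    exact Nat.div_mul_le_self _ _
  have h2 : (((c k).toNat : ℕ) : ℤ) = c k := Int.toNat_of_nonneg hck.le
  have h2' : (((c k).toNat : ℕ) : ℝ) = (c k : ℝ) := by exact_mod_cast congrArg (Int.cast (R := ℝ)) h2
  have h3 : ((Hi C k c Y i * (8 * 2 ^ (C * (i + 1))) : ℕ) : ℝ) ≤
      (((c k).toNat * Y ^ k : ℕ) : ℝ) := by exact_mod_cast h1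
  push_cast at h3
  rw [h2'] at h3
  linarith

/-- lower bound for the window length -/
theorem Hi_lower (C G L k : ℕ) (hC : 8 ≤ C) (hG : 1 ≤ G) (hL : 1 ≤ L) (hk : 1 ≤ k) (c : ℕ → ℤ)
    (hck : 0 < c k) (Y i : ℕ) (hi : i ≤ 2 * L + 4) (hbig : PP C G L ≤ Y) :
    (y0 C G L).factorial * Qi C G (2 * L + 4) ^ (10 * L * DD C G L + 18) ≤ Hi C k c Y i := by
  unfold Hi
  rw [Nat.le_div_iff_mul_le (by positivity)]
  have hQ := Qi_big C G L hC hG hL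
  set Q := Qi C G (2 * L + 4) with hQdef
  have h1 : 8 * 2 ^ (C * (i + 1)) ≤ Q ^ 2 := by
    have e1 : 2 ^ (C * (i + 1)) ≤ Q :=
      le_trans (two_pow_le_Qi C G i hG) (Qi_mono C G i _ hi)
    nlinarith
  have h2 : 1 ≤ (c k).toNat := by omega
  have hY1 : 1 ≤ Y := by
    refine le_trans ?_ hbig
    unfold PP
    rw [← hQdef]
    exact Nat.mul_pos (Nat.factorial_pos _) (by positivity)
  calc (y0 C G L).factorial * Q ^ (10 * L * DD C G L + 18) * (8 * 2 ^ (C * (i + 1)))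
      ≤ (y0 C G L).factorial * Q ^ (10 * L * DD C G L + 18) * Q ^ 2 := Nat.mul_le_mul_left _ h1
    _ = PP C G L := by unfold PP; rw [← hQdef]; ring
    _ ≤ Y := hbig
    _ = Y ^ 1 := by ring
    _ ≤ Y ^ k := Nat.pow_le_pow_right hY1 hk
    _ = 1 * Y ^ k := by ring
    _ ≤ (c k).toNat * Y ^ k := Nat.mul_le_mul_right _ h2

/-- coverage by major arcs -/
theorem cov_step (k C G : ℕ) (hk : 1 ≤ k) (hC : 8 ≤ C) (hG : 1 ≤ G) (hW : WeylC k C) (L : ℕ)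
    (hL : 1 ≤ L) (c : ℕ → ℤ) (hck : 0 < c k)
    (hcont : ∀ B : ℕ, (∀ j, 1 ≤ j → j ≤ k → (B : ℤ) ∣ c j) → B ≤ G) (Y : ℕ)
    (hYc : ∀ j ≤ k, (c j) ^ 2 ≤ (Y : ℤ)) (hbig : PP C G L ≤ Y) (θ : ℝ) (i : ℕ)
    (hi : i ≤ 2 * L + 4)
    (hsum : (1 / 2 : ℝ) ^ (i + 1) * ((Ioc Y (2 * Y)).card : ℝ) ≤
      ‖∑ n ∈ Ioc Y (2 * Y), ee (θ * ((pv k c n : ℤ) : ℝ))‖) :
    ∃ (q : ℕ) (a : ℤ), 1 ≤ q ∧ q ≤ Qi C G i ∧
      |θ - a / q| ≤ 1 / (8 * (Hi C k c Y i : ℝ)) := by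
  have hQ := Qi_big C G L hC hG hL
  have hHl := Hi_lower C G L k hC hG hL hk c hck Y i hi hbig
  have hH1 : 1 ≤ Hi C k c Y i := le_trans (Nat.mul_pos (Nat.factorial_pos _) (by positivity)) hHl
  have hQPP : Qi C G (2 * L + 4) ≤ PP C G L := by
    unfold PP
    calc Qi C G (2 * L + 4) = 1 * Qi C G (2 * L + 4) ^ 1 := by ring
      _ ≤ _ := Nat.mul_le_mul (Nat.factorial_pos _) (Nat.pow_le_pow_right (by omega) (by omega))
  have h2Y : 2 ^ (C * (i + 1)) ≤ Y :=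
    le_trans (le_trans (two_pow_le_Qi C G i hG) (Qi_mono C G i _ hi)) (le_trans hQPP hbig)
  have hY1 : 1 ≤ Y := le_trans (Nat.one_le_two_pow) h2Y
  have hδ : (1 / ((1 / 2 : ℝ) ^ (i + 1))) ^ C = 2 ^ (C * (i + 1)) := by
    have e : (1 / ((1 / 2 : ℝ) ^ (i + 1))) = 2 ^ (i + 1) := by
      rw [one_div_pow, one_div_one_div]
    rw [e, ← pow_mul]
    congr 1
    ring
  have hcard : ((Ioc Y (2 * Y)).card : ℝ) = Y := by
    rw [Nat.card_Ioc]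
    have : 2 * Y - Y = Y := by omega
    rw [this]
  rw [hcard] at hsum
  obtain ⟨q, a, hq1, hq2, hq3⟩ := hW c G Y ((1 / 2 : ℝ) ^ (i + 1)) θ hY1 hck hcont
    (fun j _ hj => hYc j hj) (by positivity)
    (by
      calc (1 / 2 : ℝ) ^ (i + 1) ≤ (1 / 2 : ℝ) ^ 1 :=
            pow_le_pow_of_le_one (by norm_num) (by norm_num) (by omega)
        _ = 1 / 2 := by ring)
    (by rw [hδ]; exact_mod_cast h2Y) hsum
  rw [hδ] at hq2 hq3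
  refine ⟨q, a, hq1, ?_, le_trans hq3 ?_⟩
  · unfold Qi
    exact_mod_cast hq2
  · have h1 := Hi_upper C k c hck Y i
    have h2 : (0 : ℝ) < (Hi C k c Y i : ℝ) := by exact_mod_cast hH1
    have h3 : (0 : ℝ) < (c k : ℝ) * (Y : ℝ) ^ k := by
      have : (0 : ℝ) < c k := by exact_mod_cast hck
      have : (0 : ℝ) < Y := by exact_mod_cast hY1
      positivity
    rw [div_le_div_iff₀ h3 (by positivity)]
    linarith

end Vale.Agent.P042.FS
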