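import Vale.Agent.P042.FS.WinPars

namespace Vale.Agent.P042.FS

open Finset

theorem wm_sum_classes (M : ℕ) (hM : 1 ≤ M) (B : Finset ℤ) :
    ∑ r ∈ range M, (B.filter (fun x => x ≡ r [ZMOD M])).card = B.card := by
  have hMpos : (0 : ℤ) < M := by exact_mod_cast hM
  have h1 : ∀ x ∈ B, (x % M).toNat ∈ range M := by
    intro x _
    rw [mem_range]
    have := Int.emod_nonneg x hMpos.ne'
    have := Int.emod_lt_of_pos x hMpos
    omega
  rw [card_eq_sum_card_fiberwise h1]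
  apply sum_congr rfl
  intro r hr
  rw [mem_range] at hr
  congr 1
  apply filter_congr
  intro x _
  have hrM : ((r : ℤ)) % M = r := Int.emod_eq_of_lt (by positivity) (by exact_mod_cast hr)
  unfold Int.ModEq
  rw [hrM]
  have := Int.emod_nonneg x hMpos.ne'
  omega

theorem wm_sum_windows (N H : ℕ) (B : Finset ℤ) (hB : ∀ x ∈ B, 0 ≤ x ∧ x < N) :
    ∑ y ∈ Ico (-(H : ℤ)) N, (B.filter (fun x => y ≤ x ∧ x < y + H)).card = H * B.card := by
  simp_rw [card_filter]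
  rw [sum_comm]
  have h1 : ∀ x ∈ B, ∑ y ∈ Ico (-(H : ℤ)) N, (if y ≤ x ∧ x < y + H then 1 else 0) = H := by
    intro x hx
    obtain ⟨h2, h3⟩ := hB x hx
    rw [← card_filter]
    have h4 : (Ico (-(H : ℤ)) N).filter (fun y => y ≤ x ∧ x < y + H) = Ioc (x - H) x := by
      ext y
      rw [mem_filter, mem_Ico, mem_Ioc]
      omega
    rw [h4, Int.card_Ioc]
    omega
  rw [sum_congr rfl h1, sum_const, smul_eq_mul, mul_comm]

theorem wm_class_card (y r : ℤ) (H M : ℕ) (hM : 1 ≤ M) :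
    (((Ico y (y + H)).filter (fun x => x ≡ r [ZMOD M])).card : ℝ) ≤ H / M + 1 ∧
    (H : ℝ) / M - 1 ≤ (((Ico y (y + H)).filter (fun x => x ≡ r [ZMOD M])).card : ℝ) := by
  have hMpos : (0 : ℤ) < M := by exact_mod_cast hM
  have h1 := Int.Ico_filter_modEq_card y (y + H) hMpos r
  have hMq : (0 : ℚ) < M := by exact_mod_cast hM
  set a : ℚ := ((y - r : ℤ) : ℚ) / ((M : ℤ) : ℚ) with ha
  have hb : (((y + H - r : ℤ)) : ℚ) / ((M : ℤ) : ℚ) = a + H / M := by
    rw [ha]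
    push_cast
    ring
  have h2 : ((((Ico y (y + H)).filter (fun x => x ≡ r [ZMOD M])).card : ℤ)) =
      max (⌈a + H / M⌉ - ⌈a⌉) 0 := by
    rw [h1, ← hb, ha]
    push_cast
    rfl
  have h3 : (⌈a + H / M⌉ : ℚ) < a + H / M + 1 := Int.ceil_lt_add_one _
  have h4 : (a + H / M : ℚ) ≤ ⌈a + H / M⌉ := Int.le_ceil _
  have h5 : (⌈a⌉ : ℚ) < a + 1 := Int.ceil_lt_add_one _
  have h6 : a ≤ ⌈a⌉ := Int.le_ceil _
  have hpos : (0 : ℚ) ≤ H / M := by positivity
  have h7 : ((((Ico y (y + H)).filter (fun x => x ≡ r [ZMOD M])).card : ℚ)) ≤ H / M + 1 ∧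
      (H : ℚ) / M - 1 ≤ (((Ico y (y + H)).filter (fun x => x ≡ r [ZMOD M])).card : ℚ) := by
    have h8 : ((((Ico y (y + H)).filter (fun x => x ≡ r [ZMOD M])).card : ℚ)) =
        max ((⌈a + H / M⌉ : ℚ) - ⌈a⌉) 0 := by
      have := congrArg (Int.cast : ℤ → ℚ) h2
      push_cast at this
      exact this
    rw [h8]
    constructor
    · apply max_le
      · linarith
      · linarith
    · apply le_max_of_le_left
      linarith
  constructor
  · have := (Rat.cast_le (K := ℝ)).2 h7.1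
    push_cast at this
    exact this
  · have := (Rat.cast_le (K := ℝ)).2 h7.2
    push_cast at this
    exact this

/-- the number of points of `B` in a window and in a class -/
noncomputable def wmX (B : Finset ℤ) (H M : ℕ) (y r : ℤ) : ℝ :=
  ((B.filter (fun x => y ≤ x ∧ x < y + H ∧ x ≡ r [ZMOD M])).card : ℝ)

theorem wmX_nonneg (B : Finset ℤ) (H M : ℕ) (y r : ℤ) : 0 ≤ wmX B H M y r := by
  unfold wmX; positivity

theorem wmX_sum_r (B : Finset ℤ) (H M : ℕ) (hM : 1 ≤ M) (y : ℤ) :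
    ∑ r ∈ range M, wmX B H M y r = ((B.filter (fun x => y ≤ x ∧ x < y + H)).card : ℝ) := by
  unfold wmX
  rw [← wm_sum_classes M hM (B.filter (fun x => y ≤ x ∧ x < y + H))]
  push_cast
  apply sum_congr rfl
  intro r _
  congr 2
  rw [filter_filter]
  apply filter_congr
  intro x _
  tauto

theorem wmX_sum (B : Finset ℤ) (N H M : ℕ) (hM : 1 ≤ M) (hB : ∀ x ∈ B, 0 ≤ x ∧ x < N) :
    ∑ y ∈ Ico (-(H : ℤ)) N, ∑ r ∈ range M, wmX B H M y r = H * B.card := by
  rw [sum_congr rfl (fun y _ => wmX_sum_r B H M hM y)]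
  have := wm_sum_windows N H B hB
  exact_mod_cast this

theorem wmX_nu_le (N H M : ℕ) (hM : 1 ≤ M) (y r : ℤ) :
    wmX (Ico (0 : ℤ) N) H M y r ≤ H / M + 1 := by
  refine le_trans ?_ (wm_class_card y r H M hM).1
  unfold wmX
  have : (Ico (0 : ℤ) N).filter (fun x => y ≤ x ∧ x < y + H ∧ x ≡ r [ZMOD M]) ⊆
      (Ico y (y + H)).filter (fun x => x ≡ r [ZMOD M]) := by
    intro x hx
    rw [mem_filter] at hx ⊢
    rw [mem_Ico]
    exact ⟨⟨hx.2.1, hx.2.2.1⟩, hx.2.2.2⟩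
  exact_mod_cast card_le_card this

theorem wmX_nu_ge (N H M : ℕ) (hM : 1 ≤ M) (y r : ℤ) (h0 : 0 ≤ y) (h1 : y + H ≤ N) :
    (H : ℝ) / M - 1 ≤ wmX (Ico (0 : ℤ) N) H M y r := by
  refine le_trans (wm_class_card y r H M hM).2 ?_
  unfold wmX
  have : (Ico y (y + H)).filter (fun x => x ≡ r [ZMOD M]) ⊆
      (Ico (0 : ℤ) N).filter (fun x => y ≤ x ∧ x < y + H ∧ x ≡ r [ZMOD M]) := by
    intro x hx
    rw [mem_filter, mem_Ico] at hx
    rw [mem_filter, mem_Ico]
    exact ⟨⟨by omega, by omega⟩, hx.1.1, hx.1.2, hx.2⟩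
  exact_mod_cast card_le_card this

/-- the sum of the balanced function over a class in a window -/
theorem wm_balf (A : Finset ℤ) (α : ℝ) (N H M : ℕ) (y r : ℤ) :
    ∑ x ∈ (Ico y (y + H)).filter (fun x => x ≡ r [ZMOD M]), balf A α N x =
      wmX A H M y r - α * wmX (Ico (0 : ℤ) N) H M y r := by
  unfold balf wmX
  rw [sum_sub_distrib]
  congr 1
  · rw [← sum_filter, filter_filter, sum_const, nsmul_eq_mul, mul_one]
    congr 2
    ext x
    simp only [mem_filter, mem_Ico]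
    tauto
  · rw [← sum_filter, filter_filter, sum_const, nsmul_eq_mul, mul_comm]
    congr 3
    ext x
    simp only [mem_filter, mem_Ico]
    tauto

/-- edge windows -/
theorem wm_edge (N H : ℕ) :
    ∑ y ∈ Ico (-(H : ℤ)) N, (if 0 ≤ y ∧ y + H ≤ N then (0 : ℝ) else 1) ≤ 2 * H := by
  have h1 : ∑ y ∈ Ico (-(H : ℤ)) N, (if 0 ≤ y ∧ y + H ≤ N then (0 : ℝ) else 1) =
      (((Ico (-(H : ℤ)) N).filter (fun y : ℤ => ¬ (0 ≤ y ∧ y + H ≤ N))).card : ℝ) := by
    rw [card_filter]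
    push_cast
    apply sum_congr rfl
    intro y _
    split_ifs <;> simp_all
  rw [h1]
  have h2 : (Ico (-(H : ℤ)) N).filter (fun y : ℤ => ¬ (0 ≤ y ∧ y + H ≤ N)) ⊆
      Ico (-(H : ℤ)) 0 ∪ Ico ((N : ℤ) - H) N := by
    intro y hy
    rw [mem_filter, mem_Ico] at hy
    rw [mem_union, mem_Ico, mem_Ico]
    omega
  have h3 := (card_le_card h2).trans (card_union_le _ _)
  rw [Int.card_Ico, Int.card_Ico] at h3
  have h4 : ((Ico (-(H : ℤ)) N).filter (fun y : ℤ => ¬ (0 ≤ y ∧ y + H ≤ N))).card ≤ 2 * H := by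
    omega
  exact_mod_cast h4

end Vale.Agent.P042.FS
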