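import Vale.Agent.P042.FS.Defs
import Vale.Agent.P042.FS.WinCount

namespace Vale.Agent.P042.FS

open Finset

/-- Parseval for one window -/
theorem wm_window (A : Finset ℤ) (N M H : ℕ) (α : ℝ) (hM : 1 ≤ M)
    (F : Finset ℚ) (hF : ∀ θ ∈ F, 0 ≤ θ ∧ θ < 1 ∧ ∃ b : ℤ, (M : ℚ) * θ = b) (y : ℤ) :
    ∑ θ ∈ F, ‖∑ x ∈ Ico y (y + H), (balf A α N x : ℂ) * ee (-(x * (θ : ℝ)))‖ ^ 2 ≤
      M * ∑ r ∈ range M, (wmX A H M y r - α * wmX (Ico (0 : ℤ) N) H M y r) ^ 2 := by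
  classical
  have hM0 : (0 : ℚ) < M := by exact_mod_cast hM
  have hFs : F ⊆ (range M).image (fun z : ℕ => (z : ℚ) / M) := by
    intro θ hθ
    obtain ⟨h0, h1, b, hb⟩ := hF θ hθ
    rw [mem_image]
    have hb0 : (0 : ℚ) ≤ b := by rw [← hb]; positivity
    have hb0' : 0 ≤ b := by exact_mod_cast hb0
    have hb1 : (b : ℚ) < M := by
      rw [← hb]
      calc (M : ℚ) * θ < M * 1 := mul_lt_mul_of_pos_left h1 hM0
        _ = M := mul_one _
    have hb1' : b < M := by exact_mod_cast hb1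
    refine ⟨b.toNat, ?_, ?_⟩
    · rw [mem_range]; omega
    · have h2 : ((b.toNat : ℕ) : ℚ) = b := by
        have : ((b.toNat : ℕ) : ℤ) = b := Int.toNat_of_nonneg hb0'
        exact_mod_cast this
      rw [h2, ← hb]
      field_simp
  have hinj : Set.InjOn (fun z : ℕ => (z : ℚ) / M) (range M : Finset ℕ) := by
    intro z _ z' _ h
    have h' : (z : ℚ) / M = (z' : ℚ) / M := h
    rw [div_left_inj' hM0.ne'] at h'
    exact_mod_cast h'
  calc ∑ θ ∈ F, ‖∑ x ∈ Ico y (y + H), (balf A α N x : ℂ) * ee (-(x * (θ : ℝ)))‖ ^ 2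
      ≤ ∑ θ ∈ (range M).image (fun z : ℕ => (z : ℚ) / M),
        ‖∑ x ∈ Ico y (y + H), (balf A α N x : ℂ) * ee (-(x * (θ : ℝ)))‖ ^ 2 :=
        sum_le_sum_of_subset_of_nonneg hFs (fun _ _ _ => by positivity)
    _ = ∑ z ∈ range M,
        ‖∑ x ∈ Ico y (y + H), (balf A α N x : ℂ) * ee (-((x : ℝ) * (z / M)))‖ ^ 2 := by
        rw [sum_image hinj]
        apply sum_congr rfl
        intro z _
        push_cast
        rfl
    _ = M * ∑ r ∈ range M, ‖∑ x ∈ (Ico y (y + H)).filter (fun x => x ≡ r [ZMOD M]),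
        (balf A α N x : ℂ)‖ ^ 2 := wm_parseval M hM _ _
    _ = M * ∑ r ∈ range M, (wmX A H M y r - α * wmX (Ico (0 : ℤ) N) H M y r) ^ 2 := by
        congr 1
        apply sum_congr rfl
        intro r _
        rw [← Complex.ofReal_sum, Complex.norm_real, Real.norm_eq_abs, sq_abs, wm_balf]

theorem wm_numeric (α c h m n : ℝ) (hα : 0 < α) (hc : 0 ≤ c) (hc1 : c ≤ 1 / 4)
    (hm : 0 < m) (hmh : m ≤ h) (hn : 0 < n) (S1 S2 S3 : ℝ)
    (h1 : S1 ≤ (1 + c) * α * h / m * (h * (α * n)))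
    (h2 : (h / m - 1) * (h * (α * n) - 2 * h * ((1 + c) * α * h)) ≤ S2)
    (h3 : S3 ≤ (h / m + 1) * (h * n)) :
    m * (S1 - 2 * α * S2 + α ^ 2 * S3) ≤ α ^ 2 * n * h ^ 2 * (c + 3 * m / h + 5 * h / n) := by
  have hh : 0 < h := lt_of_lt_of_le hm hmh
  have e1 : m * S1 ≤ (1 + c) * α * h * (h * (α * n)) := by
    calc m * S1 ≤ m * ((1 + c) * α * h / m * (h * (α * n))) := mul_le_mul_of_nonneg_left h1 hm.le
      _ = (1 + c) * α * h * (h * (α * n)) := by field_simp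
  have e2 : (h - m) * (h * (α * n) - 2 * h * ((1 + c) * α * h)) ≤ m * S2 := by
    calc (h - m) * (h * (α * n) - 2 * h * ((1 + c) * α * h))
        = m * ((h / m - 1) * (h * (α * n) - 2 * h * ((1 + c) * α * h))) := by field_simp
      _ ≤ m * S2 := mul_le_mul_of_nonneg_left h2 hm.le
  have e3 : m * S3 ≤ (h + m) * (h * n) := by
    calc m * S3 ≤ m * ((h / m + 1) * (h * n)) := mul_le_mul_of_nonneg_left h3 hm.le
      _ = (h + m) * (h * n) := by field_simp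
  have e4 : α ^ 2 * n * h ^ 2 * (c + 3 * m / h + 5 * h / n) =
      α ^ 2 * h * (c * h * n + 3 * m * n + 5 * h ^ 2) := by field_simp
  rw [e4]
  have e5 : m * (S1 - 2 * α * S2 + α ^ 2 * S3) = m * S1 - 2 * α * (m * S2) + α ^ 2 * (m * S3) := by
    ring
  rw [e5]
  have e6 : 2 * α * ((h - m) * (h * (α * n) - 2 * h * ((1 + c) * α * h))) ≤ 2 * α * (m * S2) :=
    mul_le_mul_of_nonneg_left e2 (by positivity)
  have e7 : α ^ 2 * (m * S3) ≤ α ^ 2 * ((h + m) * (h * n)) :=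
    mul_le_mul_of_nonneg_left e3 (by positivity)
  have e8 : 0 ≤ α ^ 2 * h * (5 * h ^ 2 - 4 * (1 + c) * (h - m) * h) := by
    apply mul_nonneg (by positivity)
    have : 4 * (1 + c) * (h - m) * h ≤ 5 * (h - m) * h := by
      apply mul_le_mul_of_nonneg_right _ hh.le
      apply mul_le_mul_of_nonneg_right _ (by linarith)
      linarith
    nlinarith [mul_pos hm hh]
  nlinarith [e1, e6, e7, e8]

/-- window energy at frequencies with denominator dividing `M` -/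
theorem window_major (A : Finset ℤ) (N M H : ℕ) (α c : ℝ) (hM : 1 ≤ M) (hMH : M ≤ H)
    (hHN : H ≤ N) (hA : ∀ x ∈ A, 0 ≤ x ∧ x < N) (hα : (A.card : ℝ) = α * N) (hα0 : 0 < α)
    (hc : 0 ≤ c) (hc1 : c ≤ 1 / 4)
    (hNI : ∀ u z : ℤ, ((A.filter (fun x => u ≤ x ∧ x < u + H ∧ x ≡ z [ZMOD M])).card : ℝ) ≤
      (1 + c) * α * H / M)
    (F : Finset ℚ) (hF : ∀ θ ∈ F, 0 ≤ θ ∧ θ < 1 ∧ ∃ b : ℤ, (M : ℚ) * θ = b) :
    ∑ y ∈ Ico (-(H : ℤ)) N, ∑ θ ∈ F,
      ‖∑ x ∈ Ico y (y + H), (balf A α N x : ℂ) * ee (-(x * (θ : ℝ)))‖ ^ 2 ≤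
    α ^ 2 * N * (H : ℝ) ^ 2 * (c + 3 * M / H + 5 * H / N) := by
  have hMr : (0 : ℝ) < M := by exact_mod_cast hM
  have hMHr : (M : ℝ) ≤ H := by exact_mod_cast hMH
  have hNr : (0 : ℝ) < N := by exact_mod_cast (by omega : 0 < N)
  have hHM : 0 ≤ (H : ℝ) / M - 1 := by
    rw [sub_nonneg, le_div_iff₀ hMr, one_mul]; exact hMHr
  set J := Ico (-(H : ℤ)) N with hJ
  have hB : ∀ x ∈ Ico (0 : ℤ) N, 0 ≤ x ∧ x < N := fun x hx => mem_Ico.1 hx
  have hcardN : ((Ico (0 : ℤ) N).card : ℝ) = N := by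
    rw [Int.card_Ico]; simp
  -- the three sums
  have hS1 : ∑ y ∈ J, ∑ r ∈ range M, wmX A H M y r ^ 2 ≤
      (1 + c) * α * H / M * (H * (α * N)) := by
    rw [← hα, ← wmX_sum A N H M hM hA, mul_sum]
    apply sum_le_sum
    intro y _
    rw [mul_sum]
    apply sum_le_sum
    intro r _
    rw [sq]
    exact mul_le_mul_of_nonneg_right (hNI y r) (wmX_nonneg A H M y r)
  have hS3 : ∑ y ∈ J, ∑ r ∈ range M, wmX (Ico (0 : ℤ) N) H M y r ^ 2 ≤
      ((H : ℝ) / M + 1) * (H * N) := by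
    rw [← hcardN, ← wmX_sum (Ico (0 : ℤ) N) N H M hM hB, mul_sum]
    apply sum_le_sum
    intro y _
    rw [mul_sum]
    apply sum_le_sum
    intro r _
    rw [sq]
    exact mul_le_mul_of_nonneg_right (wmX_nu_le N H M hM y r) (wmX_nonneg _ H M y r)
  have hT : ∀ y : ℤ, ∑ r ∈ range M, wmX A H M y r ≤ (1 + c) * α * H := by
    intro y
    calc ∑ r ∈ range M, wmX A H M y r ≤ ∑ r ∈ range M, (1 + c) * α * H / M :=
          sum_le_sum (fun r _ => hNI y r)
      _ = (1 + c) * α * H := by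
          rw [sum_const, card_range, nsmul_eq_mul]
          field_simp
  have hS2 : ((H : ℝ) / M - 1) * (H * (α * N) - 2 * H * ((1 + c) * α * H)) ≤
      ∑ y ∈ J, ∑ r ∈ range M, wmX A H M y r * wmX (Ico (0 : ℤ) N) H M y r := by
    have h1 : ∀ y ∈ J, ((H : ℝ) / M - 1) * (∑ r ∈ range M, wmX A H M y r -
        (if 0 ≤ y ∧ y + H ≤ N then (0 : ℝ) else 1) * ((1 + c) * α * H)) ≤
        ∑ r ∈ range M, wmX A H M y r * wmX (Ico (0 : ℤ) N) H M y r := by
      intro y _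
      by_cases hy : 0 ≤ y ∧ y + H ≤ N
      · rw [if_pos hy, zero_mul, sub_zero, mul_sum]
        apply sum_le_sum
        intro r _
        rw [mul_comm]
        exact mul_le_mul_of_nonneg_left (wmX_nu_ge N H M hM y r hy.1 hy.2)
          (wmX_nonneg A H M y r)
      · rw [if_neg hy, one_mul]
        have h2 : ((H : ℝ) / M - 1) * (∑ r ∈ range M, wmX A H M y r - (1 + c) * α * H) ≤ 0 :=
          mul_nonpos_of_nonneg_of_nonpos hHM (by linarith [hT y])
        refine h2.trans (sum_nonneg (fun r _ => ?_))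
        exact mul_nonneg (wmX_nonneg _ _ _ _ _) (wmX_nonneg _ _ _ _ _)
    refine le_trans ?_ (sum_le_sum h1)
    rw [← mul_sum, sum_sub_distrib, ← sum_mul, wmX_sum A N H M hM hA, hα]
    apply mul_le_mul_of_nonneg_left _ hHM
    have h3 := wm_edge N H
    have h4 : 0 ≤ (1 + c) * α * H := by positivity
    have h5 := mul_le_mul_of_nonneg_right h3 h4
    linarith
  have hmain := wm_numeric α c H M N hα0 hc hc1 hMr hMHr hNr _ _ _ hS1 hS2 hS3
  refine le_trans (sum_le_sum (fun y _ => wm_window A N M H α hM F hF y)) ?_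
  refine le_trans (le_of_eq ?_) hmain
  rw [← mul_sum]
  congr 1
  rw [mul_sum, mul_sum, ← sum_sub_distrib, ← sum_add_distrib]
  apply sum_congr rfl
  intro y _
  rw [mul_sum, mul_sum, ← sum_sub_distrib, ← sum_add_distrib]
  apply sum_congr rfl
  intro r _
  ring

end Vale.Agent.P042.FS
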