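import Vale.Agent.P042.FS.WinPars

/-! Helper lemmas for `WinMinor.lean` (helper16): the `A`-part. -/

namespace Vale.Agent.P042.FS

open Finset

/-- the fibre of frequencies `θ` with `M θ ≡ M θ₀` -/
theorem wn_fiber (M : ℕ) (hM : 1 ≤ M) (W : Finset ℤ) (g : ℤ → ℂ) (θ₀ : ℚ) (T : Finset ℚ)
    (hT : ∀ θ ∈ T, 0 ≤ θ ∧ θ < 1 ∧ ∃ j : ℤ, (M : ℚ) * (θ - θ₀) = j) :
    ∑ θ ∈ T, ‖∑ x ∈ W, g x * ee (-(x * (θ : ℝ)))‖ ^ 2 ≤
      M * ∑ r ∈ range M, ‖∑ x ∈ W.filter (fun x => x ≡ r [ZMOD M]),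
        g x * ee (-(x * (θ₀ : ℝ)))‖ ^ 2 := by
  classical
  have hM0 : (0 : ℚ) < M := by exact_mod_cast hM
  have hMz : (0 : ℤ) < M := by exact_mod_cast hM
  have hT0 : ∀ θ ∈ T, 0 ≤ θ := fun θ h => (hT θ h).1
  have hT1 : ∀ θ ∈ T, θ < 1 := fun θ h => (hT θ h).2.1
  have hT2 : ∀ θ : ℚ, ∃ j : ℤ, θ ∈ T → (M : ℚ) * (θ - θ₀) = j := by
    intro θ
    by_cases h : θ ∈ T
    · obtain ⟨j, hj⟩ := (hT θ h).2.2
      exact ⟨j, fun _ => hj⟩
    · exact ⟨0, fun h' => absurd h' h⟩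
  choose j hTj using hT2
  set zf : ℚ → ℕ := fun θ => (j θ % M).toNat with hzf
  have hzj : ∀ θ, ((zf θ : ℕ) : ℤ) = j θ % M := fun θ => by
    rw [hzf]; exact Int.toNat_of_nonneg (Int.emod_nonneg _ hMz.ne')
  have hrange : ∀ θ, zf θ ∈ range M := by
    intro θ
    rw [mem_range]
    have h1 := hzj θ
    have h2 := Int.emod_lt_of_pos (j θ) hMz
    omega
  have hinj : Set.InjOn zf T := by
    intro θ hθ θ' hθ' h
    have h1 : j θ % M = j θ' % M := by rw [← hzj, ← hzj, h]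
    have h2 : (M : ℤ) ∣ j θ - j θ' := by
      rw [Int.dvd_iff_emod_eq_zero, Int.sub_emod, h1]; simp
    obtain ⟨e, he⟩ := h2
    have h3 : (M : ℚ) * (θ - θ') = M * e := by
      have h4 := hTj θ hθ
      have h5 := hTj θ' hθ'
      have h6 : ((j θ - j θ' : ℤ) : ℚ) = ((M * e : ℤ) : ℚ) := by rw [he]
      push_cast at h6
      rw [← h4, ← h5] at h6
      linarith
    have h4 : θ - θ' = e := mul_left_cancel₀ hM0.ne' h3
    have h5 := hT0 θ hθ
    have h6 := hT1 θ hθ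
    have h7 := hT0 θ' hθ'
    have h8 := hT1 θ' hθ'
    have h9 : (e : ℚ) < 1 := by linarith
    have h10 : (-1 : ℚ) < e := by linarith
    have h11 : e < 1 := by exact_mod_cast h9
    have h12 : -1 < e := by exact_mod_cast h10
    have h13 : e = 0 := by omega
    rw [h13] at h4
    push_cast at h4
    linarith
  have hterm : ∀ θ ∈ T, ‖∑ x ∈ W, g x * ee (-(x * (θ : ℝ)))‖ ^ 2 =
      ‖∑ x ∈ W, (g x * ee (-(x * (θ₀ : ℝ)))) * ee (-((x : ℝ) * ((zf θ : ℕ) / M)))‖ ^ 2 := by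
    intro θ hθ
    congr 2
    apply sum_congr rfl
    intro x _
    rw [mul_assoc, ← fq_ee_add]
    congr 1
    have h1 : (θ : ℚ) = θ₀ + (zf θ : ℕ) / M + (j θ / (M : ℤ) : ℤ) := by
      have h2 := hTj θ hθ
      have h3 : ((j θ : ℤ) : ℚ) = (zf θ : ℕ) + M * (j θ / (M : ℤ) : ℤ) := by
        have h4 := Int.emod_add_mul_ediv (j θ) (M : ℤ)
        rw [← hzj] at h4
        have h5 := congrArg (Int.cast : ℤ → ℚ) h4
        push_cast at h5
        rw [← h5]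
      rw [h3] at h2
      field_simp
      linarith
    have h6 : (θ : ℝ) = θ₀ + (zf θ : ℕ) / M + (j θ / (M : ℤ) : ℤ) := by
      have h7 := congrArg (Rat.cast : ℚ → ℝ) h1
      push_cast at h7
      exact h7
    have h8 : -((x : ℝ) * (θ : ℝ)) = (-(x * (θ₀ : ℝ)) + -((x : ℝ) * ((zf θ : ℕ) / M))) +
        ((-(x * (j θ / (M : ℤ) : ℤ)) : ℤ) : ℝ) := by
      rw [h6]
      push_cast
      ring
    rw [h8, fq_ee_add _ (((-(x * (j θ / (M : ℤ) : ℤ)) : ℤ) : ℝ)), fq_ee_int, mul_one]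
  rw [sum_congr rfl hterm]
  have h20 : ∑ θ ∈ T, ‖∑ x ∈ W, (g x * ee (-(x * (θ₀ : ℝ)))) *
      ee (-((x : ℝ) * ((zf θ : ℕ) / M)))‖ ^ 2 = ∑ z ∈ T.image zf,
      ‖∑ x ∈ W, (g x * ee (-(x * (θ₀ : ℝ)))) * ee (-((x : ℝ) * (z / M)))‖ ^ 2 := by
    rw [sum_image hinj]
  rw [h20, ← wm_parseval M hM W (fun x => g x * ee (-(x * (θ₀ : ℝ))))]
  apply sum_le_sum_of_subset_of_nonneg
  · intro z hz
    rw [mem_image] at hz
    obtain ⟨θ, _, rfl⟩ := hz
    exact hrange θ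
  · intro _ _ _
    positivity

/-- the first `n` with `y ≤ r + M n` -/
def wu (M : ℕ) (r y : ℤ) : ℤ := -((r - y) / M)

theorem wu_mem (M : ℕ) (hM : 1 ≤ M) (r y : ℤ) (H : ℕ) (n : ℤ) :
    n ∈ Ico (wu M r y) (wu M r (y + H)) ↔ y ≤ r + M * n ∧ r + M * n < y + H := by
  have hMz : (0 : ℤ) < M := by exact_mod_cast hM
  unfold wu
  rw [mem_Ico]
  have h1 : -((r - y) / M) ≤ n ↔ y ≤ r + M * n := by
    rw [neg_le, Int.le_ediv_iff_mul_le hMz]
    constructor <;> intro h <;> linarith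
  have h2 : n < -((r - (y + H)) / M) ↔ r + M * n < y + H := by
    rw [lt_neg, Int.ediv_lt_iff_lt_mul hMz]
    constructor <;> intro h <;> linarith
  rw [h1, h2]

theorem wu_len (M : ℕ) (hM : 1 ≤ M) (r y : ℤ) (H : ℕ) :
    ((wu M r (y + H) - wu M r y : ℤ) : ℝ) ≤ (H : ℝ) / M + 1 := by
  have hMz : (0 : ℤ) < M := by exact_mod_cast hM
  have hM0 : (0 : ℝ) < M := by exact_mod_cast hM
  unfold wu
  have h1 := Int.ediv_mul_le (r - y) hMz.ne'
  have h2 := Int.lt_ediv_add_one_mul_self (r - (y + H)) hMz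
  set p := (r - y) / (M : ℤ)
  set q := (r - (y + H)) / (M : ℤ)
  have h3 : (p - q) * M ≤ H + M := by linarith
  have h4 : ((p - q : ℤ) : ℝ) * M ≤ H + M := by exact_mod_cast h3
  have h5 : ((-q - -p : ℤ) : ℝ) = ((p - q : ℤ) : ℝ) := by congr 1; ring
  rw [h5]
  have h6 : (H : ℝ) / M + 1 = (H + M) / M := by field_simp
  rw [h6, le_div_iff₀ hM0]
  exact h4

open Classical in
/-- the indicator function of `A` on a class and in a window -/
noncomputable def wphi (A : Finset ℤ) (M : ℕ) (r y : ℤ) (H : ℕ) (n : ℤ) : ℝ :=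
  if r + M * n ∈ A ∧ y ≤ r + M * n ∧ r + M * n < y + H then 1 else 0

theorem wphi_nonneg (A : Finset ℤ) (M : ℕ) (r y : ℤ) (H : ℕ) (n : ℤ) : 0 ≤ wphi A M r y H n := by
  unfold wphi; split_ifs <;> norm_num

theorem wphi_le (A : Finset ℤ) (M : ℕ) (r y : ℤ) (H : ℕ) (n : ℤ) : wphi A M r y H n ≤ 1 := by
  unfold wphi; split_ifs <;> norm_num

theorem wphi_supp (A : Finset ℤ) (M : ℕ) (hM : 1 ≤ M) (r y : ℤ) (H : ℕ) (n : ℤ)
    (h : wphi A M r y H n ≠ 0) : wu M r y ≤ n ∧ n < wu M r (y + H) := by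
  unfold wphi at h
  split_ifs at h with h1
  · exact mem_Ico.1 ((wu_mem M hM r y H n).2 h1.2)
  · exact absurd rfl h

theorem wn_class (A : Finset ℤ) (M : ℕ) (hM : 1 ≤ M) (r y : ℤ) (H : ℕ) (G : ℤ → ℂ) :
    ∑ x ∈ (Ico y (y + H)).filter (fun x => x ≡ r [ZMOD M]), (if x ∈ A then (1 : ℂ) else 0) * G x =
      ∑ n ∈ Ico (wu M r y) (wu M r (y + H)), (wphi A M r y H n : ℂ) * G (r + M * n) := by
  have hMz : (0 : ℤ) < M := by exact_mod_cast hM
  have himg : (Ico y (y + H)).filter (fun x => x ≡ r [ZMOD M]) =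
      (Ico (wu M r y) (wu M r (y + H))).image (fun n => r + M * n) := by
    ext x
    rw [mem_filter, mem_Ico, mem_image]
    constructor
    · rintro ⟨h1, h2⟩
      obtain ⟨n, hn⟩ := h2.symm.dvd
      refine ⟨n, ?_, by linarith⟩
      rw [wu_mem M hM]
      have : r + M * n = x := by linarith
      rw [this]
      exact h1
    · rintro ⟨n, hn, rfl⟩
      rw [wu_mem M hM] at hn
      refine ⟨hn, ?_⟩
      rw [Int.modEq_iff_dvd]
      exact ⟨-n, by ring⟩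
  rw [himg, sum_image]
  · apply sum_congr rfl
    intro n hn
    rw [wu_mem M hM] at hn
    unfold wphi
    by_cases h : r + M * n ∈ A
    · rw [if_pos h, if_pos ⟨h, hn⟩]; simp
    · rw [if_neg h, if_neg (fun h' => h h'.1)]; simp
  · intro n _ n' _ h
    have h' : r + (M : ℤ) * n = r + M * n' := h
    have : (M : ℤ) * n = M * n' := by linarith
    exact mul_left_cancel₀ hMz.ne' this

end Vale.Agent.P042.FS
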