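import Vale.Agent.P042.FS.WinPars

/-! Helper lemmas for `WinMinor.lean` (helper16): the interval part. -/

namespace Vale.Agent.P042.FS

open Finset

theorem wn_card_farey (Q : ℕ) : (farey Q).card ≤ Q ^ 2 := by
  unfold farey
  refine card_biUnion_le.trans ?_
  calc ∑ q ∈ Icc 1 Q, ((range q).image (fun a : ℕ => (a : ℚ) / q)).card ≤ ∑ q ∈ Icc 1 Q, Q := by
        apply sum_le_sum
        intro q hq
        rw [mem_Icc] at hq
        exact card_image_le.trans (by rw [card_range]; exact hq.2)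
    _ = Q ^ 2 := by simp [sq]

theorem wn_mem_farey {Q : ℕ} {θ : ℚ} (h : θ ∈ farey Q) :
    ∃ q a : ℕ, 1 ≤ q ∧ q ≤ Q ∧ a < q ∧ θ = a / q := by
  unfold farey at h
  rw [mem_biUnion] at h
  obtain ⟨q, hq, h⟩ := h
  rw [mem_Icc] at hq
  rw [mem_image] at h
  obtain ⟨a, ha, rfl⟩ := h
  exact ⟨q, a, hq.1, hq.2, mem_range.1 ha, rfl⟩

theorem wn_farey_Ico {Q : ℕ} {θ : ℚ} (h : θ ∈ farey Q) : 0 ≤ θ ∧ θ < 1 := by
  obtain ⟨q, a, hq, _, ha, rfl⟩ := wn_mem_farey h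
  have hq0 : (0 : ℚ) < q := by exact_mod_cast hq
  refine ⟨by positivity, ?_⟩
  rw [div_lt_one hq0]
  exact_mod_cast ha

theorem wn_ee_one {x : ℝ} (h : ee x = 1) : ∃ n : ℤ, x = n := by
  unfold ee at h
  rw [Complex.exp_eq_one_iff] at h
  obtain ⟨n, hn⟩ := h
  have h2 : (2 * Real.pi * Complex.I : ℂ) ≠ 0 := Complex.two_pi_I_ne_zero
  rw [mul_comm (n : ℂ)] at hn
  have h3 := mul_left_cancel₀ h2 hn
  exact ⟨n, by exact_mod_cast h3⟩

theorem wn_sum_Ico (u : ℤ) (L : ℕ) (F : ℤ → ℂ) :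
    ∑ x ∈ Ico u (u + L), F x = ∑ i ∈ range L, F (u + i) := by
  have h : Ico u (u + L) = (range L).image (fun i : ℕ => u + (i : ℤ)) := by
    ext x
    rw [mem_Ico, mem_image]
    constructor
    · rintro ⟨h1, h2⟩
      refine ⟨(x - u).toNat, ?_, ?_⟩
      · rw [mem_range]; omega
      · have : (((x - u).toNat : ℕ) : ℤ) = x - u := Int.toNat_of_nonneg (by omega)
        rw [this]; ring
    · rintro ⟨i, hi, rfl⟩
      rw [mem_range] at hi
      omega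
  rw [h, sum_image]
  intro i _ j _ hij
  have : (i : ℤ) = j := by
    have : u + (i : ℤ) = u + j := hij
    linarith
  exact_mod_cast this

/-- exponential sum over an interval at a rational non-integer -/
theorem wn_interval (q : ℕ) (a : ℤ) (hq : 1 ≤ q) (hne : ∀ n : ℤ, (a : ℝ) / q ≠ n) (u : ℤ)
    (L : ℕ) : ‖∑ x ∈ Ico u (u + L), ee (-(x * ((a : ℝ) / q)))‖ ≤ q := by
  have hq0 : (q : ℝ) ≠ 0 := by positivity
  rw [wn_sum_Ico]
  set z : ℂ := ee (-((a : ℝ) / q)) with hz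
  have h1 : ∀ i ∈ range L, ee (-(((u + i : ℤ) : ℝ) * ((a : ℝ) / q))) =
      ee (-((u : ℝ) * ((a : ℝ) / q))) * z ^ i := by
    intro i _
    rw [hz, ← wm_ee_nat_mul, ← fq_ee_add]
    congr 1
    push_cast
    ring
  rw [sum_congr rfl h1, ← mul_sum, norm_mul, wm_norm_ee, one_mul]
  have hz1 : z ≠ 1 := by
    intro h
    obtain ⟨n, hn⟩ := wn_ee_one h
    apply hne (-n)
    push_cast
    linarith
  have hzq : z ^ q = 1 := by
    rw [hz, ← wm_ee_nat_mul]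
    have : -((a : ℝ) / q) * q = ((-a : ℤ) : ℝ) := by
      push_cast
      field_simp
    rw [this]
    exact fq_ee_int _
  have h2 : ∑ i ∈ range L, z ^ i = ∑ i ∈ range (L % q), z ^ i := by
    rw [geom_sum_eq hz1, geom_sum_eq hz1, pow_eq_pow_mod L hzq]
  rw [h2]
  refine (norm_sum_le _ _).trans ?_
  have h3 : ∀ i ∈ range (L % q), ‖z ^ i‖ = 1 := by
    intro i _
    rw [norm_pow, hz, wm_norm_ee, one_pow]
  rw [sum_congr rfl h3, sum_const, card_range, nsmul_eq_mul, mul_one]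
  exact_mod_cast (Nat.mod_lt L (by omega)).le

theorem wn_balf (A : Finset ℤ) (N H : ℕ) (α : ℝ) (q : ℕ) (a : ℤ) (hq : 1 ≤ q)
    (hne : ∀ n : ℤ, (a : ℝ) / q ≠ n) (y : ℤ) :
    ‖∑ x ∈ Ico y (y + H), (balf A α N x : ℂ) * ee (-(x * ((a : ℝ) / q)))‖ ^ 2 ≤
      2 * ‖∑ x ∈ Ico y (y + H), (if x ∈ A then (1 : ℂ) else 0) * ee (-(x * ((a : ℝ) / q)))‖ ^ 2 +
        2 * α ^ 2 * (q : ℝ) ^ 2 := by
  have h1 : ∑ x ∈ Ico y (y + H), (balf A α N x : ℂ) * ee (-(x * ((a : ℝ) / q))) =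
      ∑ x ∈ Ico y (y + H), (if x ∈ A then (1 : ℂ) else 0) * ee (-(x * ((a : ℝ) / q))) -
        α * ∑ x ∈ Ico (max y 0) (min (y + H) N), ee (-(x * ((a : ℝ) / q))) := by
    have h2 : Ico (max y 0) (min (y + H) (N : ℤ)) =
        (Ico y (y + H)).filter (fun x : ℤ => 0 ≤ x ∧ x < (N : ℤ)) := by
      ext x
      rw [mem_filter, mem_Ico, mem_Ico, max_le_iff, lt_min_iff]
      tauto
    rw [h2, sum_filter, mul_sum, ← sum_sub_distrib]
    apply sum_congr rfl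
    intro x _
    unfold balf
    split_ifs <;> simp [sub_mul]
  have h3 : ‖∑ x ∈ Ico (max y 0) (min (y + H) (N : ℤ)), ee (-(x * ((a : ℝ) / q)))‖ ≤ q := by
    rcases le_or_gt (min (y + H) (N : ℤ)) (max y 0) with h | h
    · rw [Ico_eq_empty (by exact not_lt.2 h), sum_empty, norm_zero]
      positivity
    · have h4 : min (y + H) (N : ℤ) = max y 0 + ((min (y + H) (N : ℤ) - max y 0).toNat : ℕ) := by
        rw [Int.toNat_of_nonneg (by omega)]
        ring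
      rw [h4]
      exact wn_interval q a hq hne _ _
  rw [h1]
  set X := ∑ x ∈ Ico y (y + H), (if x ∈ A then (1 : ℂ) else 0) * ee (-(x * ((a : ℝ) / q)))
  set Z := ∑ x ∈ Ico (max y 0) (min (y + H) (N : ℤ)), ee (-(x * ((a : ℝ) / q)))
  have h5 : ‖X - α * Z‖ ≤ ‖X‖ + |α| * ‖Z‖ := by
    refine (norm_sub_le _ _).trans ?_
    rw [norm_mul, Complex.norm_real, Real.norm_eq_abs]
  have h6 : |α| * ‖Z‖ ≤ |α| * q := mul_le_mul_of_nonneg_left h3 (abs_nonneg _)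
  have h7 : ‖X - α * Z‖ ^ 2 ≤ (‖X‖ + |α| * q) ^ 2 :=
    pow_le_pow_left₀ (norm_nonneg _) (h5.trans (by linarith)) 2
  refine h7.trans ?_
  have h8 : (|α| * q) ^ 2 = α ^ 2 * (q : ℝ) ^ 2 := by rw [mul_pow, sq_abs]
  nlinarith [sq_nonneg (‖X‖ - |α| * q)]

end Vale.Agent.P042.FS
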