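import Vale.Agent.P042.FS.Freq
import Vale.Agent.P042.FS.ArithLevel
import Vale.Agent.P042.FS.WinInt
import Vale.Agent.P042.FS.WinArc

namespace Vale.Agent.P042.FS

open Finset

open Classical in
theorem wn_dens (Q y₀ D H : ℕ) (hH : 0 < H) (a : ℝ) (ha : 0 ≤ a) (A : Finset ℤ)
    (hNI : NIw Q y₀ D H a A) (r y : ℤ) (S : Finset (PI Q)) (hS : S.card ≤ D)
    (x : ∀ p, ZMod (pN Q p)) :
    (((1 : ℕ) : ℝ) * ∏ i ∈ S, (pN Q i : ℝ)) / ((H : ℝ) / y₀.factorial) *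
        ∑ n ∈ (Ico (wu y₀.factorial r y) (wu y₀.factorial r (y + H))).filter
          (fun n => ∀ i ∈ S, (n : ZMod (pN Q i)) = x i), wphi A y₀.factorial r y H n ≤
      2 ^ S.card * a := by
  set M : ℕ := y₀.factorial with hMdef
  have hM : 1 ≤ M := Nat.factorial_pos y₀
  have hMz : (0 : ℤ) < M := by exact_mod_cast hM
  have hM0 : (0 : ℝ) < M := by exact_mod_cast hM
  have hH0 : (0 : ℝ) < H := by exact_mod_cast hH
  have hP0 : (0 : ℝ) < ∏ i ∈ S, (pN Q i : ℝ) :=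
    prod_pos fun i _ => by exact_mod_cast Nat.pos_of_ne_zero (NeZero.ne (pN Q i))
  set F := (Ico (wu M r y) (wu M r (y + H))).filter
          (fun n => ∀ i ∈ S, (n : ZMod (pN Q i)) = x i) with hF
  set Z := F.filter (fun n => r + M * n ∈ A) with hZ
  have hsum : ∑ n ∈ F, wphi A M r y H n = (Z.card : ℝ) := by
    rw [hZ, card_filter]
    push_cast
    apply sum_congr rfl
    intro n hn
    rw [hF, mem_filter, wu_mem M hM] at hn
    unfold wphi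
    by_cases h : r + M * n ∈ A
    · rw [if_pos h, if_pos ⟨h, hn.1⟩]
    · rw [if_neg h, if_neg (fun h' => h h'.1)]
  rw [hsum]
  rcases Z.eq_empty_or_nonempty with hZe | ⟨n₀, hn₀⟩
  · rw [hZe, card_empty, Nat.cast_zero, mul_zero]
    positivity
  · have hcard : Z.card ≤ (A.filter (fun x => y ≤ x ∧ x < y + H ∧
        x ≡ r + M * n₀ [ZMOD (modS Q y₀ S)])).card := by
      apply card_le_card_of_injOn (fun n => r + M * n)
      · intro n hn
        rw [mem_coe, hZ, mem_filter, hF, mem_filter, wu_mem M hM] at hn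
        rw [hZ, mem_filter, hF, mem_filter, wu_mem M hM] at hn₀
        simp only [coe_filter, Set.mem_ofPred_eq]
        refine ⟨hn.2, hn.1.1.1, hn.1.1.2, ?_⟩
        have h1 : (∏ p ∈ S, (pN Q p : ℤ)) ∣ n₀ - n := by
          apply Finset.prod_dvd_of_coprime
          · intro p _ p' _ hpp
            show IsCoprime ((pN Q p : ℕ) : ℤ) ((pN Q p' : ℕ) : ℤ)
            rw [Nat.isCoprime_iff_coprime]
            exact pN_coprime Q p p' hpp
          · intro p hp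
            rw [← ZMod.intCast_zmod_eq_zero_iff_dvd]
            push_cast
            rw [hn₀.1.2 p hp, hn.1.2 p hp, sub_self]
        rw [Int.modEq_iff_dvd]
        have h2 : r + M * n₀ - (r + M * n) = M * (n₀ - n) := by ring
        rw [h2]
        unfold modS
        push_cast
        exact mul_dvd_mul_left _ h1
      · intro n _ n' _ h
        have h' : r + (M : ℤ) * n = r + M * n' := h
        have : (M : ℤ) * n = M * n' := by linarith
        exact mul_left_cancel₀ hMz.ne' this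
    have h3 := hNI S hS y (r + M * n₀)
    have h4 : (Z.card : ℝ) ≤ 2 ^ S.card * a * H / (modS Q y₀ S) := by
      refine le_trans ?_ h3
      exact_mod_cast hcard
    have h5 : ((modS Q y₀ S : ℕ) : ℝ) = M * ∏ i ∈ S, (pN Q i : ℝ) := by
      unfold modS
      push_cast
      rfl
    rw [h5] at h4
    calc (((1 : ℕ) : ℝ) * ∏ i ∈ S, (pN Q i : ℝ)) / ((H : ℝ) / M) * (Z.card : ℝ)
        ≤ (((1 : ℕ) : ℝ) * ∏ i ∈ S, (pN Q i : ℝ)) / ((H : ℝ) / M) *
          (2 ^ S.card * a * H / (M * ∏ i ∈ S, (pN Q i : ℝ))) := by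
          apply mul_le_mul_of_nonneg_left h4
          positivity
      _ = 2 ^ S.card * a := by
          push_cast
          field_simp

open Classical in
/-- the energy of `A` in one window -/
theorem wn_energy (Q Q' y₀ m D H : ℕ) (hQ : 2 ≤ Q) (hQ' : Q' ≤ Q) (hm : 1 ≤ m)
    (hy₀ : 2 ≤ y₀) (hD : ∀ t, y₀ ^ t ≤ Q' → t ≤ D) (A : Finset ℤ) (a B : ℝ)
    (ha : Real.exp (-(2 * m : ℝ)) ≤ a) (hB0 : 0 ≤ B)
    (hB : ∀ t, 1 ≤ t → y₀ ^ t ≤ Q' → (48 * m : ℝ) ^ t ≤ B)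
    (hH : (y₀.factorial : ℝ) * (Q : ℝ) ^ (8 * m * D + 1) ≤ H)
    (hNI : NIw Q y₀ D H a A) (y : ℤ) :
    ∑ θ ∈ (farey Q').filter (fun θ => ¬ ∃ b : ℤ, (y₀.factorial : ℚ) * θ = b),
      ‖∑ x ∈ Ico y (y + H), (if x ∈ A then (1 : ℂ) else 0) * ee (-(x * (θ : ℝ)))‖ ^ 2 ≤
      25 * B * a ^ 2 * (H : ℝ) ^ 2 := by
  set M : ℕ := y₀.factorial with hMdef
  have hM : 1 ≤ M := Nat.factorial_pos y₀
  have hMz : (0 : ℤ) < M := by exact_mod_cast hM
  have hM0 : (0 : ℝ) < M := by exact_mod_cast hM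
  have ha0 : 0 < a := lt_of_lt_of_le (Real.exp_pos _) ha
  have hQ0 : (0 : ℝ) < Q := by exact_mod_cast (by omega : 0 < Q)
  have hH0 : (0 : ℝ) < H := lt_of_lt_of_le (by positivity) hH
  have hHn : 0 < H := by exact_mod_cast hH0
  have hm0 : (1 : ℝ) ≤ m := by exact_mod_cast hm
  set F := (farey Q').filter (fun θ => ¬ ∃ b : ℤ, (M : ℚ) * θ = b) with hF
  -- the frequencies
  have hfreq : ∀ θ : ℚ, ∃ ξ : ∀ p, ZMod (pN Q p), θ ∈ F →
      (∀ n : ℤ, ee ((M : ℝ) * (θ : ℝ) * n) = chi ξ (toX (pN Q) n)) ∧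
      y₀ ^ (spt ξ).card ≤ Q' ∧ 1 ≤ (spt ξ).card := by
    intro θ
    by_cases hθ : θ ∈ F
    · have hθ' := hθ
      rw [hF, mem_filter] at hθ'
      obtain ⟨q, b, hq1, hqQ, _, hθe⟩ := wn_mem_farey hθ'.1
      obtain ⟨ξ, hξ1, hξ2⟩ := freq_exists Q y₀ q b hq1 (hqQ.trans hQ')
      have hθr : (θ : ℝ) = ((b : ℤ) : ℝ) / q := by
        rw [hθe]; push_cast; rfl
      refine ⟨ξ, fun _ => ⟨fun n => ?_, hξ2.trans hqQ, ?_⟩⟩
      · rw [hθr]; exact hξ1 n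
      · by_contra hcon
        have h0 : (spt ξ).card = 0 := by omega
        rw [card_eq_zero] at h0
        have hz : ∀ p, ξ p = 0 := by
          intro p
          by_contra hp
          have : p ∈ spt ξ := by simp [spt, hp]
          rw [h0] at this
          exact absurd this (notMem_empty _)
        have h1 := hξ1 1
        have h2 : chi ξ (toX (pN Q) 1) = 1 := by
          unfold chi
          apply prod_eq_one
          intro p _
          rw [hz p, zero_mul]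
          simp
        rw [h2, ← hθr] at h1
        obtain ⟨n, hn⟩ := wn_ee_one h1
        apply hθ'.2
        refine ⟨n, ?_⟩
        have h3 : (M : ℝ) * (θ : ℝ) = n := by rw [← hn]; push_cast; ring
        exact_mod_cast h3
    · exact ⟨fun _ => 0, fun h => absurd h hθ⟩
  choose Ξ hΞ using hfreq
  -- `arith_level` for each class
  set ν : ℝ := (H : ℝ) / M with hν
  have hν0 : 0 < ν := by positivity
  have hlev : ∀ r : ℕ, ∑ ξ ∈ F.image Ξ,
      ‖fco 1 ν (wu M r y) (wu M r (y + H)) (wphi A M r y H) ξ‖ ^ 2 ≤ B * (25 * a ^ 2) := by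
    intro r
    have h := arith_level (ι := PI Q) (N := pN Q) (fun i j hij => pN_coprime Q i j hij) Q hQ
      (pN_le Q) (pN_two Q) (card_PI Q) m hm D univ 1 le_rfl
      (fun i _ => Nat.coprime_one_left _) 0 (wu M r y) (wu M r (y + H)) ν a
      (wu_len M hM r y H)
      (by
        rw [hν, le_div_iff₀ hM0]
        push_cast
        linarith [hH])
      (wphi A M r y H) (wphi_nonneg A M r y H) (wphi_le A M r y H)
      (fun n hn => by
        obtain ⟨h1, h2⟩ := wphi_supp A M hM r y H n hn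
        exact ⟨h1, h2, by rw [Nat.cast_one]; exact Int.modEq_one⟩)
      ha
      (fun S _ hS x => wn_dens Q y₀ D H hHn a ha0.le A hNI r y S hS x)
    calc ∑ ξ ∈ F.image Ξ, ‖fco 1 ν (wu M r y) (wu M r (y + H)) (wphi A M r y H) ξ‖ ^ 2
        ≤ ∑ ξ ∈ F.image Ξ, B * ((1 / (48 * m : ℝ)) ^ (spt ξ).card *
          ‖fco 1 ν (wu M r y) (wu M r (y + H)) (wphi A M r y H) ξ‖ ^ 2) := by
          apply sum_le_sum
          intro ξ hξ
          rw [mem_image] at hξ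
          obtain ⟨θ, hθ, rfl⟩ := hξ
          obtain ⟨_, h2, h3⟩ := hΞ θ hθ
          have h4 := hB _ h3 h2
          have h5 : (0 : ℝ) < (48 * m : ℝ) ^ (spt (Ξ θ)).card := by positivity
          have h6 : 1 ≤ B * (1 / (48 * m : ℝ)) ^ (spt (Ξ θ)).card := by
            rw [one_div, inv_pow, ← div_eq_mul_inv, le_div_iff₀ h5, one_mul]
            exact h4
          calc ‖fco 1 ν (wu M r y) (wu M r (y + H)) (wphi A M r y H) (Ξ θ)‖ ^ 2
              = 1 * ‖fco 1 ν (wu M r y) (wu M r (y + H)) (wphi A M r y H) (Ξ θ)‖ ^ 2 := by ring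
            _ ≤ (B * (1 / (48 * m : ℝ)) ^ (spt (Ξ θ)).card) *
              ‖fco 1 ν (wu M r y) (wu M r (y + H)) (wphi A M r y H) (Ξ θ)‖ ^ 2 :=
              mul_le_mul_of_nonneg_right h6 (by positivity)
            _ = _ := by ring
      _ = B * ∑ ξ ∈ F.image Ξ, ((1 / (48 * m : ℝ)) ^ (spt ξ).card *
          ‖fco 1 ν (wu M r y) (wu M r (y + H)) (wphi A M r y H) ξ‖ ^ 2) := by rw [mul_sum]
      _ ≤ B * (25 * a ^ 2) := by
          apply mul_le_mul_of_nonneg_left _ hB0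
          refine le_trans ?_ h
          apply sum_le_sum_of_subset_of_nonneg
          · intro ξ hξ
            rw [mem_image] at hξ
            obtain ⟨θ, hθ, rfl⟩ := hξ
            obtain ⟨_, h2, _⟩ := hΞ θ hθ
            rw [mem_filter]
            exact ⟨mem_univ _, subset_univ _, hD _ h2⟩
          · intro _ _ _
            positivity
  -- one fibre
  have hfib : ∀ ξ ∈ F.image Ξ, ∑ θ ∈ F.filter (fun θ => Ξ θ = ξ),
      ‖∑ x ∈ Ico y (y + H), (if x ∈ A then (1 : ℂ) else 0) * ee (-(x * (θ : ℝ)))‖ ^ 2 ≤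
      M * ∑ r ∈ range M, ν ^ 2 *
        ‖fco 1 ν (wu M r y) (wu M r (y + H)) (wphi A M r y H) ξ‖ ^ 2 := by
    intro ξ hξ
    rw [mem_image] at hξ
    obtain ⟨θ₀, hθ₀, hξe⟩ := hξ
    obtain ⟨hc0, _, _⟩ := hΞ θ₀ hθ₀
    have hT : ∀ θ ∈ F.filter (fun θ => Ξ θ = ξ), 0 ≤ θ ∧ θ < 1 ∧
        ∃ j : ℤ, (M : ℚ) * (θ - θ₀) = j := by
      intro θ hθ
      rw [mem_filter] at hθ
      have hθF := hθ.1
      rw [hF, mem_filter] at hθF
      obtain ⟨h0, h1⟩ := wn_farey_Ico hθF.1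
      refine ⟨h0, h1, ?_⟩
      obtain ⟨hc, _, _⟩ := hΞ θ hθ.1
      have h2 : ee ((M : ℝ) * (θ : ℝ) * ((1 : ℤ) : ℝ)) = ee ((M : ℝ) * (θ₀ : ℝ) * ((1 : ℤ) : ℝ)) := by
        rw [hc 1, hc0 1, hθ.2, hξe]
      have h3 : ee ((M : ℝ) * ((θ : ℝ) - θ₀)) = 1 := by
        have h4 : (M : ℝ) * (θ : ℝ) * ((1 : ℤ) : ℝ) =
            (M : ℝ) * ((θ : ℝ) - θ₀) + (M : ℝ) * (θ₀ : ℝ) * ((1 : ℤ) : ℝ) := by
          push_cast; ring
        rw [h4, fq_ee_add] at h2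
        have h5 : ee ((M : ℝ) * (θ₀ : ℝ) * ((1 : ℤ) : ℝ)) ≠ 0 := by
          rw [← norm_ne_zero_iff, wm_norm_ee]
          exact one_ne_zero
        exact mul_eq_right₀ h5 |>.1 h2
      obtain ⟨j, hj⟩ := wn_ee_one h3
      exact ⟨j, by exact_mod_cast hj⟩
    refine (wn_fiber M hM (Ico y (y + H)) (fun x => if x ∈ A then (1 : ℂ) else 0) θ₀ _ hT).trans ?_
    apply mul_le_mul_of_nonneg_left _ hM0.le
    apply sum_le_sum
    intro r _
    rw [wn_class A M hM r y H (fun x => ee (-(x * (θ₀ : ℝ))))]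
    have h6 : ∑ n ∈ Ico (wu M r y) (wu M r (y + H)), (wphi A M r y H n : ℂ) *
        ee (-(((r : ℤ) + M * n : ℤ) * (θ₀ : ℝ))) = ee (-(r * (θ₀ : ℝ))) * (ν *
          fco 1 ν (wu M r y) (wu M r (y + H)) (wphi A M r y H) ξ) := by
      unfold fco
      have h7 : ((ν : ℝ) : ℂ) * ((((1 : ℕ) : ℝ) / ν : ℝ) : ℂ) = 1 := by
        push_cast
        have : (ν : ℂ) ≠ 0 := by exact_mod_cast hν0.ne'
        field_simp
      rw [← mul_assoc (ν : ℂ), h7, one_mul, mul_sum]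
      apply sum_congr rfl
      intro n _
      rw [← hξe, ← hc0 n, wm_conj_ee]
      have h8 : -((((r : ℤ) + M * n : ℤ) : ℝ) * (θ₀ : ℝ)) =
          -(r * (θ₀ : ℝ)) + -((M : ℝ) * (θ₀ : ℝ) * n) := by
        push_cast; ring
      rw [h8, fq_ee_add]
      ring
    have h9 : ∑ n ∈ Ico (wu M r y) (wu M r (y + H)), (wphi A M r y H n : ℂ) *
        (fun x : ℤ => ee (-(x * (θ₀ : ℝ)))) ((r : ℤ) + M * n) = ee (-(r * (θ₀ : ℝ))) * (ν *
          fco 1 ν (wu M r y) (wu M r (y + H)) (wphi A M r y H) ξ) := h6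
    rw [h9, norm_mul, wm_norm_ee, one_mul, norm_mul, Complex.norm_real, Real.norm_eq_abs,
      abs_of_pos hν0, mul_pow]
  -- summation
  calc ∑ θ ∈ F, ‖∑ x ∈ Ico y (y + H), (if x ∈ A then (1 : ℂ) else 0) * ee (-(x * (θ : ℝ)))‖ ^ 2
      = ∑ ξ ∈ F.image Ξ, ∑ θ ∈ F.filter (fun θ => Ξ θ = ξ),
        ‖∑ x ∈ Ico y (y + H), (if x ∈ A then (1 : ℂ) else 0) * ee (-(x * (θ : ℝ)))‖ ^ 2 :=
        (sum_fiberwise_of_maps_to (fun θ hθ => mem_image_of_mem Ξ hθ) _).symm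
    _ ≤ ∑ ξ ∈ F.image Ξ, M * ∑ r ∈ range M, ν ^ 2 *
        ‖fco 1 ν (wu M r y) (wu M r (y + H)) (wphi A M r y H) ξ‖ ^ 2 := sum_le_sum hfib
    _ = M * ν ^ 2 * ∑ r ∈ range M, ∑ ξ ∈ F.image Ξ,
        ‖fco 1 ν (wu M r y) (wu M r (y + H)) (wphi A M r y H) ξ‖ ^ 2 := by
        rw [← mul_sum, sum_comm, mul_assoc]
        congr 1
        rw [mul_sum]
        apply sum_congr rfl
        intro r _
        rw [mul_sum]
    _ ≤ M * ν ^ 2 * ∑ r ∈ range M, B * (25 * a ^ 2) := by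
        apply mul_le_mul_of_nonneg_left _ (by positivity)
        exact sum_le_sum fun r _ => hlev r
    _ = 25 * B * a ^ 2 * (H : ℝ) ^ 2 := by
        rw [sum_const, card_range, nsmul_eq_mul, hν]
        field_simp

open Classical in
/-- window energy at the other frequencies -/
theorem window_minor (Q Q' y₀ m D H : ℕ) (hQ : 2 ≤ Q) (hQ' : Q' ≤ Q) (hm : 1 ≤ m)
    (hy₀ : 2 ≤ y₀) (hD : ∀ t, y₀ ^ t ≤ Q' → t ≤ D) (A : Finset ℤ) (N : ℕ) (α a B : ℝ)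
    (ha : Real.exp (-(2 * m : ℝ)) ≤ a) (hB0 : 0 ≤ B)
    (hB : ∀ t, 1 ≤ t → y₀ ^ t ≤ Q' → (48 * m : ℝ) ^ t ≤ B)
    (hH : (y₀.factorial : ℝ) * (Q : ℝ) ^ (8 * m * D + 1) ≤ H)
    (hNI : NIw Q y₀ D H a A) (y : ℤ) :
    ∑ θ ∈ (farey Q').filter (fun θ => ¬ ∃ b : ℤ, (y₀.factorial : ℚ) * θ = b),
      ‖∑ x ∈ Ico y (y + H), (balf A α N x : ℂ) * ee (-(x * (θ : ℝ)))‖ ^ 2 ≤
      50 * B * a ^ 2 * (H : ℝ) ^ 2 + 2 * α ^ 2 * (Q' : ℝ) ^ 4 := by
  have h1 : ∀ θ ∈ (farey Q').filter (fun θ => ¬ ∃ b : ℤ, (y₀.factorial : ℚ) * θ = b),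
      ‖∑ x ∈ Ico y (y + H), (balf A α N x : ℂ) * ee (-(x * (θ : ℝ)))‖ ^ 2 ≤
      2 * ‖∑ x ∈ Ico y (y + H), (if x ∈ A then (1 : ℂ) else 0) * ee (-(x * (θ : ℝ)))‖ ^ 2 +
        2 * α ^ 2 * (Q' : ℝ) ^ 2 := by
    intro θ hθ
    rw [mem_filter] at hθ
    obtain ⟨q, b, hq1, hqQ, _, hθe⟩ := wn_mem_farey hθ.1
    have hθr : (θ : ℝ) = ((b : ℤ) : ℝ) / q := by
      rw [hθe]; push_cast; rfl
    have hne : ∀ n : ℤ, ((b : ℤ) : ℝ) / q ≠ n := by
      intro n hn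
      apply hθ.2
      refine ⟨y₀.factorial * n, ?_⟩
      rw [← hθr] at hn
      have h2 : θ = n := by exact_mod_cast hn
      rw [h2]
      push_cast
      ring
    have h3 := wn_balf A N H α q b hq1 hne y
    rw [← hθr] at h3
    refine h3.trans ?_
    have h4 : (q : ℝ) ^ 2 ≤ (Q' : ℝ) ^ 2 := by
      have : (q : ℝ) ≤ Q' := by exact_mod_cast hqQ
      exact pow_le_pow_left₀ (by positivity) this 2
    have h5 : 2 * α ^ 2 * (q : ℝ) ^ 2 ≤ 2 * α ^ 2 * (Q' : ℝ) ^ 2 :=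
      mul_le_mul_of_nonneg_left h4 (by positivity)
    linarith
  refine (sum_le_sum h1).trans ?_
  rw [sum_add_distrib, ← mul_sum, sum_const, nsmul_eq_mul]
  have h2 := wn_energy Q Q' y₀ m D H hQ hQ' hm hy₀ hD A a B ha hB0 hB hH hNI y
  have h3 : ((((farey Q').filter (fun θ => ¬ ∃ b : ℤ, (y₀.factorial : ℚ) * θ = b)).card : ℕ) : ℝ)
      ≤ (Q' : ℝ) ^ 2 := by
    exact_mod_cast (card_filter_le _ _).trans (wn_card_farey Q')
  have h4 : ((((farey Q').filter (fun θ => ¬ ∃ b : ℤ, (y₀.factorial : ℚ) * θ = b)).card : ℕ) : ℝ) *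
      (2 * α ^ 2 * (Q' : ℝ) ^ 2) ≤ (Q' : ℝ) ^ 2 * (2 * α ^ 2 * (Q' : ℝ) ^ 2) :=
    mul_le_mul_of_nonneg_right h3 (by positivity)
  calc _ ≤ 2 * (25 * B * a ^ 2 * (H : ℝ) ^ 2) + (Q' : ℝ) ^ 2 * (2 * α ^ 2 * (Q' : ℝ) ^ 2) := by
        linarith
    _ = _ := by ring

end Vale.Agent.P042.FS
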