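import Vale.Agent.P042.FS.Circle
import Vale.Agent.P042.FS.WinMajor
import Vale.Agent.P042.FS.WinMinor
import Vale.Agent.P042.FS.StepA
import Vale.Agent.P042.FS.StepB

namespace Vale.Agent.P042.FS

open Finset

/-- numerical part of `level_bound` -/
theorem level_num (i : ℕ) (α N H q S1 S2 : ℝ) (hN : 0 ≤ N) (hH : 0 < H)
    (h1 : S1 ≤ α ^ 2 * N * H ^ 2 * (12 / 10000))
    (h2 : S2 ≤ (2 * N) * (50 * (1 / 10 ^ 5 * (3 / 2 : ℝ) ^ i) * ((1 + 1 / 1000) * α) ^ 2 * H ^ 2 +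
        2 * α ^ 2 * q ^ 4)) (hq : q ^ 4 ≤ 1 / 10000 * H ^ 2) :
    (1 / 2 : ℝ) ^ i * (4 / H ^ 2 * (S1 + S2)) ≤
      α ^ 2 * N * ((1 / 2 : ℝ) ^ i * (6.5 / 1000) + (3 / 4 : ℝ) ^ i * (5 / 1000)) := by
  have hα2 : 0 ≤ α ^ 2 := sq_nonneg α
  have hmin3 : (2 * N) * (50 * (1 / 10 ^ 5 * (3 / 2 : ℝ) ^ i) * ((1 + 1 / 1000) * α) ^ 2 *
      H ^ 2 + 2 * α ^ 2 * q ^ 4) ≤
      α ^ 2 * N * H ^ 2 * ((3 / 2 : ℝ) ^ i * (11 / 10000) + 4 / 10000) := by
    have e1 : 50 * (1 / 10 ^ 5 * (3 / 2 : ℝ) ^ i) * ((1 + 1 / 1000) * α) ^ 2 * H ^ 2 ≤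
        α ^ 2 * H ^ 2 * ((3 / 2 : ℝ) ^ i * (11 / 20000)) := by
      have : (0 : ℝ) ≤ α ^ 2 * H ^ 2 * (3 / 2 : ℝ) ^ i := by positivity
      nlinarith
    have e2 : 2 * α ^ 2 * q ^ 4 ≤ α ^ 2 * H ^ 2 * (2 / 10000) := by
      calc 2 * α ^ 2 * q ^ 4 ≤ 2 * α ^ 2 * (1 / 10000 * H ^ 2) :=
            mul_le_mul_of_nonneg_left hq (by positivity)
        _ = _ := by ring
    calc _ ≤ (2 * N) * (α ^ 2 * H ^ 2 * ((3 / 2 : ℝ) ^ i * (11 / 20000)) +
          α ^ 2 * H ^ 2 * (2 / 10000)) :=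
          mul_le_mul_of_nonneg_left (add_le_add e1 e2) (by positivity)
      _ = _ := by ring
  have htot : S1 + S2 ≤ α ^ 2 * N * H ^ 2 * ((3 / 2 : ℝ) ^ i * (11 / 10000) + 16 / 10000) := by
    have := add_le_add h1 (le_trans h2 hmin3)
    refine le_trans this (le_of_eq ?_)
    ring
  have h34 : (1 / 2 : ℝ) ^ i * (3 / 2 : ℝ) ^ i = (3 / 4 : ℝ) ^ i := by
    rw [← mul_pow]; norm_num
  calc _ ≤ (1 / 2 : ℝ) ^ i * (4 / H ^ 2 *
        (α ^ 2 * N * H ^ 2 * ((3 / 2 : ℝ) ^ i * (11 / 10000) + 16 / 10000))) := by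
        apply mul_le_mul_of_nonneg_left _ (by positivity)
        exact mul_le_mul_of_nonneg_left htot (by positivity)
    _ = α ^ 2 * N * (((1 / 2 : ℝ) ^ i * (3 / 2 : ℝ) ^ i) * (44 / 10000) +
          (1 / 2 : ℝ) ^ i * (64 / 10000)) := by
        field_simp
        ring
    _ ≤ _ := by
        rw [h34]
        apply mul_le_mul_of_nonneg_left _ (by positivity)
        have e1 : (0 : ℝ) ≤ (3 / 4 : ℝ) ^ i := by positivity
        have e2 : (0 : ℝ) ≤ (1 / 2 : ℝ) ^ i := by positivity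
        nlinarith

/-- sizes of the windows -/
theorem level_sizes (k C : ℕ) (hk : 1 ≤ k) (hC : 8 ≤ C) (G : ℕ) (hG : 1 ≤ G)
    (L : ℕ) (hL : 1 ≤ L) (c : ℕ → ℤ) (hck : 0 < c k) (N Y : ℕ)
    (hYN : c k * 2 ^ (k + 4) * (Y : ℤ) ^ k ≤ N) (hbig : PP C G L ≤ Y) (i : ℕ)
    (hi : i ≤ 2 * L + 4) :
    (y0 C G L).factorial * 2 ^ 56 ≤ Hi C k c Y i ∧ 65536 * Hi C k c Y i ≤ N ∧
      Qi C G i ^ 4 * 2 ^ 56 ≤ (Hi C k c Y i) ^ 2 ∧
      (y0 C G L).factorial * Qi C G (2 * L + 4) ^ (8 * L * DD C G L + 1) ≤ Hi C k c Y i := by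
  have hQ := Qi_big C G L hC hG hL
  have hHl := Hi_lower C G L k hC hG hL hk c hck Y i hi hbig
  have hHu := Hi_upper C k c hck Y i
  have hQm := Qi_mono C G i _ hi
  set Q := Qi C G (2 * L + 4) with hQdef
  set H := Hi C k c Y i with hHdef
  set D := DD C G L with hD
  set M := (y0 C G L).factorial with hMdef
  have hM1 : 1 ≤ M := Nat.factorial_pos _
  have hQ1 : 1 ≤ Q := by omega
  have hMQH : M * Q ^ 18 ≤ H := by
    refine le_trans ?_ hHl
    apply Nat.mul_le_mul_left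
    exact Nat.pow_le_pow_right hQ1 (by omega)
  have hQH : Q ^ 18 ≤ H := by
    refine le_trans ?_ hMQH
    exact Nat.le_mul_of_pos_left _ hM1
  have hH1 : 1 ≤ H := le_trans (Nat.one_le_pow _ _ hQ1) hQH
  have hHR : (0 : ℝ) < H := by exact_mod_cast hH1
  refine ⟨?_, ?_, ?_, ?_⟩
  · refine le_trans ?_ hMQH
    apply Nat.mul_le_mul_left
    calc 2 ^ 56 ≤ Q := hQ
      _ = Q ^ 1 := by ring
      _ ≤ Q ^ 18 := Nat.pow_le_pow_right hQ1 (by norm_num)
  · have e1 : (8 * 2 ^ 8 : ℝ) ≤ 8 * 2 ^ (C * (i + 1)) := by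
      have : (2 : ℝ) ^ 8 ≤ 2 ^ (C * (i + 1)) :=
        pow_le_pow_right₀ (by norm_num) (by nlinarith)
      linarith
    have e2 : (2 : ℝ) ^ 5 ≤ 2 ^ (k + 4) := pow_le_pow_right₀ (by norm_num) (by omega)
    have e3 : ((c k * 2 ^ (k + 4) * (Y : ℤ) ^ k : ℤ) : ℝ) ≤ N := by exact_mod_cast hYN
    push_cast at e3
    have e4 : (0 : ℝ) ≤ (c k : ℝ) * (Y : ℝ) ^ k := by
      have : (0 : ℝ) < c k := by exact_mod_cast hck
      positivity
    have : (65536 : ℝ) * H ≤ N := by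
      calc (65536 : ℝ) * H = 2 ^ 5 * (8 * 2 ^ 8 * H) := by ring
        _ ≤ 2 ^ 5 * (8 * 2 ^ (C * (i + 1)) * H) := by
            apply mul_le_mul_of_nonneg_left _ (by positivity)
            exact mul_le_mul_of_nonneg_right e1 hHR.le
        _ ≤ 2 ^ 5 * ((c k : ℝ) * (Y : ℝ) ^ k) := mul_le_mul_of_nonneg_left hHu (by positivity)
        _ ≤ 2 ^ (k + 4) * ((c k : ℝ) * (Y : ℝ) ^ k) := mul_le_mul_of_nonneg_right e2 e4
        _ = (c k : ℝ) * 2 ^ (k + 4) * (Y : ℝ) ^ k := by ring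
        _ ≤ N := e3
    exact_mod_cast this
  · calc Qi C G i ^ 4 * 2 ^ 56 ≤ Q ^ 4 * Q := Nat.mul_le_mul (Nat.pow_le_pow_left hQm 4) hQ
      _ = Q ^ 5 := by ring
      _ ≤ Q ^ 18 := Nat.pow_le_pow_right hQ1 (by norm_num)
      _ ≤ H := hQH
      _ = H ^ 1 := by ring
      _ ≤ H ^ 2 := Nat.pow_le_pow_right hH1 (by norm_num)
  · refine le_trans ?_ hHl
    apply Nat.mul_le_mul_left
    apply Nat.pow_le_pow_right hQ1
    have : 8 * L * D ≤ 10 * L * D := by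
      apply Nat.mul_le_mul_right
      omega
    omega

open Classical in
/-- one level -/
theorem level_bound (k C : ℕ) (hk : 1 ≤ k) (hC : 8 ≤ C) (G : ℕ) (hG : 1 ≤ G)
    (L : ℕ) (hL : 1 ≤ L) (c : ℕ → ℤ) (hck : 0 < c k)
    (N Y : ℕ) (A : Finset ℤ) (α : ℝ) (hA : ∀ x ∈ A, 0 ≤ x ∧ x < N)
    (hα : (A.card : ℝ) = α * N) (hαL : Real.exp (-(L : ℝ)) ≤ α)
    (hYN : c k * 2 ^ (k + 4) * (Y : ℤ) ^ k ≤ N) (hbig : PP C G L ≤ Y) (i : ℕ)
    (hi : i ≤ 2 * L + 4)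
    (hNI : NIw (Qi C G (2 * L + 4)) (y0 C G L) (DD C G L) (Hi C k c Y i)
      ((1 + 1 / 1000) * α) A) :
    (1 / 2 : ℝ) ^ i * (4 / (Hi C k c Y i : ℝ) ^ 2 *
      ∑ y ∈ Ico (-(Hi C k c Y i : ℤ)) N, ∑ θ ∈ farey (Qi C G i),
        ‖∑ x ∈ Ico y (y + Hi C k c Y i), (balf A α N x : ℂ) * ee (-(x * (θ : ℝ)))‖ ^ 2) ≤
      α ^ 2 * N * ((1 / 2 : ℝ) ^ i * (6.5 / 1000) + (3 / 4 : ℝ) ^ i * (5 / 1000)) := by
  have hα0 : 0 < α := lt_of_lt_of_le (Real.exp_pos _) hαL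
  have hQ := Qi_big C G L hC hG hL
  obtain ⟨hs1, hs2, hs3, hs4⟩ := level_sizes k C hk hC G hG L hL c hck N Y hYN hbig i hi
  have hQm := Qi_mono C G i _ hi
  have hy2 := y0_two C G L hC hG hL
  generalize hQdef : Qi C G (2 * L + 4) = Q at *
  generalize hHdef : Hi C k c Y i = H at *
  set y₀ := y0 C G L with hy₀
  set D := DD C G L with hD
  set M := y₀.factorial with hMdef
  have hM1 : 1 ≤ M := Nat.factorial_pos _
  have hMH : M ≤ H := by omega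
  have hH1 : 1 ≤ H := by omega
  have hHR : (0 : ℝ) < H := by exact_mod_cast hH1
  have hHN : H ≤ N := by omega
  have hNR : (0 : ℝ) < N := by
    have : 0 < N := by omega
    exact_mod_cast this
  -- major part
  have hmaj := window_major A N M H α (1 / 1000) hM1 hMH hHN hA hα hα0 (by norm_num)
    (by norm_num)
    (by
      intro u z
      have := hNI ∅ (by simp) u z
      rw [modS_empty] at this
      simpa using this)
    ((farey (Qi C G i)).filter (fun θ => ∃ b : ℤ, (M : ℚ) * θ = b))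
    (by
      intro θ hθ
      rw [Finset.mem_filter] at hθ
      exact ⟨(farey_mem _ θ hθ.1).1, (farey_mem _ θ hθ.1).2, hθ.2⟩)
  -- minor part
  have hmin := window_minor Q (Qi C G i) y₀ L D H (by omega) hQm hL hy2
    (fun t ht => hD_bound C G L i t hC hG hL hi ht) A N α ((1 + 1 / 1000) * α)
    (1 / 10 ^ 5 * (3 / 2 : ℝ) ^ i)
    (by
      have e1 : Real.exp (-(2 * L : ℝ)) ≤ Real.exp (-(L : ℝ)) := by
        apply Real.exp_le_exp.mpr
        have : (0 : ℝ) ≤ L := Nat.cast_nonneg _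
        linarith
      have e2 : α ≤ (1 + 1 / 1000) * α := by linarith
      linarith)
    (by positivity)
    (fun t ht1 ht2 => hB_bound C G L i t hC hG hL ht1 ht2)
    (by exact_mod_cast hs4)
    hNI
  have hsplit : ∑ y ∈ Ico (-(H : ℤ)) N, ∑ θ ∈ farey (Qi C G i),
        ‖∑ x ∈ Ico y (y + H), (balf A α N x : ℂ) * ee (-(x * (θ : ℝ)))‖ ^ 2 =
      ∑ y ∈ Ico (-(H : ℤ)) N, ∑ θ ∈ (farey (Qi C G i)).filter
        (fun θ => ∃ b : ℤ, (M : ℚ) * θ = b),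
        ‖∑ x ∈ Ico y (y + H), (balf A α N x : ℂ) * ee (-(x * (θ : ℝ)))‖ ^ 2 +
      ∑ y ∈ Ico (-(H : ℤ)) N, ∑ θ ∈ (farey (Qi C G i)).filter
        (fun θ => ¬ ∃ b : ℤ, (M : ℚ) * θ = b),
        ‖∑ x ∈ Ico y (y + H), (balf A α N x : ℂ) * ee (-(x * (θ : ℝ)))‖ ^ 2 := by
    rw [← Finset.sum_add_distrib]
    apply Finset.sum_congr rfl
    intro y _
    rw [Finset.sum_filter_add_sum_filter_not]
  rw [hsplit]
  refine level_num i α N H (Qi C G i) _ _ hNR.le hHR (le_trans hmaj ?_) ?_ ?_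
  · apply mul_le_mul_of_nonneg_left _ (by positivity)
    have hb1 : 3 * (M : ℝ) / H ≤ 1 / 10000 := by
      rw [div_le_div_iff₀ hHR (by norm_num)]
      have h2 : (M : ℝ) * 2 ^ 56 ≤ H := by exact_mod_cast hs1
      have h3 : (0 : ℝ) ≤ M := Nat.cast_nonneg _
      linarith
    have hb2 : 5 * (H : ℝ) / N ≤ 1 / 10000 := by
      rw [div_le_div_iff₀ hNR (by norm_num)]
      have h2 : 65536 * (H : ℝ) ≤ N := by exact_mod_cast hs2
      linarith
    linarith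
  · calc _ ≤ ∑ y ∈ Ico (-(H : ℤ)) N,
          (50 * (1 / 10 ^ 5 * (3 / 2 : ℝ) ^ i) * ((1 + 1 / 1000) * α) ^ 2 * (H : ℝ) ^ 2 +
          2 * α ^ 2 * (Qi C G i : ℝ) ^ 4) := Finset.sum_le_sum fun y _ => hmin y
      _ = (((N : ℤ) - (-(H : ℤ))).toNat : ℝ) *
          (50 * (1 / 10 ^ 5 * (3 / 2 : ℝ) ^ i) * ((1 + 1 / 1000) * α) ^ 2 * (H : ℝ) ^ 2 +
          2 * α ^ 2 * (Qi C G i : ℝ) ^ 4) := by
          rw [Finset.sum_const, Int.card_Ico, nsmul_eq_mul]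
      _ ≤ _ := by
          apply mul_le_mul_of_nonneg_right _ (by positivity)
          have : ((N : ℤ) - (-(H : ℤ))).toNat ≤ 2 * N := by omega
          exact_mod_cast this
  · have e2 : (Qi C G i : ℝ) ^ 4 * 2 ^ 56 ≤ (H : ℝ) ^ 2 := by exact_mod_cast hs3
    have e3 : (0 : ℝ) ≤ (Qi C G i : ℝ) ^ 4 := by positivity
    linarith

/-- a set that avoids `H(n)` and is dense on no short progression does not exist -/
theorem step_contra (k C : ℕ) (hk : 1 ≤ k) (hC : 8 ≤ C) (hW : WeylC k C) (G : ℕ) (hG : 1 ≤ G)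
    (L : ℕ) (hL : 1 ≤ L) (c : ℕ → ℤ) (hck : 0 < c k)
    (hcont : ∀ B : ℕ, (∀ j, 1 ≤ j → j ≤ k → (B : ℤ) ∣ c j) → B ≤ G)
    (N Y n₀ : ℕ) (A : Finset ℤ) (α : ℝ) (hA : ∀ x ∈ A, 0 ≤ x ∧ x < N)
    (hα : (A.card : ℝ) = α * N) (hαL : Real.exp (-(L : ℝ)) ≤ α) (hav : Avoid k c n₀ A)
    (hn₀ : n₀ ≤ Y) (hYc : ∀ j ≤ k, (c j) ^ 2 ≤ (Y : ℤ)) (hYk : 16 * k ^ 2 ≤ Y)
    (hYN : c k * 2 ^ (k + 4) * (Y : ℤ) ^ k ≤ N) (hbig : PP C G L ≤ Y)
    (hNI : ∀ i ≤ 2 * L + 4, NIw (Qi C G (2 * L + 4)) (y0 C G L) (DD C G L) (Hi C k c Y i)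
      ((1 + 1 / 1000) * α) A) : False := by
  classical
  have hα0 : 0 < α := lt_of_lt_of_le (Real.exp_pos _) hαL
  have hPP1 : 1 ≤ PP C G L := by
    unfold PP
    exact Nat.mul_pos (Nat.factorial_pos _) (by
      have := Qi_pos C G (2 * L + 4) hG
      positivity)
  have hY1 : 1 ≤ Y := le_trans hPP1 hbig
  have hYR : (0 : ℝ) < Y := by exact_mod_cast hY1
  have hckR : (0 : ℝ) < c k := by exact_mod_cast hck
  have hYN' : (c k : ℝ) * 2 ^ (k + 4) * (Y : ℝ) ^ k ≤ N := by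
    have e3 : ((c k * 2 ^ (k + 4) * (Y : ℤ) ^ k : ℤ) : ℝ) ≤ N := by exact_mod_cast hYN
    push_cast at e3
    exact e3
  have hN1 : 1 ≤ N := by
    have : (0 : ℝ) < N := lt_of_lt_of_le (by positivity) hYN'
    exact_mod_cast this
  -- facts on `T`
  have hT : (Ioc Y (2 * Y)).Nonempty := ⟨2 * Y, by rw [Finset.mem_Ioc]; omega⟩
  have hpv : ∀ n ∈ Ioc Y (2 * Y), (0 : ℝ) < (pv k c n : ℝ) ∧ 4 * (pv k c n : ℝ) ≤ N ∧
      3 / 4 * ((c k : ℝ) * (Y : ℝ) ^ k) ≤ (pv k c n : ℝ) := by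
    intro n hn
    rw [Finset.mem_Ioc] at hn
    obtain ⟨h1, h2⟩ := pv_bounds k hk c hck Y hY1 hYc hYk n hn.1
    have hnY : (Y : ℝ) ≤ n := by exact_mod_cast hn.1.le
    have hn2 : (n : ℝ) ≤ 2 * Y := by exact_mod_cast hn.2
    have e1 : (Y : ℝ) ^ k ≤ (n : ℝ) ^ k := pow_le_pow_left₀ hYR.le hnY k
    have e2 : (n : ℝ) ^ k ≤ 2 ^ k * (Y : ℝ) ^ k := by
      rw [← mul_pow]
      exact pow_le_pow_left₀ (by linarith) hn2 k
    have e3 : (0 : ℝ) < (Y : ℝ) ^ k := by positivity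
    have e4 : (c k : ℝ) * (Y : ℝ) ^ k ≤ (c k : ℝ) * (n : ℝ) ^ k :=
      mul_le_mul_of_nonneg_left e1 hckR.le
    have e5 : (c k : ℝ) * (n : ℝ) ^ k ≤ (c k : ℝ) * (2 ^ k * (Y : ℝ) ^ k) :=
      mul_le_mul_of_nonneg_left e2 hckR.le
    have e6 : 0 < (c k : ℝ) * (Y : ℝ) ^ k := by positivity
    refine ⟨by linarith, ?_, by linarith⟩
    have e7 : (c k : ℝ) * 2 ^ (k + 4) * (Y : ℝ) ^ k = 16 * ((c k : ℝ) * (2 ^ k * (Y : ℝ) ^ k)) := by
      ring
    have e8 : 0 ≤ (c k : ℝ) * (2 ^ k * (Y : ℝ) ^ k) := by positivity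
    linarith
  -- edges
  have hedge : ∀ n ∈ Ioc Y (2 * Y), ∀ u : ℤ,
      ((A.filter (fun x => u ≤ x ∧ x < u + (pv k c n).toNat)).card : ℝ) ≤ 2 * α * pv k c n := by
    intro n hn u
    obtain ⟨h1, h2, h3⟩ := hpv n hn
    have hnn : 0 ≤ pv k c n := by
      have : (0 : ℝ) ≤ (pv k c n : ℝ) := h1.le
      exact_mod_cast this
    have hHl := Hi_lower C G L k hC hG hL hk c hck Y 0 (by omega) hbig
    have hH1 : 1 ≤ Hi C k c Y 0 := by
      refine le_trans ?_ hHl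
      exact Nat.mul_pos (Nat.factorial_pos _) (by
        have := Qi_pos C G (2 * L + 4) hG
        positivity)
    have hHu := Hi_upper C k c hck Y 0
    have h4 := ni_interval _ _ _ _ hH1 ((1 + 1 / 1000) * α) (by positivity) A
      (hNI 0 (by omega)) u (pv k c n).toNat
    have h5 : (((pv k c n).toNat : ℕ) : ℝ) = (pv k c n : ℝ) := by
      have := Int.toNat_of_nonneg hnn
      exact_mod_cast congrArg (Int.cast (R := ℝ)) this
    rw [h5] at h4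
    have h6 : 2048 * (Hi C k c Y 0 : ℝ) ≤ (c k : ℝ) * (Y : ℝ) ^ k := by
      refine le_trans ?_ hHu
      apply mul_le_mul_of_nonneg_right _ (Nat.cast_nonneg _)
      have : (2 : ℝ) ^ 8 ≤ 2 ^ (C * (0 + 1)) :=
        pow_le_pow_right₀ (by norm_num) (by omega)
      linarith
    refine le_trans h4 ?_
    have h7 : (pv k c n : ℝ) + (Hi C k c Y 0 : ℝ) ≤ (1 + 1 / 1000) * pv k c n := by linarith
    calc (1 + 1 / 1000) * α * ((pv k c n : ℝ) + (Hi C k c Y 0 : ℝ)) ≤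
        (1 + 1 / 1000) * α * ((1 + 1 / 1000) * pv k c n) :=
          mul_le_mul_of_nonneg_left h7 (by positivity)
      _ ≤ 2 * α * pv k c n := by
          have : 0 ≤ α * (pv k c n : ℝ) := by positivity
          nlinarith
  have henergy := circle_energy A N α hN1 hA hα hα0 (Ioc Y (2 * Y)) (fun n => pv k c n) hT
    (by
      intro n hn
      obtain ⟨h1, h2, h3⟩ := hpv n hn
      constructor
      · exact_mod_cast h1
      · exact_mod_cast h2)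
    (by
      intro n hn x hx
      obtain ⟨h1, h2, h3⟩ := hpv n hn
      rw [Finset.mem_Ioc] at hn
      exact hav x hx n (by omega) (by exact_mod_cast h1))
    (by
      intro n hn
      obtain ⟨h1, h2, h3⟩ := hpv n hn
      have h4 : 0 < pv k c n := by exact_mod_cast h1
      refine le_trans ?_ (hedge n hn 0)
      have : A.filter (fun x => x < pv k c n) ⊆
          A.filter (fun x => 0 ≤ x ∧ x < 0 + ((pv k c n).toNat : ℤ)) := by
        intro x hx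
        rw [Finset.mem_filter] at hx ⊢
        refine ⟨hx.1, (hA x hx.1).1, ?_⟩
        have := Int.toNat_of_nonneg h4.le
        have := hx.2
        omega
      exact_mod_cast Finset.card_le_card this)
    (by
      intro n hn
      obtain ⟨h1, h2, h3⟩ := hpv n hn
      have h4 : 0 < pv k c n := by exact_mod_cast h1
      refine le_trans ?_ (hedge n hn ((N : ℤ) - pv k c n))
      have : A.filter (fun x => (N : ℤ) - pv k c n ≤ x) ⊆
          A.filter (fun x => (N : ℤ) - pv k c n ≤ x ∧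
            x < (N : ℤ) - pv k c n + ((pv k c n).toNat : ℤ)) := by
        intro x hx
        rw [Finset.mem_filter] at hx ⊢
        refine ⟨hx.1, hx.2, ?_⟩
        have := Int.toNat_of_nonneg h4.le
        have := (hA x hx.1).2
        omega
      exact_mod_cast Finset.card_le_card this)
    (2 * L + 4)
    (by
      have e1 : (1 / 4 : ℝ) ^ L ≤ Real.exp (-(L : ℝ)) := by
        have : Real.exp (-(L : ℝ)) = Real.exp (-1) ^ L := by
          rw [← Real.exp_nat_mul]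
          congr 1
          ring
        rw [this]
        apply pow_le_pow_left₀ (by norm_num)
        rw [Real.exp_neg, one_div]
        apply inv_anti₀ (Real.exp_pos _)
        have := Real.exp_one_lt_d9
        linarith
      have e2 : (1 / 2 : ℝ) ^ (2 * L + 4 + 1) = (1 / 4) ^ L * (1 / 32) := by
        rw [show 2 * L + 4 + 1 = 2 * L + 5 by ring, pow_add, pow_mul]
        norm_num
      rw [e2]
      have e3 : (0 : ℝ) ≤ (1 / 4) ^ L := by positivity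
      linarith)
    (fun i => Qi C G i) (fun i => Hi C k c Y i)
    (by
      intro i hi
      have hHl := Hi_lower C G L k hC hG hL hk c hck Y i hi hbig
      refine ⟨le_trans (Nat.mul_pos (Nat.factorial_pos _) (by
        have := Qi_pos C G (2 * L + 4) hG
        positivity)) hHl, ?_⟩
      have hHu := Hi_upper C k c hck Y i
      have e1 : (1 : ℝ) ≤ 8 * 2 ^ (C * (i + 1)) := by
        have : (1 : ℝ) ≤ 2 ^ (C * (i + 1)) := one_le_pow₀ (by norm_num)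
        linarith
      have e2 : (Hi C k c Y i : ℝ) ≤ (c k : ℝ) * (Y : ℝ) ^ k := by
        refine le_trans ?_ hHu
        have : (0 : ℝ) ≤ (Hi C k c Y i : ℝ) := Nat.cast_nonneg _
        nlinarith
      have e3 : (c k : ℝ) * (Y : ℝ) ^ k ≤ N := by
        refine le_trans ?_ hYN'
        have : (1 : ℝ) ≤ 2 ^ (k + 4) := one_le_pow₀ (by norm_num)
        have e4 : (0 : ℝ) ≤ (c k : ℝ) * (Y : ℝ) ^ k := by positivity
        nlinarith
      have : (Hi C k c Y i : ℝ) ≤ N := le_trans e2 e3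
      exact_mod_cast this)
    (by
      intro θ i hi hsum
      exact cov_step k C G hk hC hG hW L hL c hck hcont Y hYc hbig θ i hi hsum)
  have hlev : ∑ i ∈ range (2 * L + 4 + 1), (1 / 2 : ℝ) ^ i * (4 / (Hi C k c Y i : ℝ) ^ 2 *
      ∑ y ∈ Ico (-(Hi C k c Y i : ℤ)) N, ∑ θ ∈ farey (Qi C G i),
        ‖∑ x ∈ Ico y (y + Hi C k c Y i), (balf A α N x : ℂ) * ee (-(x * (θ : ℝ)))‖ ^ 2) ≤
      ∑ i ∈ range (2 * L + 4 + 1),
        α ^ 2 * N * ((1 / 2 : ℝ) ^ i * (6.5 / 1000) + (3 / 4 : ℝ) ^ i * (5 / 1000)) := by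
    apply Finset.sum_le_sum
    intro i hi
    rw [Finset.mem_range] at hi
    exact level_bound k C hk hC G hG L hL c hck N Y A α hA hα hαL hYN hbig i (by omega)
      (hNI i (by omega))
  have hsumup : ∑ i ∈ range (2 * L + 4 + 1),
        α ^ 2 * N * ((1 / 2 : ℝ) ^ i * (6.5 / 1000) + (3 / 4 : ℝ) ^ i * (5 / 1000)) ≤
      α ^ 2 * N * (33 / 1000) := by
    rw [← Finset.mul_sum, Finset.sum_add_distrib, ← Finset.sum_mul, ← Finset.sum_mul]
    apply mul_le_mul_of_nonneg_left _ (by positivity)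
    have := geo_half (2 * L + 4 + 1)
    have := geo_34 (2 * L + 4 + 1)
    linarith
  have hfin := le_trans henergy (le_trans hlev hsumup)
  have hNR : (0 : ℝ) < N := by exact_mod_cast hN1
  have : 0 < α ^ 2 * (N : ℝ) := by positivity
  nlinarith

end Vale.Agent.P042.FS
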