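import Vale.Agent.P042.FS.PRoot

namespace Vale.Agent.P042.FS

open Polynomial

section ppart

variable {R : Type} [CommRing R] [IsDomain R]

omit [IsDomain R] in
/-- Taylor expansion at a root of multiplicity at least `m` -/
theorem sg_taylor (g : R[X]) (z : R) (m : ℕ)
    (h0 : ∀ j < m, (hasseDeriv j g).eval z = 0) :
    ∃ F : R[X], F.coeff 0 = (hasseDeriv m g).eval z ∧
      ∀ y : R[X], g.comp (C z + y) = y ^ m * F.comp y := by
  have h1 : X ^ m ∣ taylor z g := by
    rw [X_pow_dvd_iff]
    intro d hd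
    rw [taylor_coeff]
    exact h0 d hd
  obtain ⟨F, hF⟩ := h1
  refine ⟨F, ?_, ?_⟩
  · have := taylor_coeff z g m
    rw [hF] at this
    rw [← this]
    have h2 := coeff_X_pow_mul F m 0
    simpa using h2.symm
  · intro y
    have h3 : g.comp (C z + y) = (taylor z g).comp y := by
      rw [taylor_apply, comp_assoc]
      congr 1
      simp [add_comm]
    rw [h3, hF, mul_comp, X_pow_comp]

omit [IsDomain R] in
/-- divisibility of all coefficients of `g (r + d X)` -/
theorem sg_dvd (g : R[X]) (z : R) (m : ℕ)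
    (h0 : ∀ j < m, (hasseDeriv j g).eval z = 0) (r d π : R)
    (h1 : π ∣ r - z) (h2 : π ∣ d) (j : ℕ) :
    π ^ m ∣ (g.comp (C r + C d * X)).coeff j := by
  obtain ⟨F, -, hF⟩ := sg_taylor g z m h0
  obtain ⟨w, hw⟩ := h1
  obtain ⟨e, he⟩ := h2
  have h3 : (C r + C d * X : R[X]) = C z + C π * (C w + C e * X) := by
    have : r = z + π * w := by rw [← hw]; ring
    rw [this, he]
    simp only [map_add, map_mul]
    ring
  rw [h3, hF, mul_pow, mul_assoc, ← C_pow, coeff_C_mul]
  exact Dvd.intro _ rfl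

/-- the content argument -/
theorem sg_cont (g : R[X]) (z : R) (m : ℕ) (hm : 1 ≤ m)
    (h0 : ∀ j < m, (hasseDeriv j g).eval z = 0) (r π e w e' l' β : R)
    (hπ : π ≠ 0) (H : R[X])
    (h1 : r - z = π * w) (hee : e * e' = 1)
    (hH : C (π ^ m * l') * H = g.comp (C r + C (π * e) * X))
    (hβ : ∀ j, 1 ≤ j → β ∣ H.coeff j) :
    β ∣ (hasseDeriv m g).eval z := by
  obtain ⟨F, hF0, hF⟩ := sg_taylor g z m h0
  have h3 : (C r + C (π * e) * X : R[X]) = C z + C π * (C w + C e * X) := by
    have : r = z + π * w := by rw [← h1]; ring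
    rw [this]
    simp only [map_add, map_mul]
    ring
  rw [h3, hF, mul_pow, mul_assoc, ← C_pow, map_mul, mul_assoc] at hH
  have hπ' : (C (π ^ m) : R[X]) ≠ 0 := by
    rw [Ne, C_eq_zero]
    exact pow_ne_zero _ hπ
  have h4 := mul_left_cancel₀ hπ' hH
  -- substitute X -> e' (X - w)
  have h5 : (C w + C e * X : R[X]).comp (C e' * (X - C w)) = X := by
    simp only [add_comp, C_comp, mul_comp, X_comp]
    rw [← mul_assoc, ← map_mul, hee]
    simp
  have h6 := congrArg (fun q : R[X] => q.comp (C e' * (X - C w))) h4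
  simp only [mul_comp, pow_comp, C_comp] at h6
  rw [h5, comp_assoc, mul_comp, C_comp, h5] at h6
  -- coefficients
  have h7 : ∃ K : R[X], H = C (H.coeff 0) + C β * K := by
    have : C β ∣ H - C (H.coeff 0) := by
      rw [C_dvd_iff_dvd_coeff]
      intro i
      rcases Nat.eq_zero_or_pos i with hi | hi
      · subst hi; simp
      · rw [coeff_sub, coeff_C, if_neg (by omega), sub_zero]
        exact hβ i hi
    obtain ⟨K, hK⟩ := this
    exact ⟨K, by rw [← hK]; ring⟩
  obtain ⟨K, hK⟩ := h7
  have h8 : (C l' * H.comp (C e' * (X - C w))).coeff m =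
      β * (l' * (K.comp (C e' * (X - C w))).coeff m) := by
    rw [hK, add_comp, C_comp, mul_comp, C_comp, coeff_C_mul, coeff_add, coeff_C,
      if_neg (by omega), zero_add, coeff_C_mul]
    ring
  have h9 : (X ^ m * F.comp (C π * X)).coeff m = F.coeff 0 := by
    have := coeff_X_pow_mul (F.comp (C π * X)) m 0
    rw [zero_add] at this
    rw [this, coeff_zero_eq_eval_zero, eval_comp]
    simp [coeff_zero_eq_eval_zero]
  rw [h6, h9, hF0] at h8
  rw [h8]
  exact Dvd.intro _ rfl

end ppart

end Vale.Agent.P042.FS
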