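import Vale.Agent.P042.FS.SysA

namespace Vale.Agent.P042.FS

open Finset

/-! ### the function `lambda` -/

/-- exponents of `sgLam` -/
noncomputable def sgExp (M : ℕ → ℕ) (d : ℕ) : ℕ →₀ ℕ :=
  Finsupp.onFinset d.primeFactors (fun p => M p * d.factorization p) (by
    intro p hp
    by_contra h
    apply hp
    rw [← Nat.support_factorization, Finsupp.notMem_support_iff] at h
    rw [h, mul_zero])

/-- `∏ p^(M p * v_p(d))` -/
noncomputable def sgLam (M : ℕ → ℕ) (d : ℕ) : ℕ := (sgExp M d).prod (fun x y => x ^ y)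

theorem sgExp_apply (M : ℕ → ℕ) (d p : ℕ) : sgExp M d p = M p * d.factorization p := rfl

theorem sgExp_supp (M : ℕ → ℕ) (d : ℕ) : ∀ p ∈ (sgExp M d).support, Nat.Prime p := by
  intro p hp
  have h := Finsupp.support_onFinset_subset hp
  exact Nat.prime_of_mem_primeFactors h

theorem sgLam_fac (M : ℕ → ℕ) (d p : ℕ) :
    (sgLam M d).factorization p = M p * d.factorization p := by
  unfold sgLam
  rw [Nat.prod_pow_factorization_eq_self (sgExp_supp M d), sgExp_apply]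

theorem sgLam_pos (M : ℕ → ℕ) (d : ℕ) : 0 < sgLam M d := by
  unfold sgLam
  apply Finset.prod_pos
  intro p hp
  exact pow_pos (sgExp_supp M d p hp).pos _

theorem sgLam_mul (M : ℕ → ℕ) (d q : ℕ) (hd : 1 ≤ d) (hq : 1 ≤ q) :
    sgLam M (d * q) = sgLam M d * sgLam M q := by
  apply Nat.eq_of_factorization_eq (sgLam_pos M _).ne'
    (Nat.mul_ne_zero (sgLam_pos M _).ne' (sgLam_pos M _).ne')
  intro p
  rw [Nat.factorization_mul (sgLam_pos M _).ne' (sgLam_pos M _).ne', Finsupp.add_apply,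
    sgLam_fac, sgLam_fac, sgLam_fac, Nat.factorization_mul (by omega) (by omega),
    Finsupp.add_apply]
  ring

theorem sgLam_dvd (M : ℕ → ℕ) (hM : ∀ p, 1 ≤ M p) (q : ℕ) (hq : 1 ≤ q) : q ∣ sgLam M q := by
  rw [← Nat.factorization_le_iff_dvd (by omega) (sgLam_pos M _).ne']
  intro p
  rw [sgLam_fac]
  exact Nat.le_mul_of_pos_left _ (hM p)

theorem sgLam_le (M : ℕ → ℕ) (k : ℕ) (hM : ∀ p, M p ≤ k) (q : ℕ) (hq : 1 ≤ q) :
    sgLam M q ≤ q ^ k := by
  apply Nat.le_of_dvd (by positivity)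
  rw [← Nat.factorization_le_iff_dvd (sgLam_pos M _).ne' (by positivity)]
  intro p
  rw [sgLam_fac, Nat.factorization_pow, Finsupp.smul_apply, smul_eq_mul]
  exact Nat.mul_le_mul_right _ (hM p)

theorem sgLam_one (M : ℕ → ℕ) : sgLam M 1 = 1 := by
  apply Nat.eq_of_factorization_eq (sgLam_pos M _).ne' (by norm_num)
  intro p
  rw [sgLam_fac]
  simp

/-- divisibility by prime powers is enough -/
theorem sg_dvd_of (L : ℕ) (n : ℤ)
    (h : ∀ p : ℕ, p.Prime → ((p : ℤ) ^ (L.factorization p)) ∣ n) (hL : L ≠ 0) : (L : ℤ) ∣ n := by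
  rw [Int.natCast_dvd, Nat.dvd_iff_prime_pow_dvd_dvd]
  intro p e hp hpe
  have h1 : e ≤ L.factorization p := (hp.pow_dvd_iff_le_factorization hL).1 hpe
  have h2 := h p hp
  have h3 : ((p ^ (L.factorization p) : ℕ) : ℤ) ∣ n := by exact_mod_cast h2
  rw [Int.natCast_dvd] at h3
  exact (pow_dvd_pow p h1).trans h3

/-! ### residues -/

/-- `r` is congruent to the given `p`-adic integers modulo `d` -/
def SgRes (z : ∀ (p : ℕ) (_ : Fact p.Prime), ℤ_[p]) (d r : ℕ) : Prop :=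
  ∀ (p : ℕ) (hp : Fact p.Prime), ((p : ℤ_[p]) ^ (d.factorization p)) ∣ ((r : ℤ_[p]) - z p hp)

theorem sgRes_congr (z : ∀ (p : ℕ) (_ : Fact p.Prime), ℤ_[p]) (d r s : ℕ) (hd : 1 ≤ d)
    (h1 : SgRes z d r) (h2 : SgRes z d s) : r ≡ s [MOD d] := by
  rw [← Int.natCast_modEq_iff]
  apply Int.ModEq.symm
  rw [Int.modEq_iff_dvd]
  apply sg_dvd_of d _ _ (by omega)
  intro p hp
  have : Fact p.Prime := ⟨hp⟩
  have h3 := dvd_sub (h1 p ⟨hp⟩) (h2 p ⟨hp⟩)
  rw [← PadicInt.pow_p_dvd_int_iff]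
  have h4 : ((r : ℤ_[p]) - z p ⟨hp⟩) - ((s : ℤ_[p]) - z p ⟨hp⟩) = (((r : ℤ) - (s : ℤ) : ℤ) : ℤ_[p]) := by
    push_cast
    ring
  rw [h4] at h3
  exact h3

theorem sgRes_of_modEq (z : ∀ (p : ℕ) (_ : Fact p.Prime), ℤ_[p]) (d r s : ℕ)
    (h1 : SgRes z d r) (h2 : r ≡ s [MOD d]) : SgRes z d s := by
  intro p hp
  have h3 := h1 p hp
  have h4 : ((p : ℤ) ^ (d.factorization p)) ∣ ((r : ℤ) - s) := by
    have h5 : ((d : ℤ)) ∣ ((r : ℤ) - s) := by
      rw [← Int.modEq_iff_dvd]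
      exact (Int.natCast_modEq_iff.2 h2).symm
    refine dvd_trans ?_ h5
    exact_mod_cast Nat.ordProj_dvd d p
  rw [← PadicInt.pow_p_dvd_int_iff] at h4
  have h5 : (s : ℤ_[p]) - z p hp = ((r : ℤ_[p]) - z p hp) - (((r : ℤ) - (s : ℤ) : ℤ) : ℤ_[p]) := by
    push_cast
    ring
  rw [h5]
  exact dvd_sub h3 h4

theorem sgRes_of_dvd (z : ∀ (p : ℕ) (_ : Fact p.Prime), ℤ_[p]) (d q r : ℕ) (hd : 1 ≤ d)
    (hq : 1 ≤ q) (h1 : SgRes z (d * q) r) : SgRes z d r := by
  intro p hp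
  refine dvd_trans (pow_dvd_pow _ ?_) (h1 p hp)
  rw [Nat.factorization_mul (by omega) (by omega), Finsupp.add_apply]
  omega

theorem sgRes_exists (z : ∀ (p : ℕ) (_ : Fact p.Prime), ℤ_[p]) (d : ℕ) (hd : 1 ≤ d) :
    ∃ r, r < d ∧ SgRes z d r := by
  classical
  let a : ℕ → ℕ := fun p => if hp : p.Prime then
    @PadicInt.appr p ⟨hp⟩ (z p ⟨hp⟩) (d.factorization p) else 0
  obtain ⟨k, hk⟩ := Nat.chineseRemainderOfFinset a (fun p => p ^ (d.factorization p))
    d.primeFactors (fun p hp => pow_ne_zero _ (Nat.prime_of_mem_primeFactors hp).ne_zero) (by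
      intro p hp q hq hpq
      simp only [Function.onFun]
      apply Nat.Coprime.pow
      exact (Nat.coprime_primes (Nat.prime_of_mem_primeFactors hp)
        (Nat.prime_of_mem_primeFactors hq)).2 hpq)
  have hres : SgRes z d k := by
    intro p hp
    by_cases hpd : p ∈ d.primeFactors
    · have h1 := hk p hpd
      have h2 : a p = @PadicInt.appr p hp (z p hp) (d.factorization p) := by
        simp only [a]
        rw [dif_pos hp.out]
      rw [h2] at h1
      have h3 := PadicInt.appr_spec (d.factorization p) (z p hp)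
      rw [Ideal.mem_span_singleton] at h3
      have h4 : ((p : ℤ) ^ (d.factorization p)) ∣
          ((k : ℤ) - ((@PadicInt.appr p hp (z p hp) (d.factorization p) : ℕ) : ℤ)) := by
        rw [← Int.modEq_iff_dvd]
        exact_mod_cast (Int.natCast_modEq_iff.2 h1).symm
      rw [← PadicInt.pow_p_dvd_int_iff] at h4
      have h5 : (k : ℤ_[p]) - z p hp = (((k : ℤ) -
          ((@PadicInt.appr p hp (z p hp) (d.factorization p) : ℕ) : ℤ) : ℤ) : ℤ_[p]) -
          (z p hp - ((@PadicInt.appr p hp (z p hp) (d.factorization p) : ℕ) : ℤ_[p])) := by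
        push_cast
        ring
      rw [h5]
      exact dvd_sub h4 h3
    · rw [← Nat.support_factorization, Finsupp.notMem_support_iff] at hpd
      rw [hpd, pow_zero]
      exact one_dvd _
  refine ⟨k % d, Nat.mod_lt _ (by omega), ?_⟩
  exact sgRes_of_modEq z d k (k % d) hres (Nat.mod_modEq k d).symm

end Vale.Agent.P042.FS
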