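import Vale.Agent.P042.FS.SysB

namespace Vale.Agent.P042.FS

open Polynomial

/-- coefficients of `(r + d X)^i` -/
theorem sg_coeff_pow (r d : ℕ) (i j : ℕ) :
    |((C (r : ℤ) + C (d : ℤ) * X : ℤ[X]) ^ i).coeff j| ≤ ((r + d : ℕ) : ℤ) ^ i := by
  have h1 : (C (r : ℤ) + C (d : ℤ) * X : ℤ[X]) ^ i =
      (((C r + C d * X : ℕ[X]) ^ i).map (Nat.castRingHom ℤ)) := by
    simp
  rw [h1, coeff_map, eq_natCast]
  rw [abs_of_nonneg (by positivity)]
  have h2 : ((C r + C d * X : ℕ[X]) ^ i).coeff j ≤ ((C r + C d * X : ℕ[X]) ^ i).eval 1 := by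
    generalize ((C r + C d * X : ℕ[X]) ^ i) = f
    rw [eval_eq_sum_range]
    simp only [one_pow, mul_one]
    by_cases hj : j ≤ f.natDegree
    · exact Finset.single_le_sum (f := fun i => f.coeff i) (fun _ _ => Nat.zero_le _)
        (Finset.mem_range.2 (by omega))
    · rw [coeff_eq_zero_of_natDegree_lt (by omega)]
      exact Nat.zero_le _
  have h3 : ((C r + C d * X : ℕ[X]) ^ i).eval 1 = (r + d) ^ i := by simp
  rw [h3] at h2
  exact_mod_cast h2

/-- coefficients of `h (r + d X)` -/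
theorem sg_coeff_comp (h : ℤ[X]) (k : ℕ) (hk : h.natDegree = k) (r d : ℕ) (hr : r < d) (j : ℕ) :
    |(h.comp (C (r : ℤ) + C (d : ℤ) * X)).coeff j| ≤
      ((2 ^ k * ∑ i ∈ Finset.range (k + 1), (h.coeff i).natAbs : ℕ) : ℤ) * (d : ℤ) ^ k := by
  have h1 : h.comp (C (r : ℤ) + C (d : ℤ) * X) =
      ∑ i ∈ Finset.range (k + 1), C (h.coeff i) * (C (r : ℤ) + C (d : ℤ) * X) ^ i := by
    unfold comp
    rw [eval₂_eq_sum_range, hk]
  rw [h1, finsetSum_coeff]
  refine (Finset.abs_sum_le_sum_abs _ _).trans ?_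
  push_cast
  rw [Finset.mul_sum, Finset.sum_mul]
  apply Finset.sum_le_sum
  intro i hi
  rw [Finset.mem_range] at hi
  rw [coeff_C_mul, abs_mul]
  have h2 := sg_coeff_pow r d i j
  have h3 : ((r + d : ℕ) : ℤ) ^ i ≤ 2 ^ k * (d : ℤ) ^ k := by
    rw [← mul_pow]
    have h4 : ((r + d : ℕ) : ℤ) ≤ 2 * (d : ℤ) := by
      have : r + d ≤ 2 * d := by omega
      exact_mod_cast this
    have h5 : (1 : ℤ) ≤ 2 * (d : ℤ) := by
      have : 1 ≤ d := by omega
      have : (1 : ℤ) ≤ (d : ℤ) := by exact_mod_cast this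
      linarith
    calc ((r + d : ℕ) : ℤ) ^ i ≤ (2 * (d : ℤ)) ^ i := pow_le_pow_left₀ (by positivity) h4 i
      _ ≤ (2 * (d : ℤ)) ^ k := pow_le_pow_right₀ h5 (by omega)
  calc |h.coeff i| * |((C (r : ℤ) + C (d : ℤ) * X : ℤ[X]) ^ i).coeff j|
      ≤ |h.coeff i| * (2 ^ k * (d : ℤ) ^ k) :=
        mul_le_mul_of_nonneg_left (h2.trans h3) (abs_nonneg _)
    _ = 2 ^ k * |h.coeff i| * (d : ℤ) ^ k := by ring

/-- degree and leading coefficient of `h (r + d X)` -/
theorem sg_lead_comp (h : ℤ[X]) (k : ℕ) (hk : h.natDegree = k) (r d : ℤ) (hd : d ≠ 0) :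
    (h.comp (C r + C d * X)).natDegree = k ∧
      (h.comp (C r + C d * X)).coeff k = h.leadingCoeff * d ^ k := by
  have h1 : (C r + C d * X : ℤ[X]).natDegree = 1 := by
    rw [add_comm]
    exact natDegree_linear hd
  have h2 : (C r + C d * X : ℤ[X]).leadingCoeff = d := by
    rw [add_comm]
    exact leadingCoeff_linear hd
  have h3 : (h.comp (C r + C d * X)).natDegree = k := by
    rw [natDegree_comp, h1, hk, mul_one]
  refine ⟨h3, ?_⟩
  have h4 := leadingCoeff_comp (p := h) (q := (C r + C d * X : ℤ[X])) (by rw [h1]; norm_num)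
  rw [h2, hk] at h4
  rw [← h4, leadingCoeff, h3]

/-- Hasse derivatives commute with ring homomorphisms -/
theorem sg_hasse_map {R S : Type} [CommRing R] [CommRing S] (φ : R →+* S) (j : ℕ) (f : R[X]) :
    hasseDeriv j (f.map φ) = (hasseDeriv j f).map φ := by
  ext n
  rw [hasseDeriv_coeff, coeff_map, coeff_map, hasseDeriv_coeff, map_mul, map_natCast]

theorem sg_hasse_top (f : ℤ[X]) (k : ℕ) (hk : f.natDegree = k) :
    hasseDeriv k f = C f.leadingCoeff := by
  ext n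
  rw [hasseDeriv_coeff, coeff_C]
  by_cases hn : n = 0
  · subst hn
    simp [leadingCoeff, hk]
  · rw [if_neg hn, coeff_eq_zero_of_natDegree_lt (by omega), mul_zero]

theorem sg_aeval {p : ℕ} [Fact p.Prime] (z : ℤ_[p]) (f : ℤ[X]) :
    (f.map (Int.castRingHom ℤ_[p])).eval z = aeval z f := by
  rw [eval_map, aeval_def]
  rfl

/-- the multiplicity -/
theorem sg_mult (h : ℤ[X]) (k : ℕ) (hk : h.natDegree = k) (hlead : 0 < h.leadingCoeff)
    (p : ℕ) [Fact p.Prime] (z : ℤ_[p]) (hz : aeval z h = 0) :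
    ∃ m : ℕ, 1 ≤ m ∧ m ≤ k ∧ (∀ j < m, aeval z (hasseDeriv j h) = 0) ∧
      aeval z (hasseDeriv m h) ≠ 0 := by
  classical
  have hex : ∃ m, aeval z (hasseDeriv m h) ≠ 0 := by
    refine ⟨k, ?_⟩
    rw [sg_hasse_top h k hk, aeval_C]
    simp only [algebraMap_int_eq, eq_intCast, ne_eq, Int.cast_eq_zero]
    exact hlead.ne'
  refine ⟨Nat.find hex, ?_, ?_, ?_, Nat.find_spec hex⟩
  · rw [Nat.one_le_iff_ne_zero]
    intro h0
    have := Nat.find_spec hex
    rw [h0, hasseDeriv_zero'] at this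
    exact this hz
  · apply Nat.find_min' hex
    rw [sg_hasse_top h k hk, aeval_C]
    simp only [algebraMap_int_eq, eq_intCast, ne_eq, Int.cast_eq_zero]
    exact hlead.ne'
  · intro j hj
    have := Nat.find_min hex hj
    push Not at this
    exact this

end Vale.Agent.P042.FS
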