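import Vale.Agent.P042.FS.Defs

namespace Vale.Agent.P042.FS

open Finset

private lemma wb_ee_add (x y : ℝ) : ee (x + y) = ee x * ee y := by
  unfold ee
  rw [← Complex.exp_add]
  congr 1
  push_cast
  ring

private lemma wb_ee_int (n : ℤ) : ee (n : ℝ) = 1 := by
  unfold ee
  rw [Complex.exp_eq_one_iff]
  exact ⟨n, by push_cast; ring⟩

private lemma wb_norm_ee (x : ℝ) : ‖ee x‖ = 1 := by
  unfold ee
  have h : 2 * (Real.pi : ℂ) * Complex.I * (x : ℂ) = ((2 * Real.pi * x : ℝ) : ℂ) * Complex.I := by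
    push_cast; ring
  rw [h, Complex.norm_exp_ofReal_mul_I]

private lemma wb_ee_sub_one (x : ℝ) : ‖ee x - 1‖ ≤ 2 * Real.pi * |x| := by
  unfold ee
  have h : 2 * (Real.pi : ℂ) * Complex.I * (x : ℂ) = Complex.I * ((2 * Real.pi * x : ℝ) : ℂ) := by
    push_cast; ring
  rw [h]
  have h2 := Real.norm_exp_I_mul_ofReal_sub_one_le (x := 2 * Real.pi * x)
  refine h2.trans ?_
  rw [Real.norm_eq_abs, abs_mul, abs_of_pos (by positivity : (0 : ℝ) < 2 * Real.pi)]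

private lemma wb_lt_ceil (m q i : ℕ) (hq : 1 ≤ q) : i < (m + q - 1) / q ↔ q * i < m := by
  rw [Nat.lt_iff_add_one_le, Nat.le_div_iff_mul_le (by omega)]
  have : (i + 1) * q = q * i + q := by ring
  rw [this]
  omega

private lemma wb_pow_sub (n₀ m k : ℕ) :
    ((n₀ + m) ^ (k + 1) : ℕ) = n₀ ^ (k + 1) + m * ∑ r ∈ range (k + 1), (n₀ + m) ^ r * n₀ ^ (k - r) := by
  induction k with
  | zero => simp
  | succ k ih =>
    rw [sum_range_succ]
    have h1 : ∑ r ∈ range (k + 1), (n₀ + m) ^ r * n₀ ^ (k + 1 - r) =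
        n₀ * ∑ r ∈ range (k + 1), (n₀ + m) ^ r * n₀ ^ (k - r) := by
      rw [mul_sum]
      refine sum_congr rfl fun r hr => ?_
      have hr' : r ≤ k := by simpa [Nat.lt_succ_iff] using hr
      have : k + 1 - r = (k - r) + 1 := by omega
      rw [this, pow_succ]
      ring
    rw [h1, Nat.sub_self, pow_zero, mul_one]
    calc (n₀ + m) ^ (k + 1 + 1) = n₀ * (n₀ + m) ^ (k + 1) + m * (n₀ + m) ^ (k + 1) := by ring
      _ = n₀ * (n₀ ^ (k + 1) + m * ∑ r ∈ range (k + 1), (n₀ + m) ^ r * n₀ ^ (k - r))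
            + m * (n₀ + m) ^ (k + 1) := by rw [← ih]
      _ = _ := by ring

private lemma wb_sum_le (n₀ n k Y : ℕ) (h0 : n₀ ≤ Y) (h1 : n ≤ Y) :
    ∑ r ∈ range (k + 1), n ^ r * n₀ ^ (k - r) ≤ (k + 1) * Y ^ k := by
  calc ∑ r ∈ range (k + 1), n ^ r * n₀ ^ (k - r) ≤ ∑ r ∈ range (k + 1), Y ^ k := by
        refine sum_le_sum fun r hr => ?_
        have hr' : r ≤ k := by simpa [Nat.lt_succ_iff] using hr
        calc n ^ r * n₀ ^ (k - r) ≤ Y ^ r * Y ^ (k - r) :=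
              Nat.mul_le_mul (Nat.pow_le_pow_left h1 _) (Nat.pow_le_pow_left h0 _)
          _ = Y ^ k := by rw [← pow_add]; congr 1; omega
    _ = (k + 1) * Y ^ k := by simp

/-- averaging: some block carries its share -/
private lemma wb_average (F : ℕ → ℂ) (s t Y q₁ l : ℕ) (δ : ℝ) (hF : ∀ n, ‖F n‖ ≤ 1)
    (hY : 1 ≤ Y) (hδ : 0 < δ) (ht : t ≤ Y) (hl : 1 ≤ l)
    (hql : (q₁ : ℝ) * l ≤ δ / 4 * Y) (hS : δ * Y ≤ ‖∑ n ∈ Ico s t, F n‖) :
    ∃ n₀ : ℕ, n₀ ≤ Y ∧ 3 / 4 * δ * l ≤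
      ‖∑ i ∈ (range l).filter (fun i => s ≤ n₀ + q₁ * i ∧ n₀ + q₁ * i < t), F (n₀ + q₁ * i)‖ := by
  have hl' : (1 : ℝ) ≤ l := by exact_mod_cast hl
  have hY' : (1 : ℝ) ≤ Y := by exact_mod_cast hY
  by_contra hcon
  push Not at hcon
  set T : ℕ → ℂ := fun n₀ =>
    ∑ i ∈ (range l).filter (fun i => s ≤ n₀ + q₁ * i ∧ n₀ + q₁ * i < t), F (n₀ + q₁ * i) with hT
  -- upper bound of the double sum
  have hup : ‖∑ n₀ ∈ range t, T n₀‖ ≤ t * (3 / 4 * δ * l) := by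
    refine (norm_sum_le _ _).trans ?_
    calc ∑ n₀ ∈ range t, ‖T n₀‖ ≤ ∑ n₀ ∈ range t, (3 / 4 * δ * l) := by
          refine sum_le_sum fun n₀ hn => (hcon n₀ ?_).le
          have := mem_range.1 hn
          omega
      _ = t * (3 / 4 * δ * l) := by simp
  -- the double sum
  have hsw : ∑ n₀ ∈ range t, T n₀ =
      ∑ i ∈ range l, ∑ x ∈ (Ico s t).filter (fun x => q₁ * i ≤ x), F x := by
    simp only [hT, sum_filter]
    rw [sum_comm]
    refine sum_congr rfl fun i _ => ?_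
    rw [← sum_filter, ← sum_filter]
    refine sum_nbij' (fun n => n + q₁ * i) (fun x => x - q₁ * i) ?_ ?_ ?_ ?_ ?_
    · intro n hn
      simp only [mem_filter, mem_range, mem_Ico] at hn ⊢
      omega
    · intro x hx
      simp only [mem_filter, mem_range, mem_Ico] at hx ⊢
      omega
    · intro n hn
      simp
    · intro x hx
      simp only [mem_filter, mem_Ico] at hx
      omega
    · intro n hn
      rfl
  have hdiff : ∀ i ∈ range l, ‖∑ x ∈ Ico s t, F x‖ - q₁ * l ≤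
      ‖∑ x ∈ (Ico s t).filter (fun x => q₁ * i ≤ x), F x‖ := by
    intro i hi
    have hi' := mem_range.1 hi
    have h1 := sum_filter_add_sum_filter_not (Ico s t) (fun x => q₁ * i ≤ x) F
    have h2 : ‖∑ x ∈ (Ico s t).filter (fun x => ¬ q₁ * i ≤ x), F x‖ ≤ q₁ * l := by
      refine (norm_sum_le _ _).trans ?_
      calc ∑ x ∈ (Ico s t).filter (fun x => ¬ q₁ * i ≤ x), ‖F x‖
          ≤ ∑ x ∈ (Ico s t).filter (fun x => ¬ q₁ * i ≤ x), (1 : ℝ) := sum_le_sum fun x _ => hF x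
        _ = (((Ico s t).filter (fun x => ¬ q₁ * i ≤ x)).card : ℝ) := by simp
        _ ≤ ((range (q₁ * i)).card : ℝ) := by
            exact_mod_cast card_le_card (fun x hx => by
              simp only [mem_filter, mem_range, mem_Ico] at hx ⊢
              omega)
        _ = (q₁ : ℝ) * i := by rw [card_range]; push_cast; ring
        _ ≤ q₁ * l := by
            have : (i : ℝ) ≤ l := by exact_mod_cast hi'.le
            gcongr
    have h3 : ‖∑ x ∈ Ico s t, F x‖ ≤ ‖∑ x ∈ (Ico s t).filter (fun x => q₁ * i ≤ x), F x‖ +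
        ‖∑ x ∈ (Ico s t).filter (fun x => ¬ q₁ * i ≤ x), F x‖ := by
      rw [← h1]; exact norm_add_le _ _
    linarith
  -- each inner sum is close to the whole sum
  have hlow : (l : ℝ) * (δ * Y - q₁ * l) ≤ ‖∑ n₀ ∈ range t, T n₀‖ := by
    rw [hsw]
    set A := ∑ x ∈ Ico s t, F x with hA
    have h4 : ‖∑ i ∈ range l, ∑ x ∈ (Ico s t).filter (fun x => q₁ * i ≤ x), F x - (l : ℂ) * A‖ ≤
        l * (q₁ * l) := by
      have : ∑ i ∈ range l, ∑ x ∈ (Ico s t).filter (fun x => q₁ * i ≤ x), F x - (l : ℂ) * A =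
          ∑ i ∈ range l, (∑ x ∈ (Ico s t).filter (fun x => q₁ * i ≤ x), F x - A) := by
        rw [sum_sub_distrib]; simp
      rw [this]
      refine (norm_sum_le _ _).trans ?_
      calc ∑ i ∈ range l, ‖∑ x ∈ (Ico s t).filter (fun x => q₁ * i ≤ x), F x - A‖
          ≤ ∑ i ∈ range l, ((q₁ : ℝ) * l) := by
            refine sum_le_sum fun i hi => ?_
            have hi' := mem_range.1 hi
            have h1 := sum_filter_add_sum_filter_not (Ico s t) (fun x => q₁ * i ≤ x) F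
            have h2 : ‖∑ x ∈ (Ico s t).filter (fun x => ¬ q₁ * i ≤ x), F x‖ ≤ q₁ * l := by
              refine (norm_sum_le _ _).trans ?_
              calc ∑ x ∈ (Ico s t).filter (fun x => ¬ q₁ * i ≤ x), ‖F x‖
                  ≤ ∑ x ∈ (Ico s t).filter (fun x => ¬ q₁ * i ≤ x), (1 : ℝ) :=
                    sum_le_sum fun x _ => hF x
                _ = (((Ico s t).filter (fun x => ¬ q₁ * i ≤ x)).card : ℝ) := by simp
                _ ≤ ((range (q₁ * i)).card : ℝ) := by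
                    exact_mod_cast card_le_card (fun x hx => by
                      simp only [mem_filter, mem_range, mem_Ico] at hx ⊢
                      omega)
                _ = (q₁ : ℝ) * i := by rw [card_range]; push_cast; ring
                _ ≤ q₁ * l := by
                    have : (i : ℝ) ≤ l := by exact_mod_cast hi'.le
                    gcongr
            have h5 : ∑ x ∈ (Ico s t).filter (fun x => q₁ * i ≤ x), F x - A =
                - ∑ x ∈ (Ico s t).filter (fun x => ¬ q₁ * i ≤ x), F x := by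
              rw [hA, ← h1]; ring
            rw [h5, norm_neg]
            exact h2
        _ = l * (q₁ * l) := by simp
    have h6 : ‖(l : ℂ) * A‖ = l * ‖A‖ := by
      rw [norm_mul]; simp
    have h7 : ‖(l : ℂ) * A‖ ≤
        ‖∑ i ∈ range l, ∑ x ∈ (Ico s t).filter (fun x => q₁ * i ≤ x), F x‖ +
        ‖∑ i ∈ range l, ∑ x ∈ (Ico s t).filter (fun x => q₁ * i ≤ x), F x - (l : ℂ) * A‖ := by
      have := norm_sub_le (∑ i ∈ range l, ∑ x ∈ (Ico s t).filter (fun x => q₁ * i ≤ x), F x)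
        (∑ i ∈ range l, ∑ x ∈ (Ico s t).filter (fun x => q₁ * i ≤ x), F x - (l : ℂ) * A)
      rw [sub_sub_cancel] at this
      exact this
    have h8 : (l : ℝ) * (δ * Y) ≤ l * ‖A‖ := by gcongr
    rw [h6] at h7
    nlinarith
  have ht' : (t : ℝ) ≤ Y := by exact_mod_cast ht
  -- t > 0
  have htpos : 0 < t := by
    rcases Nat.eq_zero_or_pos t with h | h
    · exfalso
      rw [h] at hS
      simp at hS
      have : 0 < δ * Y := by positivity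
      linarith
    · exact h
  have htpos' : (0 : ℝ) < t := by exact_mod_cast htpos
  -- strict version of the upper bound
  have hup' : ‖∑ n₀ ∈ range t, T n₀‖ < t * (3 / 4 * δ * l) := by
    refine lt_of_le_of_lt (norm_sum_le _ _) ?_
    calc ∑ n₀ ∈ range t, ‖T n₀‖ < ∑ n₀ ∈ range t, (3 / 4 * δ * l) := by
          refine sum_lt_sum_of_nonempty ⟨0, mem_range.2 htpos⟩ fun n₀ hn => hcon n₀ ?_
          have := mem_range.1 hn
          omega
      _ = t * (3 / 4 * δ * l) := by simp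
  have h9 : (t : ℝ) * (3 / 4 * δ * l) ≤ Y * (3 / 4 * δ * l) := by
    gcongr
  have h10 : (l : ℝ) * (δ * Y - δ / 4 * Y) ≤ l * (δ * Y - q₁ * l) := by
    gcongr
  nlinarith

/-- restriction to a block of a progression on which the leading term is harmless -/
theorem weyl_block (k : ℕ) (α : ℕ → ℝ) (Y s t q₁ l : ℕ) (a₁ : ℤ) (δ : ℝ) (hY : 1 ≤ Y)
    (hδ : 0 < δ) (ht : t ≤ Y) (hl : 1 ≤ l) (hq : 1 ≤ q₁) (hql : (q₁ : ℝ) * l ≤ δ / 4 * Y)
    (hS : δ * Y ≤ ‖∑ n ∈ Ico s t, ee (∑ j ∈ range (k + 2), α j * (n : ℝ) ^ j)‖)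
    (hη : |(q₁ : ℝ) * α (k + 1) - a₁| * ((k + 1) * l * (2 * Y) ^ k) ≤ δ / 32) :
    ∃ n₀ i₀ i₁ : ℕ, n₀ ≤ Y ∧ i₁ ≤ l ∧ δ / 2 * l ≤
      ‖∑ i ∈ Ico i₀ i₁, ee (∑ j ∈ range (k + 1), α j * ((n₀ : ℝ) + q₁ * i) ^ j)‖ := by
  have hl' : (1 : ℝ) ≤ l := by exact_mod_cast hl
  obtain ⟨n₀, hn₀, hmain⟩ := wb_average
    (fun n => ee (∑ j ∈ range (k + 2), α j * (n : ℝ) ^ j)) s t Y q₁ l δ
    (fun n => (wb_norm_ee _).le) hY hδ ht hl hql hS
  have hset : (range l).filter (fun i => s ≤ n₀ + q₁ * i ∧ n₀ + q₁ * i < t) =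
      Ico ((s - n₀ + q₁ - 1) / q₁) (min l ((t - n₀ + q₁ - 1) / q₁)) := by
    ext i
    simp only [mem_filter, mem_range, mem_Ico, lt_min_iff]
    have h1 := wb_lt_ceil (s - n₀) q₁ i hq
    have h2 := wb_lt_ceil (t - n₀) q₁ i hq
    rw [h2]
    have h3 : (s - n₀ + q₁ - 1) / q₁ ≤ i ↔ ¬ (i < (s - n₀ + q₁ - 1) / q₁) := by omega
    rw [h3, h1]
    omega
  refine ⟨n₀, (s - n₀ + q₁ - 1) / q₁, min l ((t - n₀ + q₁ - 1) / q₁), hn₀, min_le_left _ _, ?_⟩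
  rw [hset] at hmain
  set I := Ico ((s - n₀ + q₁ - 1) / q₁) (min l ((t - n₀ + q₁ - 1) / q₁)) with hI
  have hmem : ∀ i ∈ I, i < l ∧ n₀ + q₁ * i < t := by
    intro i hi
    rw [← hset] at hi
    simp only [mem_filter, mem_range] at hi
    exact ⟨hi.1, hi.2.2⟩
  have hcard : (I.card : ℝ) ≤ l := by
    have : I.card ≤ (range l).card := card_le_card fun i hi => mem_range.2 (hmem i hi).1
    rw [card_range] at this
    exact_mod_cast this
  set η := (q₁ : ℝ) * α (k + 1) - a₁ with hηdef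
  set W : ℕ → ℕ := fun i => i * ∑ r ∈ range (k + 1), (n₀ + q₁ * i) ^ r * n₀ ^ (k - r) with hW
  set g : ℕ → ℝ := fun i => ∑ j ∈ range (k + 1), α j * ((n₀ : ℝ) + q₁ * i) ^ j with hg
  set c₀ : ℂ := ee (α (k + 1) * (n₀ : ℝ) ^ (k + 1)) with hc₀
  -- the phase
  have hphase : ∀ i, ee (∑ j ∈ range (k + 2), α j * ((n₀ + q₁ * i : ℕ) : ℝ) ^ j) =
      ee (g i) * c₀ * ee (η * W i) := by
    intro i
    rw [sum_range_succ]
    have hp := wb_pow_sub n₀ (q₁ * i) k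
    have hp' : (((n₀ + q₁ * i : ℕ) : ℝ)) ^ (k + 1) = (n₀ : ℝ) ^ (k + 1) + q₁ * W i := by
      have : (((n₀ + q₁ * i) ^ (k + 1) : ℕ) : ℝ) =
          ((n₀ ^ (k + 1) + q₁ * i * ∑ r ∈ range (k + 1), (n₀ + q₁ * i) ^ r * n₀ ^ (k - r) : ℕ) : ℝ) := by
        rw [hp]
      rw [Nat.cast_pow] at this
      rw [this, hW]
      push_cast
      ring
    rw [hp']
    have h1 : ∑ j ∈ range (k + 1), α j * ((n₀ + q₁ * i : ℕ) : ℝ) ^ j +
        α (k + 1) * ((n₀ : ℝ) ^ (k + 1) + q₁ * W i) =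
        g i + α (k + 1) * (n₀ : ℝ) ^ (k + 1) + (η * W i + ((a₁ * W i : ℤ) : ℝ)) := by
      rw [hg, hηdef]
      push_cast
      ring
    rw [h1, wb_ee_add, wb_ee_add, wb_ee_add, wb_ee_int, mul_one]
  have hWle : ∀ i ∈ I, (W i : ℝ) ≤ (k + 1) * l * (2 * Y) ^ k := by
    intro i hi
    obtain ⟨h1, h2⟩ := hmem i hi
    have h3 := wb_sum_le n₀ (n₀ + q₁ * i) k Y hn₀ (by omega)
    have h4 : W i ≤ l * ((k + 1) * Y ^ k) := Nat.mul_le_mul h1.le h3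
    have h5 : (W i : ℝ) ≤ l * ((k + 1) * (Y : ℝ) ^ k) := by
      exact_mod_cast h4
    refine h5.trans ?_
    have h6 : (Y : ℝ) ^ k ≤ (2 * Y) ^ k := by
      apply pow_le_pow_left₀ (by positivity)
      have : (0 : ℝ) ≤ Y := by positivity
      linarith
    calc (l : ℝ) * ((k + 1) * (Y : ℝ) ^ k) = (k + 1) * l * (Y : ℝ) ^ k := by ring
      _ ≤ (k + 1) * l * (2 * Y) ^ k := by gcongr
  have hsmall : ∀ i ∈ I, ‖ee (η * W i) - 1‖ ≤ δ / 4 := by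
    intro i hi
    refine (wb_ee_sub_one _).trans ?_
    rw [abs_mul, Nat.abs_cast]
    have h1 : |η| * (W i : ℝ) ≤ δ / 32 :=
      (mul_le_mul_of_nonneg_left (hWle i hi) (abs_nonneg _)).trans hη
    have h2 := Real.pi_lt_four
    have h3 := Real.pi_pos
    have h0 : 0 ≤ |η| * (W i : ℝ) := by positivity
    calc 2 * Real.pi * (|η| * (W i : ℝ)) ≤ 2 * 4 * (δ / 32) := by
          apply mul_le_mul (by linarith) h1 h0 (by norm_num)
      _ = δ / 4 := by ring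
  have hc1 : ‖c₀‖ = 1 := wb_norm_ee _
  have hsum : ∑ i ∈ I, ee (∑ j ∈ range (k + 2), α j * ((n₀ + q₁ * i : ℕ) : ℝ) ^ j) =
      c₀ * (∑ i ∈ I, ee (g i)) + c₀ * ∑ i ∈ I, ee (g i) * (ee (η * W i) - 1) := by
    rw [mul_sum, mul_sum, ← sum_add_distrib]
    refine sum_congr rfl fun i _ => ?_
    rw [hphase i]
    ring
  have herr : ‖c₀ * ∑ i ∈ I, ee (g i) * (ee (η * W i) - 1)‖ ≤ l * (δ / 4) := by
    rw [norm_mul, hc1, one_mul]
    refine (norm_sum_le _ _).trans ?_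
    calc ∑ i ∈ I, ‖ee (g i) * (ee (η * W i) - 1)‖ ≤ ∑ i ∈ I, δ / 4 := by
          refine sum_le_sum fun i hi => ?_
          rw [norm_mul, wb_norm_ee, one_mul]
          exact hsmall i hi
      _ = I.card * (δ / 4) := by simp
      _ ≤ l * (δ / 4) := by gcongr
  have hfin : 3 / 4 * δ * l ≤ ‖∑ i ∈ I, ee (g i)‖ + l * (δ / 4) := by
    calc 3 / 4 * δ * l ≤ ‖∑ i ∈ I, ee (∑ j ∈ range (k + 2), α j * ((n₀ + q₁ * i : ℕ) : ℝ) ^ j)‖ :=
          hmain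
      _ ≤ ‖c₀ * (∑ i ∈ I, ee (g i))‖ + ‖c₀ * ∑ i ∈ I, ee (g i) * (ee (η * W i) - 1)‖ := by
          rw [hsum]; exact norm_add_le _ _
      _ ≤ ‖∑ i ∈ I, ee (g i)‖ + l * (δ / 4) := by
          rw [norm_mul, hc1, one_mul]
          linarith
  have : δ / 2 * l = 3 / 4 * δ * l - l * (δ / 4) := by ring
  rw [this]
  linarith

private lemma wb_swap (k : ℕ) (f : ℕ → ℕ → ℝ) :
    ∑ j ∈ range (k + 1), ∑ l ∈ range (j + 1), f j l =
      ∑ l ∈ range (k + 1), ∑ j ∈ Icc l k, f j l := by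
  refine sum_comm' ?_
  intro x y
  simp only [mem_range, mem_Icc]
  omega

/-- expansion of the polynomial on a progression -/
theorem weyl_expand (k : ℕ) (α : ℕ → ℝ) (q₁ n₀ : ℕ) (i : ℝ) :
    ∑ j ∈ range (k + 1), α j * ((n₀ : ℝ) + q₁ * i) ^ j =
      ∑ l ∈ range (k + 1), ((q₁ : ℝ) ^ l * ∑ j ∈ Icc l k, (j.choose l : ℝ) * α j *
        (n₀ : ℝ) ^ (j - l)) * i ^ l := by
  have h1 : ∀ j, α j * ((n₀ : ℝ) + q₁ * i) ^ j =
      ∑ l ∈ range (j + 1), α j * ((q₁ * i) ^ l * (n₀ : ℝ) ^ (j - l) * (j.choose l : ℝ)) := by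
    intro j
    rw [add_comm (n₀ : ℝ), add_pow, mul_sum]
  simp_rw [h1]
  rw [wb_swap]
  refine sum_congr rfl fun l _ => ?_
  rw [mul_sum, sum_mul]
  refine sum_congr rfl fun j _ => ?_
  rw [mul_pow]
  ring

private lemma wb_alt (m j : ℕ) (hjm : j ≤ m) :
    ∑ i ∈ Icc j m, ((m.choose i : ℝ) * (i.choose j : ℝ) * (-1) ^ (i - j)) =
      if m = j then 1 else 0 := by
  have h1 : ∑ i ∈ Icc j m, ((m.choose i : ℝ) * (i.choose j : ℝ) * (-1) ^ (i - j)) =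
      (m.choose j : ℝ) * ∑ t ∈ range (m - j + 1), (-1 : ℝ) ^ t * ((m - j).choose t : ℝ) := by
    rw [mul_sum]
    refine sum_nbij' (fun i => i - j) (fun t => t + j) ?_ ?_ ?_ ?_ ?_
    · intro i hi; simp only [mem_Icc, mem_range] at hi ⊢; omega
    · intro t ht; simp only [mem_Icc, mem_range] at ht ⊢; omega
    · intro i hi; simp only [mem_Icc] at hi; omega
    · intro t ht; simp
    · intro i hi
      simp only [mem_Icc] at hi
      have h2 := Nat.choose_mul (n := m) hi.1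
      have h3 : (m.choose i : ℝ) * (i.choose j : ℝ) = (m.choose j : ℝ) * ((m - j).choose (i - j) : ℝ) := by
        exact_mod_cast h2
      rw [h3]
      ring
  rw [h1]
  have h4 := Int.alternating_sum_range_choose (n := m - j)
  have h5 : ∑ t ∈ range (m - j + 1), (-1 : ℝ) ^ t * ((m - j).choose t : ℝ) =
      ((∑ t ∈ range (m - j + 1), ((-1) ^ t * ((m - j).choose t : ℤ)) : ℤ) : ℝ) := by
    push_cast; rfl
  rw [h5, h4]
  by_cases h : m = j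
  · subst h; simp
  · have : m - j ≠ 0 := by omega
    simp [h, this]

/-- inversion of the expansion -/
private lemma wb_invert (k : ℕ) (α : ℕ → ℝ) (q₁ n₀ : ℕ) (j : ℕ) (hj : j ≤ k) :
    (q₁ : ℝ) ^ k * α j = ∑ i ∈ Icc j k, ((q₁ : ℝ) ^ i * ∑ m ∈ Icc i k,
      (m.choose i : ℝ) * α m * (n₀ : ℝ) ^ (m - i)) * ((q₁ : ℝ) ^ (k - i) * (i.choose j : ℝ) *
        (-(n₀ : ℝ)) ^ (i - j)) := by
  have h1 : ∑ i ∈ Icc j k, ((q₁ : ℝ) ^ i * ∑ m ∈ Icc i k,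
      (m.choose i : ℝ) * α m * (n₀ : ℝ) ^ (m - i)) * ((q₁ : ℝ) ^ (k - i) * (i.choose j : ℝ) *
        (-(n₀ : ℝ)) ^ (i - j)) =
      ∑ i ∈ Icc j k, ∑ m ∈ Icc i k, (q₁ : ℝ) ^ k * α m * (n₀ : ℝ) ^ (m - j) *
        ((m.choose i : ℝ) * (i.choose j : ℝ) * (-1) ^ (i - j)) := by
    refine sum_congr rfl fun i hi => ?_
    simp only [mem_Icc] at hi
    rw [mul_sum, sum_mul]
    refine sum_congr rfl fun m hm => ?_
    simp only [mem_Icc] at hm
    have e1 : (q₁ : ℝ) ^ k = (q₁ : ℝ) ^ i * (q₁ : ℝ) ^ (k - i) := by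
      rw [← pow_add]; congr 1; omega
    have e2 : (n₀ : ℝ) ^ (m - j) = (n₀ : ℝ) ^ (m - i) * (n₀ : ℝ) ^ (i - j) := by
      rw [← pow_add]; congr 1; omega
    rw [e1, e2, neg_pow]
    ring
  rw [h1]
  have h2 : ∑ i ∈ Icc j k, ∑ m ∈ Icc i k, (q₁ : ℝ) ^ k * α m * (n₀ : ℝ) ^ (m - j) *
        ((m.choose i : ℝ) * (i.choose j : ℝ) * (-1) ^ (i - j)) =
      ∑ m ∈ Icc j k, ∑ i ∈ Icc j m, (q₁ : ℝ) ^ k * α m * (n₀ : ℝ) ^ (m - j) *
        ((m.choose i : ℝ) * (i.choose j : ℝ) * (-1) ^ (i - j)) := by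
    refine sum_comm' ?_
    intro x y
    simp only [mem_Icc]
    omega
  rw [h2]
  have h3 : ∀ m ∈ Icc j k, ∑ i ∈ Icc j m, (q₁ : ℝ) ^ k * α m * (n₀ : ℝ) ^ (m - j) *
        ((m.choose i : ℝ) * (i.choose j : ℝ) * (-1) ^ (i - j)) =
      (q₁ : ℝ) ^ k * α m * (n₀ : ℝ) ^ (m - j) * (if m = j then 1 else 0) := by
    intro m hm
    simp only [mem_Icc] at hm
    rw [← mul_sum, wb_alt m j hm.1]
  rw [sum_congr rfl h3, sum_eq_single j]
  · simp
  · intro b _ hb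
    simp [hb]
  · intro h
    exact absurd (mem_Icc.2 ⟨le_rfl, hj⟩) h

/-- from the progression back to the integers -/
theorem weyl_back (k : ℕ) (α : ℕ → ℝ) (Y q₁ q₃ l n₀ : ℕ) (E ω : ℝ) (hY : 1 ≤ Y)
    (hl : ω * Y ≤ l) (hω : 0 < ω) (hω1 : ω ≤ 1) (hn : n₀ ≤ Y) (hq : 1 ≤ q₁) (hE : 0 ≤ E)
    (hβ : ∀ i, 1 ≤ i → i ≤ k → ∃ b : ℤ, |(q₃ : ℝ) * ((q₁ : ℝ) ^ i * ∑ j ∈ Icc i k,
      (j.choose i : ℝ) * α j * (n₀ : ℝ) ^ (j - i)) - b| ≤ E / (l : ℝ) ^ i) :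
    ∀ j, 1 ≤ j → j ≤ k → ∃ a : ℤ, |((q₁ ^ k * q₃ : ℕ) : ℝ) * α j - a| ≤
      (k + 1) * 2 ^ k * E * (q₁ : ℝ) ^ k / ω ^ k / (Y : ℝ) ^ j := by
  intro j hj1 hjk
  have hY' : (1 : ℝ) ≤ Y := by exact_mod_cast hY
  have hYpos : (0 : ℝ) < Y := by linarith
  have hq' : (1 : ℝ) ≤ q₁ := by exact_mod_cast hq
  have hn' : (n₀ : ℝ) ≤ Y := by exact_mod_cast hn
  choose! b hb using hβ
  refine ⟨∑ i ∈ Icc j k, b i * ((q₁ : ℤ) ^ (k - i) * (i.choose j : ℤ) * (-(n₀ : ℤ)) ^ (i - j)), ?_⟩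
  have h1 : ((q₁ ^ k * q₃ : ℕ) : ℝ) * α j -
      ((∑ i ∈ Icc j k, b i * ((q₁ : ℤ) ^ (k - i) * (i.choose j : ℤ) * (-(n₀ : ℤ)) ^ (i - j)) : ℤ) : ℝ)
      = ∑ i ∈ Icc j k, ((q₃ : ℝ) * ((q₁ : ℝ) ^ i * ∑ m ∈ Icc i k,
      (m.choose i : ℝ) * α m * (n₀ : ℝ) ^ (m - i)) - b i) * ((q₁ : ℝ) ^ (k - i) * (i.choose j : ℝ) *
        (-(n₀ : ℝ)) ^ (i - j)) := by
    have h2 : ((q₁ ^ k * q₃ : ℕ) : ℝ) * α j = q₃ * ((q₁ : ℝ) ^ k * α j) := by push_cast; ring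
    rw [h2, wb_invert k α q₁ n₀ j hjk]
    push_cast
    rw [mul_sum, ← sum_sub_distrib]
    refine sum_congr rfl fun i _ => ?_
    ring
  rw [h1]
  refine (abs_sum_le_sum_abs _ _).trans ?_
  have h3 : ∀ i ∈ Icc j k, |((q₃ : ℝ) * ((q₁ : ℝ) ^ i * ∑ m ∈ Icc i k,
      (m.choose i : ℝ) * α m * (n₀ : ℝ) ^ (m - i)) - b i) * ((q₁ : ℝ) ^ (k - i) * (i.choose j : ℝ) *
        (-(n₀ : ℝ)) ^ (i - j))| ≤ 2 ^ k * E * (q₁ : ℝ) ^ k / ω ^ k / (Y : ℝ) ^ j := by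
    intro i hi
    simp only [mem_Icc] at hi
    have hb' := hb i (by omega) hi.2
    rw [abs_mul, abs_mul, abs_mul, abs_pow, abs_pow, abs_neg, Nat.abs_cast, Nat.abs_cast,
      Nat.abs_cast]
    have hlpos : 0 < (ω * Y : ℝ) := by positivity
    have e1 : E / (l : ℝ) ^ i ≤ E / (ω * Y) ^ i := by
      apply div_le_div_of_nonneg_left hE (by positivity)
      exact pow_le_pow_left₀ hlpos.le hl i
    have e2 : (q₁ : ℝ) ^ (k - i) ≤ (q₁ : ℝ) ^ k := pow_le_pow_right₀ hq' (by omega)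
    have e3 : (i.choose j : ℝ) ≤ 2 ^ k := by
      have h4 : i.choose j ≤ 2 ^ i := Nat.choose_le_two_pow i j
      have h5 : (2 : ℕ) ^ i ≤ 2 ^ k := Nat.pow_le_pow_right (by norm_num) hi.2
      exact_mod_cast h4.trans h5
    have e4 : (n₀ : ℝ) ^ (i - j) ≤ (Y : ℝ) ^ (i - j) := pow_le_pow_left₀ (by positivity) hn' _
    calc |(q₃ : ℝ) * ((q₁ : ℝ) ^ i * ∑ m ∈ Icc i k,
          (m.choose i : ℝ) * α m * (n₀ : ℝ) ^ (m - i)) - b i| *
          ((q₁ : ℝ) ^ (k - i) * (i.choose j : ℝ) * (n₀ : ℝ) ^ (i - j))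
        ≤ (E / (ω * Y) ^ i) * ((q₁ : ℝ) ^ k * 2 ^ k * (Y : ℝ) ^ (i - j)) := by
          gcongr
          exact hb'.trans e1
      _ = 2 ^ k * E * (q₁ : ℝ) ^ k / ω ^ i / (Y : ℝ) ^ j := by
          have e5 : (Y : ℝ) ^ i = (Y : ℝ) ^ (i - j) * (Y : ℝ) ^ j := by
            rw [← pow_add]; congr 1; omega
          rw [mul_pow, e5]
          field_simp
      _ ≤ 2 ^ k * E * (q₁ : ℝ) ^ k / ω ^ k / (Y : ℝ) ^ j := by
          apply div_le_div_of_nonneg_right _ (by positivity)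
          apply div_le_div_of_nonneg_left (by positivity) (by positivity)
          exact pow_le_pow_of_le_one hω.le hω1 hi.2
  calc ∑ i ∈ Icc j k, _ ≤ ∑ i ∈ Icc j k, 2 ^ k * E * (q₁ : ℝ) ^ k / ω ^ k / (Y : ℝ) ^ j :=
        sum_le_sum h3
    _ = ((Icc j k).card : ℝ) * (2 ^ k * E * (q₁ : ℝ) ^ k / ω ^ k / (Y : ℝ) ^ j) := by simp
    _ ≤ (k + 1) * (2 ^ k * E * (q₁ : ℝ) ^ k / ω ^ k / (Y : ℝ) ^ j) := by
        have : ((Icc j k).card : ℝ) ≤ k + 1 := by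
          rw [Nat.card_Icc]
          have : k + 1 - j ≤ k + 1 := by omega
          exact_mod_cast this
        gcongr
    _ = (k + 1) * 2 ^ k * E * (q₁ : ℝ) ^ k / ω ^ k / (Y : ℝ) ^ j := by ring

end Vale.Agent.P042.FS
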