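import Vale.Agent.P042.FS.WeylRec
import Vale.Agent.P042.FS.WeylBlock

namespace Vale.Agent.P042.FS

open Finset

private lemma wy_ee_add (x y : ℝ) : ee (x + y) = ee x * ee y := by
  unfold ee
  rw [← Complex.exp_add]
  congr 1
  push_cast
  ring

private lemma wy_ee_int (n : ℤ) : ee (n : ℝ) = 1 := by
  unfold ee
  rw [Complex.exp_eq_one_iff]
  exact ⟨n, by push_cast; ring⟩

private lemma wy_norm_ee (x : ℝ) : ‖ee x‖ = 1 := by
  unfold ee
  have h : 2 * (Real.pi : ℂ) * Complex.I * (x : ℂ) = ((2 * Real.pi * x : ℝ) : ℂ) * Complex.I := by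
    push_cast; ring
  rw [h, Complex.norm_exp_ofReal_mul_I]

private lemma wy_ee_mul_nat (x : ℝ) (n : ℕ) : ee (x * n) = ee x ^ n := by
  unfold ee
  rw [← Complex.exp_nat_mul]
  congr 1
  push_cast
  ring

/-- lower bound `‖e(θ) - 1‖ ≥ 4|θ|` for `|θ| ≤ 1/2` -/
private lemma wy_ee_lower (θ : ℝ) (h : |θ| ≤ 1 / 2) : 4 * |θ| ≤ ‖ee θ - 1‖ := by
  have e1 : ee θ = Complex.exp (Complex.I * ((2 * Real.pi * θ : ℝ) : ℂ)) := by
    unfold ee
    congr 1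
    push_cast
    ring
  rw [e1, Complex.norm_exp_I_mul_ofReal_sub_one]
  have e2 : 2 * Real.pi * θ / 2 = Real.pi * θ := by ring
  rw [e2, norm_mul, Real.norm_eq_abs, Real.norm_eq_abs]
  have hpi := Real.pi_pos
  have e3 : |Real.sin (Real.pi * θ)| = Real.sin (Real.pi * |θ|) := by
    rcases le_total 0 θ with h0 | h0
    · rw [abs_of_nonneg h0, abs_of_nonneg]
      apply Real.sin_nonneg_of_nonneg_of_le_pi (by positivity)
      rw [abs_of_nonneg h0] at h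
      nlinarith
    · rw [abs_of_nonpos h0]
      rw [abs_of_nonpos h0] at h
      have : Real.pi * -θ = -(Real.pi * θ) := by ring
      rw [this, Real.sin_neg, abs_of_nonpos]
      have h1 : 0 ≤ Real.sin (Real.pi * -θ) := by
        apply Real.sin_nonneg_of_nonneg_of_le_pi
        · have : 0 ≤ -θ := by linarith
          positivity
        · nlinarith
      rw [this, Real.sin_neg] at h1
      linarith
  rw [e3]
  have h2 := Real.mul_le_sin (x := Real.pi * |θ|) (by positivity) (by nlinarith)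
  have h3 : 2 / Real.pi * (Real.pi * |θ|) = 2 * |θ| := by
    field_simp
  rw [h3] at h2
  rw [abs_of_pos (by norm_num : (0 : ℝ) < 2)]
  linarith

/-- degree one -/
theorem weyl_one : WeylInv 1 1 := by
  intro α Y s t δ hY hδ hδ2 ht hS
  refine ⟨1, le_rfl, ?_, ?_⟩
  · rw [pow_one, Nat.cast_one, le_div_iff₀ hδ]
    linarith
  intro j hj1 hj2
  have hj : j = 1 := le_antisymm hj2 hj1
  subst hj
  have hY' : (0 : ℝ) < Y := by exact_mod_cast hY
  refine ⟨round (α 1), ?_⟩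
  rw [Nat.cast_one, one_mul, pow_one, pow_one]
  set θ := α 1 - round (α 1) with hθ
  have hθ2 : |θ| ≤ 1 / 2 := abs_sub_round (α 1)
  rcases eq_or_ne θ 0 with h0 | h0
  · rw [h0, abs_zero]
    positivity
  have hθpos : 0 < |θ| := abs_pos.2 h0
  have hz1 : ee θ ≠ 1 := by
    intro h
    have := wy_ee_lower θ hθ2
    rw [h, sub_self, norm_zero] at this
    linarith
  -- the sum is geometric
  have hterm : ∀ n : ℕ, ee (∑ j ∈ range (1 + 1), α j * (n : ℝ) ^ j) = ee (α 0) * ee θ ^ n := by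
    intro n
    rw [sum_range_succ, sum_range_one, pow_zero, mul_one, pow_one, wy_ee_add]
    congr 1
    have : α 1 * (n : ℝ) = θ * n + (((round (α 1)) * (n : ℤ) : ℤ) : ℝ) := by
      rw [hθ]; push_cast; ring
    rw [this, wy_ee_add, wy_ee_int, mul_one, wy_ee_mul_nat]
  simp_rw [hterm] at hS
  rw [← mul_sum, norm_mul, wy_norm_ee, one_mul] at hS
  have hsum : ‖∑ n ∈ Ico s t, ee θ ^ n‖ ≤ 2 / ‖ee θ - 1‖ := by
    rcases le_total s t with hst | hst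
    · rw [geom_sum_Ico hz1 hst, norm_div]
      apply div_le_div_of_nonneg_right _ (norm_nonneg _)
      refine (norm_sub_le _ _).trans ?_
      rw [norm_pow, norm_pow, wy_norm_ee, one_pow, one_pow]
      norm_num
    · rw [Ico_eq_empty_of_le hst, sum_empty, norm_zero]
      positivity
  have h4 := wy_ee_lower θ hθ2
  have h5 : 2 / ‖ee θ - 1‖ ≤ 2 / (4 * |θ|) :=
    div_le_div_of_nonneg_left (by norm_num) (by positivity) h4
  have h6 : δ * Y ≤ 2 / (4 * |θ|) := hS.trans (hsum.trans h5)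
  rw [le_div_iff₀ (by positivity)] at h6
  rw [div_div, le_div_iff₀ (by positivity)]
  nlinarith

private lemma wy_succ_le (k : ℕ) (δ : ℝ) (hδ : 0 < δ) (hδ2 : δ ≤ 1 / 2) :
    ((k : ℝ) + 1) * 2 ^ k ≤ (1 / δ) ^ (2 * k) := by
  have h2 : (2 : ℝ) ≤ 1 / δ := by rw [le_div_iff₀ hδ]; linarith
  have h3 : (k : ℝ) + 1 ≤ 2 ^ k := by
    have : k + 1 ≤ 2 ^ k := Nat.lt_two_pow_self
    exact_mod_cast this
  calc ((k : ℝ) + 1) * 2 ^ k ≤ 2 ^ k * 2 ^ k := by gcongr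
    _ = 2 ^ (2 * k) := by rw [← pow_add]; congr 1; ring
    _ ≤ (1 / δ) ^ (2 * k) := pow_le_pow_left₀ (by norm_num) h2 _

/-- lower coefficients are nearly rational too -/
theorem weyl_lower (k C C' : ℕ) (hk : 1 ≤ k) (hW : WeylInv k C) : ∃ C'' : ℕ,
    ∀ (α : ℕ → ℝ) (Y s t q₁ : ℕ) (a₁ : ℤ) (δ : ℝ), 1 ≤ Y → 0 < δ → δ ≤ 1 / 2 → t ≤ Y →
      (1 / δ) ^ C'' ≤ (Y : ℝ) →
      δ * Y ≤ ‖∑ n ∈ Ico s t, ee (∑ j ∈ range (k + 2), α j * (n : ℝ) ^ j)‖ →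
      1 ≤ q₁ → (q₁ : ℝ) ≤ (1 / δ) ^ C' →
      |(q₁ : ℝ) * α (k + 1) - a₁| ≤ (1 / δ) ^ C' / (Y : ℝ) ^ (k + 1) →
      ∃ q : ℕ, 1 ≤ q ∧ (q : ℝ) ≤ (1 / δ) ^ C'' ∧
        ∀ j, 1 ≤ j → j ≤ k → ∃ a : ℤ, |(q : ℝ) * α j - a| ≤ (1 / δ) ^ C'' / (Y : ℝ) ^ j := by
  refine ⟨2 * k + 2 * C + C' * k + (C' + 2 * k + 7) * k + (C' + 2 * k + 7), ?_⟩
  intro α Y s t q₁ a₁ δ hY hδ hδ2 ht hYl hS hq1 hq2 hη
  set C2 := C' + 2 * k + 6 with hC2
  set D := 1 / δ with hD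
  have hD2 : (2 : ℝ) ≤ D := by rw [hD, le_div_iff₀ hδ]; linarith
  have hD1 : (1 : ℝ) ≤ D := by linarith
  have hDpos : (0 : ℝ) < D := by linarith
  have hδD : δ * D = 1 := by rw [hD]; field_simp
  have hδDp : ∀ n : ℕ, δ ^ n * D ^ n = 1 := fun n => by rw [← mul_pow, hδD, one_pow]
  have hYpos : (0 : ℝ) < Y := by exact_mod_cast hY
  have hY1 : (1 : ℝ) ≤ Y := by exact_mod_cast hY
  have hYC2 : D ^ (C2 + 1) ≤ Y := by
    refine le_trans (pow_le_pow_right₀ hD1 ?_) hYl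
    rw [hC2]
    omega
  -- the length of the progression
  set l := ⌊δ ^ C2 * Y⌋₊ with hl
  have hx2 : 2 ≤ δ ^ C2 * Y := by
    calc (2 : ℝ) ≤ D := hD2
      _ = (δ ^ C2 * D ^ C2) * D := by rw [hδDp, one_mul]
      _ = δ ^ C2 * D ^ (C2 + 1) := by ring
      _ ≤ δ ^ C2 * Y := by gcongr
  have hlle : (l : ℝ) ≤ δ ^ C2 * Y := Nat.floor_le (by positivity)
  have hllt : δ ^ C2 * Y < l + 1 := Nat.lt_floor_add_one _
  have hl1 : 1 ≤ l := by
    have : (0 : ℝ) < l := by linarith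
    exact_mod_cast this
  have hδ1 : δ ≤ 1 := by linarith
  have hω : δ ^ (C2 + 1) * Y ≤ l := by
    have h1 : δ ^ (C2 + 1) * Y ≤ (1 / 2) * (δ ^ C2 * Y) := by
      rw [pow_succ]
      have : 0 ≤ δ ^ C2 * Y := by positivity
      nlinarith
    linarith
  have hpowδ : ∀ m n : ℕ, m ≤ n → δ ^ n ≤ δ ^ m := fun m n h => pow_le_pow_of_le_one hδ.le hδ1 h
  have hδ6 : δ ^ 6 ≤ δ / 32 := by
    have : δ ^ 5 ≤ (1 / 2) ^ 5 := pow_le_pow_left₀ hδ.le hδ2 5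
    calc δ ^ 6 = δ * δ ^ 5 := by ring
      _ ≤ δ * (1 / 2) ^ 5 := by gcongr
      _ = δ / 32 := by ring
  -- conditions of the block lemma
  have hql : (q₁ : ℝ) * l ≤ δ / 4 * Y := by
    calc (q₁ : ℝ) * l ≤ D ^ C' * (δ ^ C2 * Y) := by gcongr
      _ = (δ ^ C' * D ^ C') * (δ ^ (2 * k) * (δ ^ 6 * Y)) := by rw [hC2, pow_add, pow_add]; ring
      _ = δ ^ (2 * k) * (δ ^ 6 * Y) := by rw [hδDp, one_mul]
      _ ≤ 1 * ((δ / 32) * Y) := by
          gcongr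
          exact pow_le_one₀ hδ.le hδ1
      _ ≤ δ / 4 * Y := by
          rw [one_mul]
          gcongr
          linarith
  have hηl : |(q₁ : ℝ) * α (k + 1) - a₁| * ((k + 1) * l * (2 * Y) ^ k) ≤ δ / 32 := by
    calc |(q₁ : ℝ) * α (k + 1) - a₁| * ((k + 1) * l * (2 * Y) ^ k)
        ≤ (D ^ C' / (Y : ℝ) ^ (k + 1)) * ((k + 1) * (δ ^ C2 * Y) * (2 * Y) ^ k) := by gcongr
      _ = (δ ^ C2 * D ^ C') * (((k : ℝ) + 1) * 2 ^ k) := by
          rw [mul_pow, pow_succ]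
          field_simp
      _ ≤ (δ ^ C2 * D ^ C') * D ^ (2 * k) := by
          gcongr
          exact wy_succ_le k δ hδ hδ2
      _ = (δ ^ C' * D ^ C') * (δ ^ (2 * k) * D ^ (2 * k)) * δ ^ 6 := by
          rw [hC2, pow_add, pow_add]; ring
      _ = δ ^ 6 := by rw [hδDp, hδDp]; ring
      _ ≤ δ / 32 := hδ6
  obtain ⟨n₀, i₀, i₁, hn₀, hi₁, hblock⟩ :=
    weyl_block k α Y s t q₁ l a₁ δ hY hδ ht hl1 hq1 hql hS hηl
  simp_rw [weyl_expand] at hblock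
  have hW' := hW (fun l => (q₁ : ℝ) ^ l * ∑ j ∈ Icc l k, (j.choose l : ℝ) * α j *
        (n₀ : ℝ) ^ (j - l)) l i₀ i₁ (δ / 2) hl1 (by linarith) (by linarith) hi₁ hblock
  obtain ⟨q₃, hq3, hq3le, hβ⟩ := hW'
  have h2δ : (1 / (δ / 2)) ≤ D ^ 2 := by
    have : 1 / (δ / 2) = 2 * D := by rw [hD]; field_simp
    rw [this, sq]
    gcongr
  have hE : (1 / (δ / 2)) ^ C ≤ D ^ (2 * C) := by
    rw [pow_mul]
    exact pow_le_pow_left₀ (by positivity) h2δ C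
  have hback := weyl_back k α Y q₁ q₃ l n₀ ((1 / (δ / 2)) ^ C) (δ ^ (C2 + 1)) hY hω
    (by positivity) (pow_le_one₀ hδ.le hδ1) hn₀ hq1 (by positivity) hβ
  refine ⟨q₁ ^ k * q₃, ?_, ?_, ?_⟩
  · exact Nat.mul_pos (pow_pos hq1 k) hq3
  · push_cast
    calc (q₁ : ℝ) ^ k * q₃ ≤ (D ^ C') ^ k * D ^ (2 * C) := by
          gcongr
          exact hq3le.trans hE
      _ = D ^ (C' * k + 2 * C) := by rw [← pow_mul, ← pow_add]
      _ ≤ D ^ (2 * k + 2 * C + C' * k + (C' + 2 * k + 7) * k + (C' + 2 * k + 7)) := by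
          apply pow_le_pow_right₀ hD1
          omega
  · intro j hj1 hjk
    obtain ⟨a, ha⟩ := hback j hj1 hjk
    refine ⟨a, ha.trans ?_⟩
    apply div_le_div_of_nonneg_right _ (by positivity)
    have e1 : ((δ ^ (C2 + 1)) ^ k)⁻¹ = D ^ ((C2 + 1) * k) := by
      rw [← pow_mul, hD, one_div, inv_pow]
    calc ((k : ℝ) + 1) * 2 ^ k * (1 / (δ / 2)) ^ C * (q₁ : ℝ) ^ k / (δ ^ (C2 + 1)) ^ k
        = (((k : ℝ) + 1) * 2 ^ k) * (1 / (δ / 2)) ^ C * (q₁ : ℝ) ^ k * D ^ ((C2 + 1) * k) := by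
          rw [div_eq_mul_inv, e1]
      _ ≤ D ^ (2 * k) * D ^ (2 * C) * (D ^ C') ^ k * D ^ ((C2 + 1) * k) := by
          gcongr
          exact wy_succ_le k δ hδ hδ2
      _ = D ^ (2 * k + 2 * C + C' * k + (C2 + 1) * k) := by
          rw [← pow_mul, ← pow_add, ← pow_add, ← pow_add]
      _ ≤ D ^ (2 * k + 2 * C + C' * k + (C' + 2 * k + 7) * k + (C' + 2 * k + 7)) := by
          apply pow_le_pow_right₀ hD1
          have : C2 + 1 = C' + 2 * k + 7 := by omega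
          rw [this]
          omega

/-- the trivial case: short sums -/
private lemma wy_trivial (k C₀ C : ℕ) (hC : C₀ * k ≤ C) (α : ℕ → ℝ) (Y : ℕ) (δ : ℝ) (hY : 1 ≤ Y)
    (hδ : 0 < δ) (hδ2 : δ ≤ 1 / 2) (hYs : (Y : ℝ) ≤ (1 / δ) ^ C₀) :
    ∃ q : ℕ, 1 ≤ q ∧ (q : ℝ) ≤ (1 / δ) ^ C ∧
        ∀ j, 1 ≤ j → j ≤ k → ∃ a : ℤ, |(q : ℝ) * α j - a| ≤ (1 / δ) ^ C / (Y : ℝ) ^ j := by
  have hD2 : (2 : ℝ) ≤ 1 / δ := by rw [le_div_iff₀ hδ]; linarith
  have hD1 : (1 : ℝ) ≤ 1 / δ := by linarith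
  have hYpos : (0 : ℝ) < Y := by exact_mod_cast hY
  refine ⟨1, le_rfl, ?_, ?_⟩
  · rw [Nat.cast_one]; exact one_le_pow₀ hD1
  · intro j hj1 hjk
    refine ⟨round (α j), ?_⟩
    rw [Nat.cast_one, one_mul]
    refine (abs_sub_round (α j)).trans ?_
    rw [le_div_iff₀ (by positivity)]
    have h1 : (Y : ℝ) ^ j ≤ (1 / δ) ^ C := by
      calc (Y : ℝ) ^ j ≤ ((1 / δ) ^ C₀) ^ j := pow_le_pow_left₀ hYpos.le hYs j
        _ = (1 / δ) ^ (C₀ * j) := by rw [← pow_mul]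
        _ ≤ (1 / δ) ^ C := pow_le_pow_right₀ hD1 ((Nat.mul_le_mul_left _ hjk).trans hC)
    have h2 : 0 ≤ (Y : ℝ) ^ j := by positivity
    linarith

/-- quantitative Weyl inverse theorem -/
theorem weyl_inverse (k : ℕ) (hk : 1 ≤ k) : ∃ C : ℕ, 1 ≤ C ∧ WeylInv k C := by
  induction k, hk using Nat.le_induction with
  | base => exact ⟨1, le_rfl, weyl_one⟩
  | succ k hk ih =>
    obtain ⟨C, hC, hW⟩ := ih
    obtain ⟨C', hCC', hlead⟩ := weyl_leading k C hk hW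
    obtain ⟨C'', hlow⟩ := weyl_lower k C C' hk hW
    set C₀ := C' + C'' + 1 with hC₀
    refine ⟨C₀ * (k + 2), by rw [hC₀]; exact Nat.mul_pos (by omega) (by omega), ?_⟩
    intro α Y s t δ hY hδ hδ2 ht hS
    have hD2 : (2 : ℝ) ≤ 1 / δ := by rw [le_div_iff₀ hδ]; linarith
    have hD1 : (1 : ℝ) ≤ 1 / δ := by linarith
    have hYpos : (0 : ℝ) < Y := by exact_mod_cast hY
    rcases le_or_gt (Y : ℝ) ((1 / δ) ^ C₀) with hYs | hYl
    · exact wy_trivial (k + 1) C₀ (C₀ * (k + 2)) (Nat.mul_le_mul_left _ (by omega)) α Y δ hY hδ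
        hδ2 hYs
    · have h1 : (1 / δ) ^ C' ≤ (Y : ℝ) :=
        (pow_le_pow_right₀ hD1 (by omega)).trans hYl.le
      have h2 : (1 / δ) ^ C'' ≤ (Y : ℝ) :=
        (pow_le_pow_right₀ hD1 (by omega)).trans hYl.le
      obtain ⟨q₁, hq1, hq1le, a₁, ha₁⟩ := hlead α Y s t δ hY hδ hδ2 ht h1 hS
      obtain ⟨q, hq, hqle, hlo⟩ := hlow α Y s t q₁ a₁ δ hY hδ hδ2 ht h2 hS hq1 hq1le ha₁
      have hCle : C' + C'' ≤ C₀ * (k + 2) := by
        calc C' + C'' ≤ C₀ := by omega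
          _ ≤ C₀ * (k + 2) := Nat.le_mul_of_pos_right _ (by omega)
      refine ⟨q₁ * q, Nat.mul_pos hq1 hq, ?_, ?_⟩
      · push_cast
        calc (q₁ : ℝ) * q ≤ (1 / δ) ^ C' * (1 / δ) ^ C'' := by gcongr
          _ = (1 / δ) ^ (C' + C'') := by rw [← pow_add]
          _ ≤ (1 / δ) ^ (C₀ * (k + 2)) := pow_le_pow_right₀ hD1 hCle
      · intro j hj1 hjk
        rcases Nat.lt_or_ge j (k + 1) with hlt | hge
        · obtain ⟨a, ha⟩ := hlo j hj1 (by omega)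
          refine ⟨q₁ * a, ?_⟩
          have e1 : ((q₁ * q : ℕ) : ℝ) * α j - ((q₁ * a : ℤ) : ℝ) = q₁ * (q * α j - a) := by
            push_cast; ring
          rw [e1, abs_mul, Nat.abs_cast]
          calc (q₁ : ℝ) * |(q : ℝ) * α j - a| ≤ (1 / δ) ^ C' * ((1 / δ) ^ C'' / (Y : ℝ) ^ j) := by
                gcongr
            _ = (1 / δ) ^ (C' + C'') / (Y : ℝ) ^ j := by rw [pow_add]; ring
            _ ≤ (1 / δ) ^ (C₀ * (k + 2)) / (Y : ℝ) ^ j := by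
                apply div_le_div_of_nonneg_right _ (by positivity)
                exact pow_le_pow_right₀ hD1 hCle
        · have hj : j = k + 1 := le_antisymm hjk hge
          subst hj
          refine ⟨q * a₁, ?_⟩
          have e1 : ((q₁ * q : ℕ) : ℝ) * α (k + 1) - ((q * a₁ : ℤ) : ℝ) =
              q * (q₁ * α (k + 1) - a₁) := by
            push_cast; ring
          rw [e1, abs_mul, Nat.abs_cast]
          calc (q : ℝ) * |(q₁ : ℝ) * α (k + 1) - a₁| ≤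
                (1 / δ) ^ C'' * ((1 / δ) ^ C' / (Y : ℝ) ^ (k + 1)) := by gcongr
            _ = (1 / δ) ^ (C' + C'') / (Y : ℝ) ^ (k + 1) := by rw [pow_add]; ring
            _ ≤ (1 / δ) ^ (C₀ * (k + 2)) / (Y : ℝ) ^ (k + 1) := by
                apply div_le_div_of_nonneg_right _ (by positivity)
                exact pow_le_pow_right₀ hD1 hCle

end Vale.Agent.P042.FS
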