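import Vale.Agent.P042.FS.Defs

namespace Vale.Agent.P042.FS

open Finset

/-- strong recurrence of `β h mod 1` on a dense set of `h` makes `β` nearly rational -/
theorem recurrence_lemma (β ε δ : ℝ) (Y : ℕ) (hY : 1 ≤ Y) (hδ : 0 < δ) (hδ1 : δ ≤ 1)
    (hε : 0 ≤ ε) (hεδ : 32 * ε ≤ δ) (hlarge : 16 ≤ δ ^ 2 * Y) (s : Finset ℕ)
    (hs : ∀ h ∈ s, 1 ≤ h ∧ h < Y ∧ ∃ a : ℤ, |β * h - a| ≤ ε) (hcard : δ * Y ≤ s.card) :
    ∃ q : ℕ, 1 ≤ q ∧ (q : ℝ) ≤ 2 / δ ∧ ∃ a : ℤ, |(q : ℝ) * β - a| ≤ 32 * ε / (δ ^ 2 * Y) := by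
  classical
  have hYR : (1 : ℝ) ≤ Y := by exact_mod_cast hY
  obtain ⟨r, hr1, hr2⟩ := Real.exists_rat_abs_sub_le_and_den_le β (n := 2 * Y) (by omega)
  set q : ℕ := r.den with hq
  have hq0 : 0 < q := r.den_pos
  have hqR : (0 : ℝ) < q := by exact_mod_cast hq0
  have hq2 : (q : ℝ) ≤ 2 * Y := by exact_mod_cast hr2
  have hrq : (r : ℝ) * q = r.num := by
    have := Rat.mul_den_eq_num r
    have h2 : ((r * r.den : ℚ) : ℝ) = ((r.num : ℚ) : ℝ) := by rw [this]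
    push_cast at h2
    simpa [hq] using h2
  -- closeness
  have hclose : ∀ h : ℕ, h < Y → |β * h - r * h| * q < 1 / 2 := by
    intro h hh
    have hhR : (h : ℝ) < Y := by exact_mod_cast hh
    have h1 : |β * h - r * h| = |β - r| * h := by
      rw [← sub_mul, abs_mul, Nat.abs_cast]
    rw [h1]
    have h2 : |β - r| * q ≤ 1 / (2 * Y + 1) := by
      have := mul_le_mul_of_nonneg_right hr1 hqR.le
      have h3 : 1 / ((((2 * Y : ℕ) : ℝ) + 1) * (q : ℝ)) * q = 1 / (2 * Y + 1) := by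
        push_cast
        field_simp
      rwa [h3] at this
    have h4 : (0 : ℝ) ≤ h := Nat.cast_nonneg h
    have h5 : |β - r| * h * q = (|β - r| * q) * h := by ring
    rw [h5]
    calc (|β - r| * q) * h ≤ 1 / (2 * Y + 1) * h := mul_le_mul_of_nonneg_right h2 h4
      _ < 1 / 2 := by
        rw [div_mul_eq_mul_div, one_mul, div_lt_div_iff₀ (by positivity) (by norm_num)]
        nlinarith
  -- the integers
  have hb : ∀ h ∈ s, ∃ b : ℤ, |β * h - b| ≤ ε := fun h hh => (hs h hh).2.2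
  choose! b hb using hb
  have ht : ∀ h ∈ s, |((r.num * h - b h * q : ℤ) : ℝ)| < 1 / 2 + ε * q := by
    intro h hh
    have h1 : ((r.num * h - b h * q : ℤ) : ℝ) = (r * h - b h) * q := by
      push_cast
      rw [← hrq]
      ring
    rw [h1, abs_mul, abs_of_pos hqR]
    have h2 : (r : ℝ) * h - b h = (β * h - b h) - (β * h - r * h) := by ring
    have h3 : |(r : ℝ) * h - b h| ≤ |β * h - b h| + |β * h - r * h| := by
      rw [h2]; exact abs_sub _ _
    have h4 := hclose h (hs h hh).2.1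
    have h5 := hb h hh
    nlinarith [mul_le_mul_of_nonneg_right h3 hqR.le, mul_le_mul_of_nonneg_right h5 hqR.le]
  have hmodeq : ∀ h ∈ s, ∀ h' ∈ s, (r.num * h - b h * q : ℤ) = r.num * h' - b h' * q →
      h ≡ h' [MOD q] := by
    intro h hh h' hh' he
    have h1 : (q : ℤ) ∣ r.num * ((h' : ℤ) - h) := by
      refine ⟨b h' - b h, ?_⟩
      linarith
    have h2 : IsCoprime (q : ℤ) r.num := by
      have := r.isCoprime_num_den
      exact this.symm
    have h3 : (q : ℤ) ∣ (h' : ℤ) - h := h2.dvd_of_dvd_mul_left h1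
    rw [← Int.natCast_modEq_iff]
    exact Int.modEq_iff_dvd.mpr h3
  rcases lt_or_ge (ε * q) (1 / 2) with hc | hc
  · -- q divides all of s
    have hdvd : ∀ h ∈ s, q ∣ h := by
      intro h hh
      have h1 := ht h hh
      have h2 : |((r.num * h - b h * q : ℤ) : ℝ)| < 1 := by linarith
      have h3 : (r.num * h - b h * q : ℤ) = 0 := by
        have : |(r.num * h - b h * q : ℤ)| < 1 := by exact_mod_cast h2
        exact Int.abs_lt_one_iff.mp this
      have h4 : (q : ℤ) ∣ r.num * h := ⟨b h, by linarith⟩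
      have h5 : IsCoprime (q : ℤ) r.num := r.isCoprime_num_den.symm
      exact_mod_cast h5.dvd_of_dvd_mul_left h4
    have hcard2 : s.card ≤ Y / q := by
      have hsub : s ⊆ (Finset.Icc 1 (Y / q)).image (fun i => q * i) := by
        intro h hh
        obtain ⟨i, rfl⟩ := hdvd h hh
        obtain ⟨h1, h2, -⟩ := hs _ hh
        rw [Finset.mem_image]
        refine ⟨i, ?_, rfl⟩
        rw [Finset.mem_Icc]
        refine ⟨?_, ?_⟩
        · rcases Nat.eq_zero_or_pos i with h0 | h0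
          · subst h0; simp at h1
          · exact h0
        · rw [Nat.le_div_iff_mul_le hq0]
          rw [mul_comm]; exact h2.le
      calc s.card ≤ _ := Finset.card_le_card hsub
        _ ≤ (Finset.Icc 1 (Y / q)).card := Finset.card_image_le
        _ = Y / q := by simp
    have hqδ : δ * q ≤ 1 := by
      have h1 : (s.card : ℝ) ≤ Y / q := by
        calc (s.card : ℝ) ≤ ((Y / q : ℕ) : ℝ) := by exact_mod_cast hcard2
          _ ≤ Y / q := Nat.cast_div_le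
      have h2 : δ * Y ≤ Y / q := hcard.trans h1
      rw [le_div_iff₀ hqR] at h2
      by_contra hcon
      push Not at hcon
      nlinarith
    refine ⟨q, hq0, ?_, r.num, ?_⟩
    · rw [le_div_iff₀ hδ]; linarith [mul_comm (q : ℝ) δ]
    · -- a large element of s
      have hδY : 16 ≤ δ * Y := by nlinarith
      have hne : s.Nonempty := by
        rw [← Finset.card_pos]
        have : (0 : ℝ) < s.card := by linarith
        exact_mod_cast this
      set h := s.max' hne with hh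
      have hmem : h ∈ s := s.max'_mem hne
      have hge : s.card ≤ h := by
        have hsub : s ⊆ Finset.Icc 1 h := by
          intro x hx
          rw [Finset.mem_Icc]
          exact ⟨(hs x hx).1, s.le_max' x hx⟩
        calc s.card ≤ _ := Finset.card_le_card hsub
          _ = h := by simp
      have hgeR : δ * Y ≤ h := hcard.trans (by exact_mod_cast hge)
      obtain ⟨i, hi⟩ := hdvd h hmem
      have h1 := hclose h (hs h hmem).2.1
      have h2 := hb h hmem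
      have hrh : (r : ℝ) * h = ((r.num * i : ℤ) : ℝ) := by
        rw [hi]; push_cast
        rw [← hrq]; ring
      have hq1 : (1 : ℝ) ≤ q := by exact_mod_cast hq0
      have h3 : |β * h - r * h| < 1 / 2 := by
        have := abs_nonneg (β * h - r * h)
        nlinarith
      have h4 : |((b h - r.num * i : ℤ) : ℝ)| < 1 := by
        have e1 : ((b h - r.num * i : ℤ) : ℝ) = (β * h - r * h) - (β * h - b h) := by
          rw [hrh]; push_cast; ring
        rw [e1]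
        calc |(β * h - r * h) - (β * h - b h)| ≤ |β * h - r * h| + |β * h - b h| := abs_sub _ _
          _ < 1 := by linarith
      have h5 : b h = r.num * i := by
        have : |b h - r.num * i| < 1 := by exact_mod_cast h4
        have := Int.abs_lt_one_iff.mp this
        linarith
      have h6 : |β - r| * h ≤ ε := by
        have e1 : |β - r| * h = |β * h - b h| := by
          have : (b h : ℝ) = r * h := by rw [hrh, h5]
          rw [this, ← sub_mul, abs_mul, Nat.abs_cast]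
        rw [e1]; exact h2
      have h7 : |(q : ℝ) * β - r.num| = q * |β - r| := by
        rw [← hrq]
        have : (q : ℝ) * β - r * q = q * (β - r) := by ring
        rw [this, abs_mul, Nat.abs_cast]
      rw [h7, le_div_iff₀ (by positivity)]
      have h8 : 0 ≤ |β - r| := abs_nonneg _
      have h9 : |β - r| * (δ * Y) ≤ ε :=
        (mul_le_mul_of_nonneg_left hgeR h8).trans h6
      have h10 : q * |β - r| * (δ ^ 2 * Y) = (δ * q) * (|β - r| * (δ * Y)) := by ring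
      rw [h10]
      have h11 : 0 ≤ |β - r| * (δ * Y) := by positivity
      nlinarith
  · exfalso
    -- counting
    set T : ℤ := ⌊1 / 2 + ε * q⌋ with hT
    have hTR : (T : ℝ) ≤ 1 / 2 + ε * q := Int.floor_le _
    have hT0 : 0 ≤ T := by
      rw [hT]; exact Int.floor_nonneg.mpr (by positivity)
    have hmaps : ∀ h ∈ s, (r.num * h - b h * q : ℤ) ∈ Finset.Icc (-T) T := by
      intro h hh
      have h1 := ht h hh
      rw [Finset.mem_Icc, ← abs_le]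
      rw [hT, Int.le_floor]
      have : ((|(r.num * h - b h * q : ℤ)| : ℤ) : ℝ) = |((r.num * h - b h * q : ℤ) : ℝ)| := by
        exact Int.cast_abs
      rw [this]
      exact h1.le
    have hfib : ∀ t ∈ Finset.Icc (-T) T,
        (s.filter (fun h : ℕ => (r.num * h - b h * q : ℤ) = t)).card ≤ Y / q + 1 := by
      intro t _
      have hinj : Set.InjOn (fun h : ℕ => h / q)
          (s.filter (fun h : ℕ => (r.num * h - b h * q : ℤ) = t) : Set ℕ) := by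
        intro x hx y hy hxy
        simp only [Finset.coe_filter, Set.mem_ofPred_eq] at hx hy
        have h1 : x ≡ y [MOD q] := hmodeq x hx.1 y hy.1 (by rw [hx.2, hy.2])
        have h2 : x % q = y % q := h1
        have h3 : x / q = y / q := hxy
        rw [← Nat.div_add_mod x q, ← Nat.div_add_mod y q, h2, h3]
      rw [← Finset.card_image_of_injOn hinj]
      have hsub : (s.filter (fun h : ℕ => (r.num * h - b h * q : ℤ) = t)).image (fun h => h / q) ⊆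
          Finset.range (Y / q + 1) := by
        intro x hx
        rw [Finset.mem_image] at hx
        obtain ⟨h, hh, rfl⟩ := hx
        rw [Finset.mem_filter] at hh
        rw [Finset.mem_range, Nat.lt_succ_iff]
        exact Nat.div_le_div_right (hs h hh.1).2.1.le
      calc _ ≤ _ := Finset.card_le_card hsub
        _ = _ := by simp
    have hcount := Finset.card_le_mul_card_image_of_maps_to hmaps (Y / q + 1) hfib
    have hcardI : ((Finset.Icc (-T) T).card : ℝ) = 2 * T + 1 := by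
      rw [Int.card_Icc]
      have h1 : ((T + 1 - -T).toNat : ℤ) = 2 * T + 1 := by
        rw [Int.toNat_of_nonneg (by linarith)]; ring
      have h2 : (((T + 1 - -T).toNat : ℤ) : ℝ) = ((2 * T + 1 : ℤ) : ℝ) := by rw [h1]
      push_cast at h2
      simpa using h2
    have h1 : (s.card : ℝ) ≤ ((Y : ℝ) / q + 1) * (2 * T + 1) := by
      calc (s.card : ℝ) ≤ (((Y / q + 1) * (Finset.Icc (-T) T).card : ℕ) : ℝ) := by
            exact_mod_cast hcount
        _ = (((Y / q : ℕ) : ℝ) + 1) * (2 * T + 1) := by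
            push_cast
            rw [hcardI]
        _ ≤ ((Y : ℝ) / q + 1) * (2 * T + 1) := by
            have h2 : ((Y / q : ℕ) : ℝ) ≤ (Y : ℝ) / q := Nat.cast_div_le
            have h3 : (0 : ℝ) ≤ T := by exact_mod_cast hT0
            nlinarith
    have h2 : ((Y : ℝ) / q + 1) * (2 * T + 1) ≤ ((Y : ℝ) / q + 1) * (6 * ε * q) := by
      apply mul_le_mul_of_nonneg_left _ (by positivity)
      nlinarith
    have h3 : ((Y : ℝ) / q + 1) * (6 * ε * q) = 6 * ε * (Y + q) := by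
      field_simp
    have h4 : δ * Y ≤ 18 * ε * Y := by
      calc δ * Y ≤ 6 * ε * (Y + q) := by rw [← h3]; exact hcard.trans (h1.trans h2)
        _ ≤ 18 * ε * Y := by nlinarith
    nlinarith

theorem vdc_id (f : ℕ → ℂ) (s t : ℕ) :
    (∑ n ∈ Ico s t, f n) * (starRingEnd ℂ) (∑ n ∈ Ico s t, f n) =
      (∑ n ∈ Ico s t, f n * (starRingEnd ℂ) (f n)) +
      ((∑ m ∈ Ico s t, ∑ n ∈ Ico (m + 1) t, f n * (starRingEnd ℂ) (f m)) +
      (starRingEnd ℂ) (∑ m ∈ Ico s t, ∑ n ∈ Ico (m + 1) t, f n * (starRingEnd ℂ) (f m))) := by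
  have h1 : (∑ n ∈ Ico s t, f n) * (starRingEnd ℂ) (∑ n ∈ Ico s t, f n) =
      ∑ m ∈ Ico s t, ∑ n ∈ Ico s t, f n * (starRingEnd ℂ) (f m) := by
    rw [map_sum, Finset.sum_mul_sum, Finset.sum_comm]
  have h2 : ∀ m ∈ Ico s t, ∑ n ∈ Ico s t, f n * (starRingEnd ℂ) (f m) =
      f m * (starRingEnd ℂ) (f m) + ((∑ n ∈ Ico (m + 1) t, f n * (starRingEnd ℂ) (f m)) +
      ∑ n ∈ Ico s m, f n * (starRingEnd ℂ) (f m)) := by
    intro m hm
    rw [Finset.mem_Ico] at hm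
    rw [← Finset.sum_Ico_consecutive _ hm.1 hm.2.le, Finset.sum_eq_sum_Ico_succ_bot hm.2]
    ring
  have h3 : (starRingEnd ℂ) (∑ m ∈ Ico s t, ∑ n ∈ Ico (m + 1) t, f n * (starRingEnd ℂ) (f m)) =
      ∑ m ∈ Ico s t, ∑ n ∈ Ico s m, f n * (starRingEnd ℂ) (f m) := by
    rw [map_sum]
    have : ∀ m ∈ Ico s t, (starRingEnd ℂ) (∑ n ∈ Ico (m + 1) t, f n * (starRingEnd ℂ) (f m)) =
        ∑ n ∈ Ico (m + 1) t, f m * (starRingEnd ℂ) (f n) := by
      intro m _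
      rw [map_sum]
      apply Finset.sum_congr rfl
      intro n _
      rw [map_mul, Complex.conj_conj, mul_comm]
    rw [Finset.sum_congr rfl this]
    apply Finset.sum_comm'
    intro x y
    simp only [Finset.mem_Ico]
    omega
  rw [h1, Finset.sum_congr rfl h2, Finset.sum_add_distrib, Finset.sum_add_distrib, h3]

theorem vdc_swap (f : ℕ → ℂ) (s t Y : ℕ) (ht : t ≤ Y) :
    (∑ m ∈ Ico s t, ∑ n ∈ Ico (m + 1) t, f n * (starRingEnd ℂ) (f m)) =
      ∑ h ∈ Ico 1 Y, ∑ n ∈ Ico s (t - h), f (n + h) * (starRingEnd ℂ) (f n) := by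
  rw [Finset.sum_sigma', Finset.sum_sigma']
  refine Finset.sum_bij' (fun p _ => ⟨p.2 - p.1, p.1⟩) (fun p _ => ⟨p.2, p.2 + p.1⟩)
    ?_ ?_ ?_ ?_ ?_
  · rintro ⟨m, n⟩ h
    simp only [Finset.mem_sigma, Finset.mem_Ico] at h ⊢
    omega
  · rintro ⟨m, n⟩ h
    simp only [Finset.mem_sigma, Finset.mem_Ico] at h ⊢
    omega
  · rintro ⟨m, n⟩ h
    simp only [Finset.mem_sigma, Finset.mem_Ico] at h ⊢
    congr 1
    omega
  · rintro ⟨m, n⟩ h
    simp only [Finset.mem_sigma, Finset.mem_Ico] at h ⊢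
    congr 1
    simp
  · rintro ⟨m, n⟩ h
    simp only [Finset.mem_sigma, Finset.mem_Ico] at h ⊢
    have : m + (n - m) = n := by omega
    rw [this]

/-- van der Corput differencing -/
theorem vdc (f : ℕ → ℂ) (s t Y : ℕ) (ht : t ≤ Y) (hf : ∀ n, ‖f n‖ ≤ 1) :
    ‖∑ n ∈ Ico s t, f n‖ ^ 2 ≤ Y + 2 * ∑ h ∈ Ico 1 Y,
      ‖∑ n ∈ Ico s (t - h), f (n + h) * (starRingEnd ℂ) (f n)‖ := by
  have h0 := vdc_id f s t
  rw [vdc_swap f s t Y ht] at h0
  set S := ∑ n ∈ Ico s t, f n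
  set T := ∑ h ∈ Ico 1 Y, ∑ n ∈ Ico s (t - h), f (n + h) * (starRingEnd ℂ) (f n) with hT
  have h1 : ‖S‖ ^ 2 = ‖S * (starRingEnd ℂ) S‖ := by
    rw [norm_mul, RCLike.norm_conj]; ring
  rw [h1, h0]
  have h2 : ‖∑ n ∈ Ico s t, f n * (starRingEnd ℂ) (f n)‖ ≤ Y := by
    calc ‖∑ n ∈ Ico s t, f n * (starRingEnd ℂ) (f n)‖
        ≤ ∑ n ∈ Ico s t, ‖f n * (starRingEnd ℂ) (f n)‖ := norm_sum_le _ _
      _ ≤ ∑ n ∈ Ico s t, (1 : ℝ) := by
        apply Finset.sum_le_sum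
        intro n _
        rw [norm_mul, RCLike.norm_conj]
        have := hf n
        have h0 := norm_nonneg (f n)
        nlinarith
      _ = ((t - s : ℕ) : ℝ) := by simp
      _ ≤ Y := by exact_mod_cast (Nat.sub_le t s).trans ht
  have h3 : ‖T‖ ≤ ∑ h ∈ Ico 1 Y, ‖∑ n ∈ Ico s (t - h), f (n + h) * (starRingEnd ℂ) (f n)‖ :=
    norm_sum_le _ _
  calc ‖(∑ n ∈ Ico s t, f n * (starRingEnd ℂ) (f n)) + (T + (starRingEnd ℂ) T)‖
      ≤ ‖∑ n ∈ Ico s t, f n * (starRingEnd ℂ) (f n)‖ + ‖T + (starRingEnd ℂ) T‖ := norm_add_le _ _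
    _ ≤ Y + (‖T‖ + ‖(starRingEnd ℂ) T‖) := add_le_add h2 (norm_add_le _ _)
    _ = Y + 2 * ‖T‖ := by rw [RCLike.norm_conj]; ring
    _ ≤ _ := by linarith

theorem wr_norm_ee (x : ℝ) : ‖ee x‖ = 1 := by
  unfold ee
  have : (2 * Real.pi * Complex.I * x : ℂ) = ((2 * Real.pi * x : ℝ) : ℂ) * Complex.I := by
    push_cast; ring
  rw [this, Complex.norm_exp_ofReal_mul_I]

theorem wr_ee_sub (x y : ℝ) : ee x * (starRingEnd ℂ) (ee y) = ee (x - y) := by
  unfold ee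
  rw [← Complex.exp_conj, ← Complex.exp_add]
  congr 1
  simp only [map_mul, Complex.conj_ofReal, Complex.conj_I, Complex.conj_ofNat]
  push_cast
  ring

/-- coefficients of the difference polynomial -/
theorem wr_diff (k : ℕ) (α : ℕ → ℝ) (n h : ℕ) :
    (∑ j ∈ range (k + 2), α j * (((n + h : ℕ) : ℝ)) ^ j) - ∑ j ∈ range (k + 2), α j * (n : ℝ) ^ j =
      ∑ i ∈ range (k + 1), (∑ j ∈ Ico (i + 1) (k + 2),
        α j * (Nat.choose j i : ℝ) * (h : ℝ) ^ (j - i)) * (n : ℝ) ^ i := by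
  rw [← Finset.sum_sub_distrib]
  have h1 : ∀ j ∈ range (k + 2), α j * (((n + h : ℕ) : ℝ)) ^ j - α j * (n : ℝ) ^ j =
      ∑ i ∈ range j, α j * (Nat.choose j i : ℝ) * (h : ℝ) ^ (j - i) * (n : ℝ) ^ i := by
    intro j _
    push_cast
    rw [add_pow, Finset.sum_range_succ]
    simp only [Nat.sub_self, pow_zero, Nat.choose_self, Nat.cast_one, mul_one]
    rw [mul_add, add_sub_cancel_right, Finset.mul_sum]
    apply Finset.sum_congr rfl
    intro i _
    ring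
  rw [Finset.sum_congr rfl h1]
  have h2 : ∀ i ∈ range (k + 1), (∑ j ∈ Ico (i + 1) (k + 2),
        α j * (Nat.choose j i : ℝ) * (h : ℝ) ^ (j - i)) * (n : ℝ) ^ i =
      ∑ j ∈ Ico (i + 1) (k + 2), α j * (Nat.choose j i : ℝ) * (h : ℝ) ^ (j - i) * (n : ℝ) ^ i := by
    intro i _
    rw [Finset.sum_mul]
  rw [Finset.sum_congr rfl h2]
  apply Finset.sum_comm'
  intro x y
  simp only [Finset.mem_Ico, Finset.mem_range]
  omega

/-- many `h` with a large difference sum -/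
theorem wr_many (P : ℕ → ℝ) (Y s t : ℕ) (δ : ℝ) (hY : 1 ≤ Y) (hδ : 0 < δ)
    (ht : t ≤ Y) (hYδ : 2 ≤ δ ^ 2 * Y)
    (hbig : δ * Y ≤ ‖∑ n ∈ Ico s t, ee (P n)‖) :
    δ ^ 2 / 8 * Y ≤ (((Ico 1 Y).filter (fun h => δ ^ 2 / 8 * Y ≤
      ‖∑ n ∈ Ico s (t - h), ee (P (n + h) - P n)‖)).card : ℝ) := by
  have hYR : (1 : ℝ) ≤ Y := by exact_mod_cast hY
  have h1 := vdc (fun n => ee (P n)) s t Y ht (fun n => (wr_norm_ee _).le)
  simp only [wr_ee_sub] at h1
  have h2 : (δ * Y) ^ 2 ≤ ‖∑ n ∈ Ico s t, ee (P n)‖ ^ 2 :=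
    pow_le_pow_left₀ (by positivity) hbig 2
  set B := (Ico 1 Y).filter (fun h => δ ^ 2 / 8 * Y ≤
      ‖∑ n ∈ Ico s (t - h), ee (P (n + h) - P n)‖) with hB
  have h3 : ∑ h ∈ Ico 1 Y, ‖∑ n ∈ Ico s (t - h), ee (P (n + h) - P n)‖ ≤
      B.card * Y + Y * (δ ^ 2 / 8 * Y) := by
    have e1 : ∀ h ∈ Ico 1 Y, ‖∑ n ∈ Ico s (t - h), ee (P (n + h) - P n)‖ ≤
        (if δ ^ 2 / 8 * Y ≤ ‖∑ n ∈ Ico s (t - h), ee (P (n + h) - P n)‖ then (Y : ℝ) else 0) +
          δ ^ 2 / 8 * Y := by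
      intro h _
      split_ifs with hc
      · have : ‖∑ n ∈ Ico s (t - h), ee (P (n + h) - P n)‖ ≤ Y := by
          calc ‖∑ n ∈ Ico s (t - h), ee (P (n + h) - P n)‖
              ≤ ∑ n ∈ Ico s (t - h), ‖ee (P (n + h) - P n)‖ := norm_sum_le _ _
            _ = ((t - h - s : ℕ) : ℝ) := by simp [wr_norm_ee]
            _ ≤ Y := by exact_mod_cast (show t - h - s ≤ Y by omega)
        have : 0 ≤ δ ^ 2 / 8 * Y := by positivity
        linarith
      · push Not at hc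
        linarith
    calc ∑ h ∈ Ico 1 Y, ‖∑ n ∈ Ico s (t - h), ee (P (n + h) - P n)‖
        ≤ ∑ h ∈ Ico 1 Y, ((if δ ^ 2 / 8 * Y ≤ ‖∑ n ∈ Ico s (t - h), ee (P (n + h) - P n)‖
            then (Y : ℝ) else 0) + δ ^ 2 / 8 * Y) := Finset.sum_le_sum e1
      _ = B.card * Y + (Ico 1 Y).card * (δ ^ 2 / 8 * Y) := by
          rw [Finset.sum_add_distrib, ← Finset.sum_filter, Finset.sum_const, Finset.sum_const,
            nsmul_eq_mul, nsmul_eq_mul]
      _ ≤ B.card * Y + Y * (δ ^ 2 / 8 * Y) := by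
          have : ((Ico 1 Y).card : ℝ) ≤ Y := by
            rw [Nat.card_Ico]; exact_mod_cast Nat.sub_le Y 1
          have h0 : 0 ≤ δ ^ 2 / 8 * Y := by positivity
          have := mul_le_mul_of_nonneg_right this h0
          linarith
  have h4 : (δ * Y) ^ 2 ≤ Y + 2 * (B.card * Y + Y * (δ ^ 2 / 8 * Y)) := by linarith
  have hY0 : (0 : ℝ) < Y := by linarith
  have h5 : δ ^ 2 * Y ≤ 1 + 2 * (B.card + δ ^ 2 / 8 * Y) := by
    have : (δ ^ 2 * Y) * Y ≤ (1 + 2 * (B.card + δ ^ 2 / 8 * Y)) * Y := by nlinarith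
    exact le_of_mul_le_mul_right this hY0
  linarith

/-- a class of `h` with the same denominator -/
theorem wr_class (k C : ℕ) (hk : 1 ≤ k) (hW : WeylInv k C) (α : ℕ → ℝ) (Y s t : ℕ) (δ : ℝ)
    (hY : 1 ≤ Y) (hδ : 0 < δ) (hδ2 : δ ≤ 1 / 2) (ht : t ≤ Y) (hc1 : 2 ≤ δ ^ 2 * Y)
    (hsum : δ * Y ≤ ‖∑ n ∈ Ico s t, ee (∑ j ∈ range (k + 2), α j * (n : ℝ) ^ j)‖)
    (E : ℝ) (hE : E = (1 / (δ ^ 2 / 8)) ^ C) :
    ∃ q0 : ℕ, 1 ≤ q0 ∧ (q0 : ℝ) ≤ E ∧ ∃ B : Finset ℕ, (∀ h ∈ B, 1 ≤ h ∧ h < Y ∧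
      ∃ a : ℤ, |(q0 : ℝ) * ((k + 1) * α (k + 1)) * h - a| ≤ E / (Y : ℝ) ^ k) ∧
      δ ^ 2 / 8 * Y / E ≤ (B.card : ℝ) := by
  classical
  have hYR : (1 : ℝ) ≤ Y := by exact_mod_cast hY
  have hδ' : 0 < δ ^ 2 / 8 := by positivity
  have hδ'2 : δ ^ 2 / 8 ≤ 1 / 2 := by nlinarith
  have hE0 : 0 < E := by rw [hE]; positivity
  have hE1 : 1 ≤ E := by
    rw [hE]
    apply one_le_pow₀
    rw [le_div_iff₀ hδ']
    linarith
  have hmany := wr_many (fun n => ∑ j ∈ range (k + 2), α j * (n : ℝ) ^ j) Y s t δ hY hδ ht hc1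
    (by simpa using hsum)
  set B := (Ico 1 Y).filter (fun h => δ ^ 2 / 8 * Y ≤
      ‖∑ n ∈ Ico s (t - h), ee ((fun n : ℕ => ∑ j ∈ range (k + 2), α j * (n : ℝ) ^ j) (n + h) -
        (fun n : ℕ => ∑ j ∈ range (k + 2), α j * (n : ℝ) ^ j) n)‖) with hB
  have hq : ∀ h ∈ B, ∃ q : ℕ, 1 ≤ q ∧ (q : ℝ) ≤ E ∧
      ∃ a : ℤ, |(q : ℝ) * ((k + 1) * α (k + 1) * h) - a| ≤ E / (Y : ℝ) ^ k := by
    intro h hh
    rw [hB, Finset.mem_filter] at hh
    have hh2 := hh.2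
    simp only [wr_diff] at hh2
    obtain ⟨q, hq1, hq2, hq3⟩ := hW (fun i => ∑ j ∈ Ico (i + 1) (k + 2),
        α j * (Nat.choose j i : ℝ) * (h : ℝ) ^ (j - i)) Y s (t - h) (δ ^ 2 / 8) hY hδ' hδ'2
        ((Nat.sub_le _ _).trans ht) hh2
    rw [← hE] at hq2
    refine ⟨q, hq1, hq2, ?_⟩
    obtain ⟨a, ha⟩ := hq3 k hk le_rfl
    rw [← hE] at ha
    refine ⟨a, ?_⟩
    have e1 : (∑ j ∈ Ico (k + 1) (k + 2), α j * (Nat.choose j k : ℝ) * (h : ℝ) ^ (j - k)) =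
        (k + 1) * α (k + 1) * h := by
      have : Ico (k + 1) (k + 2) = {k + 1} := by
        ext x
        rw [Finset.mem_Ico, Finset.mem_singleton]
        omega
      rw [this, Finset.sum_singleton]
      have e2 : k + 1 - k = 1 := by omega
      rw [e2, pow_one, Nat.choose_succ_self_right]
      push_cast
      ring
    rw [e1] at ha
    exact ha
  choose! qf hq1 hq2 hq3 using hq
  have hmaps : ∀ h ∈ B, qf h ∈ Finset.Icc 1 ⌊E⌋₊ := by
    intro h hh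
    rw [Finset.mem_Icc]
    exact ⟨hq1 h hh, Nat.le_floor (hq2 h hh)⟩
  have hne : (Finset.Icc 1 ⌊E⌋₊).Nonempty := by
    rw [Finset.nonempty_Icc]
    exact Nat.le_floor (by simpa using hE1)
  have hcardle : (Finset.Icc 1 ⌊E⌋₊).card • (δ ^ 2 / 8 * Y / E) ≤ (B.card : ℝ) := by
    rw [nsmul_eq_mul, Nat.card_Icc, Nat.add_sub_cancel]
    calc (⌊E⌋₊ : ℝ) * (δ ^ 2 / 8 * Y / E) ≤ E * (δ ^ 2 / 8 * Y / E) :=
          mul_le_mul_of_nonneg_right (Nat.floor_le hE0.le) (by positivity)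
      _ = δ ^ 2 / 8 * Y := by field_simp
      _ ≤ _ := hmany
  obtain ⟨q0, hq0m, hq0c⟩ := Finset.exists_le_card_fiber_of_nsmul_le_card_of_maps_to hmaps hne hcardle
  rw [Finset.mem_Icc] at hq0m
  have hq0E : (q0 : ℝ) ≤ E := (Nat.cast_le.mpr hq0m.2).trans (Nat.floor_le hE0.le)
  refine ⟨q0, hq0m.1, hq0E, B.filter (fun h => qf h = q0), ?_, hq0c⟩
  intro h hh
  rw [Finset.mem_filter] at hh
  have hB' := hh.1
  rw [hB, Finset.mem_filter, Finset.mem_Ico] at hB'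
  refine ⟨hB'.1.1, hB'.1.2, ?_⟩
  obtain ⟨a, ha⟩ := hq3 h hh.1
  refine ⟨a, ?_⟩
  rw [hh.2] at ha
  have e : (q0 : ℝ) * ((k + 1) * α (k + 1)) * h = q0 * ((k + 1) * α (k + 1) * h) := by ring
  rw [e]
  exact ha

/-- the recurrence lemma applied to one class -/
theorem wr_apply (k : ℕ) (hk : 1 ≤ k) (X E β : ℝ) (Y : ℕ) (hY : 1 ≤ Y) (hX1 : 1 ≤ X) (hE1 : 1 ≤ E)
    (hc2 : 32 * X ^ 2 * E ^ 2 ≤ Y) (B : Finset ℕ)
    (hB : ∀ h ∈ B, 1 ≤ h ∧ h < Y ∧ ∃ a : ℤ, |β * h - a| ≤ E / (Y : ℝ) ^ k)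
    (hcard : 1 / X * Y / E ≤ (B.card : ℝ)) :
    ∃ q : ℕ, 1 ≤ q ∧ (q : ℝ) ≤ 2 * (X * E) ∧ ∃ a : ℤ, |(q : ℝ) * β - a| ≤
      (32 * X ^ 2 * E ^ 3) / (Y : ℝ) ^ (k + 1) := by
  have hYR : (1 : ℝ) ≤ Y := by exact_mod_cast hY
  have hY0 : (0 : ℝ) < Y := by linarith
  have hE0 : 0 < E := by linarith
  have hX0 : 0 < X := by linarith
  have hYk : (Y : ℝ) ≤ Y ^ k := by
    calc (Y : ℝ) = Y ^ 1 := (pow_one _).symm
      _ ≤ Y ^ k := pow_le_pow_right₀ hYR hk
  have hXE : 1 ≤ X * E := by nlinarith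
  obtain ⟨q2, hq21, hq22, a, ha⟩ := recurrence_lemma β (E / (Y : ℝ) ^ k)
    (1 / (X * E)) Y hY (by positivity) (by rw [div_le_one (by positivity)]; exact hXE)
    (by positivity)
    (by
      rw [mul_div_assoc', div_le_div_iff₀ (by positivity) (by positivity)]
      calc 32 * E * (X * E) = 32 * X * E ^ 2 := by ring
        _ ≤ 32 * X ^ 2 * E ^ 2 := by
          have : X ≤ X ^ 2 := by nlinarith
          have h0 : 0 ≤ E ^ 2 := by positivity
          nlinarith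
        _ ≤ Y := hc2
        _ ≤ 1 * (Y : ℝ) ^ k := by rw [one_mul]; exact hYk)
    (by
      have : (1 / (X * E)) ^ 2 * (Y : ℝ) = Y / (X ^ 2 * E ^ 2) := by field_simp
      rw [this, le_div_iff₀ (by positivity)]
      have h0 : 0 ≤ X ^ 2 * E ^ 2 := by positivity
      nlinarith)
    B hB
    (by
      have e : 1 / (X * E) * (Y : ℝ) = 1 / X * Y / E := by field_simp
      rw [e]
      exact hcard)
  have e1 : (2 : ℝ) / (1 / (X * E)) = 2 * (X * E) := by field_simp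
  rw [e1] at hq22
  refine ⟨q2, hq21, hq22, a, ha.trans (le_of_eq ?_)⟩
  rw [pow_succ (Y : ℝ) k]
  field_simp

/-- bounds for the constants -/
theorem wr_const (k C : ℕ) (D X E : ℝ) (hD2 : 2 ≤ D) (hX : X = 8 * D ^ 2) (hE : E = X ^ C) :
    32 * X ^ 2 * E ^ 2 ≤ D ^ (15 * C + k + 15) ∧
    2 * (X * E) * E * (k + 1) ≤ D ^ (15 * C + k + 15) ∧
    32 * X ^ 2 * E ^ 3 ≤ D ^ (15 * C + k + 15) ∧ 2 * D ^ 2 ≤ D ^ (15 * C + k + 15) := by
  have hD0 : 0 < D := by linarith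
  have hD1 : 1 ≤ D := by linarith
  have hDmono : ∀ a b : ℕ, a ≤ b → D ^ a ≤ D ^ b := fun a b h => pow_le_pow_right₀ hD1 h
  have hX0 : 0 < X := by rw [hX]; positivity
  have hXD : X ≤ D ^ 5 := by
    have : (8 : ℝ) ≤ D ^ 3 := by
      calc (8 : ℝ) = 2 ^ 3 := by norm_num
        _ ≤ D ^ 3 := pow_le_pow_left₀ (by norm_num) hD2 3
    calc X = 8 * D ^ 2 := hX
      _ ≤ D ^ 3 * D ^ 2 := mul_le_mul_of_nonneg_right this (by positivity)
      _ = D ^ 5 := by ring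
  have hE0 : 0 < E := by rw [hE]; positivity
  have hED : E ≤ D ^ (5 * C) := by
    rw [hE, pow_mul]; exact pow_le_pow_left₀ hX0.le hXD C
  have e1 : (32 : ℝ) ≤ D ^ 5 := by
    calc (32 : ℝ) = 2 ^ 5 := by norm_num
      _ ≤ D ^ 5 := pow_le_pow_left₀ (by norm_num) hD2 5
  have e2 : X ^ 2 ≤ (D ^ 5) ^ 2 := pow_le_pow_left₀ hX0.le hXD 2
  have e3 : E ^ 2 ≤ (D ^ (5 * C)) ^ 2 := pow_le_pow_left₀ hE0.le hED 2
  have e4 : E ^ 3 ≤ (D ^ (5 * C)) ^ 3 := pow_le_pow_left₀ hE0.le hED 3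
  have e5 : ((k : ℝ) + 1) ≤ D ^ k := by
    have h1 : (k + 1 : ℕ) ≤ 2 ^ k := Nat.lt_two_pow_self
    calc ((k : ℝ) + 1) = ((k + 1 : ℕ) : ℝ) := by push_cast; ring
      _ ≤ ((2 ^ k : ℕ) : ℝ) := by exact_mod_cast h1
      _ = (2 : ℝ) ^ k := by push_cast; ring
      _ ≤ D ^ k := pow_le_pow_left₀ (by norm_num) hD2 k
  refine ⟨?_, ?_, ?_, ?_⟩
  · calc 32 * X ^ 2 * E ^ 2 ≤ D ^ 5 * (D ^ 5) ^ 2 * (D ^ (5 * C)) ^ 2 :=
          mul_le_mul (mul_le_mul e1 e2 (by positivity) (by positivity)) e3 (by positivity)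
            (by positivity)
      _ = D ^ (10 * C + 15) := by rw [← pow_mul, ← pow_mul, ← pow_add, ← pow_add]; congr 1; ring
      _ ≤ D ^ (15 * C + k + 15) := hDmono _ _ (by omega)
  · calc 2 * (X * E) * E * (k + 1) ≤ D * (D ^ 5 * D ^ (5 * C)) * D ^ (5 * C) * D ^ k := by
          apply mul_le_mul _ e5 (by positivity) (by positivity)
          apply mul_le_mul _ hED (by positivity) (by positivity)
          apply mul_le_mul hD2 _ (by positivity) (by positivity)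
          exact mul_le_mul hXD hED (by positivity) (by positivity)
      _ = D ^ (10 * C + k + 6) := by ring
      _ ≤ D ^ (15 * C + k + 15) := hDmono _ _ (by omega)
  · calc 32 * X ^ 2 * E ^ 3 ≤ D ^ 5 * (D ^ 5) ^ 2 * (D ^ (5 * C)) ^ 3 :=
          mul_le_mul (mul_le_mul e1 e2 (by positivity) (by positivity)) e4 (by positivity)
            (by positivity)
      _ = D ^ (15 * C + 15) := by rw [← pow_mul, ← pow_mul, ← pow_add, ← pow_add]; congr 1; ring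
      _ ≤ D ^ (15 * C + k + 15) := hDmono _ _ (by omega)
  · calc 2 * D ^ 2 ≤ D * D ^ 2 := mul_le_mul_of_nonneg_right hD2 (by positivity)
      _ = D ^ 3 := by ring
      _ ≤ D ^ (15 * C + k + 15) := hDmono _ _ (by omega)

/-- leading coefficient is nearly rational -/
theorem weyl_leading (k C : ℕ) (hk : 1 ≤ k) (hW : WeylInv k C) : ∃ C' : ℕ, C ≤ C' ∧
    ∀ (α : ℕ → ℝ) (Y s t : ℕ) (δ : ℝ), 1 ≤ Y → 0 < δ → δ ≤ 1 / 2 → t ≤ Y →
      (1 / δ) ^ C' ≤ (Y : ℝ) →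
      δ * Y ≤ ‖∑ n ∈ Ico s t, ee (∑ j ∈ range (k + 2), α j * (n : ℝ) ^ j)‖ →
      ∃ q : ℕ, 1 ≤ q ∧ (q : ℝ) ≤ (1 / δ) ^ C' ∧
        ∃ a : ℤ, |(q : ℝ) * α (k + 1) - a| ≤ (1 / δ) ^ C' / (Y : ℝ) ^ (k + 1) := by
  refine ⟨15 * C + k + 15, by omega, ?_⟩
  intro α Y s t δ hY hδ hδ2 ht hYbig hsum
  have hYR : (1 : ℝ) ≤ Y := by exact_mod_cast hY
  have hD2 : 2 ≤ 1 / δ := by rw [le_div_iff₀ hδ]; linarith
  have hX' : 1 / (δ ^ 2 / 8) = 8 * (1 / δ) ^ 2 := by field_simp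
  have hX'' : δ ^ 2 / 8 = 1 / (8 * (1 / δ) ^ 2) := by field_simp
  obtain ⟨hc1, hc2, hc3, hc4⟩ := wr_const k C (1 / δ) (8 * (1 / δ) ^ 2) ((8 * (1 / δ) ^ 2) ^ C)
    hD2 rfl rfl
  have hX1 : 1 ≤ 8 * (1 / δ) ^ 2 := by nlinarith
  have hE1 : 1 ≤ (8 * (1 / δ) ^ 2) ^ C := one_le_pow₀ hX1
  have hcY : 2 ≤ δ ^ 2 * Y := by
    have h1 : 2 * (1 / δ) ^ 2 ≤ Y := hc4.trans hYbig
    have h2 : 2 = δ ^ 2 * (2 * (1 / δ) ^ 2) := by field_simp
    calc (2 : ℝ) = δ ^ 2 * (2 * (1 / δ) ^ 2) := h2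
      _ ≤ δ ^ 2 * Y := mul_le_mul_of_nonneg_left h1 (by positivity)
  obtain ⟨q0, hq01, hq0E, B, hB, hBc⟩ := wr_class k C hk hW α Y s t δ hY hδ hδ2 ht hcY hsum
    ((8 * (1 / δ) ^ 2) ^ C) (by rw [hX'])
  rw [hX''] at hBc
  obtain ⟨q2, hq21, hq22, a, ha⟩ := wr_apply k hk _ _ (q0 * ((k + 1) * α (k + 1))) Y hY hX1 hE1
    (hc1.trans hYbig) B hB hBc
  refine ⟨q2 * q0 * (k + 1), ?_, ?_, a, ?_⟩
  · exact Nat.mul_pos (Nat.mul_pos hq21 hq01) (by omega)
  · push_cast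
    refine le_trans ?_ hc2
    exact mul_le_mul_of_nonneg_right (mul_le_mul hq22 hq0E (by positivity) (by positivity))
      (by positivity)
  · have e3 : ((q2 * q0 * (k + 1) : ℕ) : ℝ) * α (k + 1) = q2 * (q0 * ((k + 1) * α (k + 1))) := by
      push_cast; ring
    rw [e3]
    exact ha.trans (div_le_div_of_nonneg_right hc3 (by positivity))

end Vale.Agent.P042.FS
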